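import Vale.Agent.P254.Fib.Defs
import Mathlib.Analysis.Convex.Continuous
import Mathlib.MeasureTheory.Integral.Layercake

/-! P254/Fib: `cap_sq` (leaf R2) by the decreasing rearrangement and comparison with a linear
function. -/

open MeasureTheory Set Filter

namespace Vale.Agent.P254.Fib.H582

/-- The decreasing rearrangement. -/
noncomputable def rr (a b : ℝ) (g : ℝ → ℝ) (t : ℝ) : ℝ :=
  sSup ((fun x => min (g x) (g (x + t))) '' Icc a (b - t))

variable {a b : ℝ} {g : ℝ → ℝ}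

theorem g_le (hconc : ConcaveOn ℝ (Icc a b) g) (hpos : ∀ s ∈ Icc a b, 0 ≤ g s) :
    ∀ s ∈ Icc a b, g s ≤ 2 * g ((a + b) / 2) := by
  intro s hs
  have hs' : a + b - s ∈ Icc a b := ⟨by linarith [hs.2], by linarith [hs.1]⟩
  have h := hconc.2 hs hs' (by norm_num : (0 : ℝ) ≤ 1 / 2) (by norm_num : (0 : ℝ) ≤ 1 / 2)
    (by norm_num)
  simp only [smul_eq_mul] at h
  have e : 1 / 2 * s + 1 / 2 * (a + b - s) = (a + b) / 2 := by ring
  rw [e] at h
  have := hpos _ hs'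
  linarith

theorem rr_bdd (hconc : ConcaveOn ℝ (Icc a b) g) (hpos : ∀ s ∈ Icc a b, 0 ≤ g s) {t : ℝ}
    (ht : t ∈ Icc 0 (b - a)) : BddAbove ((fun x => min (g x) (g (x + t))) '' Icc a (b - t)) := by
  refine ⟨2 * g ((a + b) / 2), ?_⟩
  rintro _ ⟨x, hx, rfl⟩
  exact (min_le_left _ _).trans (g_le hconc hpos x ⟨hx.1, hx.2.trans (by linarith [ht.1])⟩)

theorem rr_ne {t : ℝ} (ht : t ∈ Icc 0 (b - a)) :
    ((fun x => min (g x) (g (x + t))) '' Icc a (b - t)).Nonempty :=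
  ⟨_, a, ⟨le_rfl, by linarith [ht.2]⟩, rfl⟩

theorem lt_rr (hconc : ConcaveOn ℝ (Icc a b) g) (hpos : ∀ s ∈ Icc a b, 0 ≤ g s) {t : ℝ}
    (ht : t ∈ Icc 0 (b - a)) {c : ℝ} :
    c < rr a b g t ↔ ∃ x ∈ Icc a (b - t), c < g x ∧ c < g (x + t) := by
  unfold rr
  rw [lt_csSup_iff (rr_bdd hconc hpos ht) (rr_ne ht)]
  constructor
  · rintro ⟨_, ⟨x, hx, rfl⟩, h⟩
    exact ⟨x, hx, lt_min_iff.1 h⟩
  · rintro ⟨x, hx, h⟩
    exact ⟨_, ⟨x, hx, rfl⟩, lt_min_iff.2 h⟩

theorem le_rr (hconc : ConcaveOn ℝ (Icc a b) g) (hpos : ∀ s ∈ Icc a b, 0 ≤ g s) {t : ℝ}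
    (ht : t ∈ Icc 0 (b - a)) {x : ℝ} (hx : x ∈ Icc a (b - t)) :
    min (g x) (g (x + t)) ≤ rr a b g t :=
  le_csSup (rr_bdd hconc hpos ht) ⟨x, hx, rfl⟩

theorem rr_le (hconc : ConcaveOn ℝ (Icc a b) g) (hpos : ∀ s ∈ Icc a b, 0 ≤ g s) {t : ℝ}
    (ht : t ∈ Icc 0 (b - a)) : rr a b g t ≤ 2 * g ((a + b) / 2) := by
  refine csSup_le (rr_ne ht) ?_
  rintro _ ⟨x, hx, rfl⟩
  exact (min_le_left _ _).trans (g_le hconc hpos x ⟨hx.1, hx.2.trans (by linarith [ht.1])⟩)

theorem rr_nonneg (hconc : ConcaveOn ℝ (Icc a b) g) (hpos : ∀ s ∈ Icc a b, 0 ≤ g s) {t : ℝ}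
    (ht : t ∈ Icc 0 (b - a)) : 0 ≤ rr a b g t :=
  (le_min (hpos a ⟨le_rfl, by linarith [ht.1, ht.2]⟩)
    (hpos (a + t) ⟨by linarith [ht.1], by linarith [ht.2]⟩)).trans
    (le_rr hconc hpos ht ⟨le_rfl, by linarith [ht.2]⟩)

theorem rr_conc (hconc : ConcaveOn ℝ (Icc a b) g) (hpos : ∀ s ∈ Icc a b, 0 ≤ g s) :
    ConcaveOn ℝ (Icc 0 (b - a)) (rr a b g) := by
  refine ⟨convex_Icc _ _, ?_⟩
  intro t ht t' ht' u v hu hv huv
  have htt : u • t + v • t' ∈ Icc 0 (b - a) := convex_Icc _ _ ht ht' hu hv huv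
  refine le_of_forall_pos_le_add fun ε hε => ?_
  obtain ⟨x, hx, h1, h2⟩ := (lt_rr hconc hpos ht).1 (sub_lt_self (rr a b g t) hε)
  obtain ⟨x', hx', h1', h2'⟩ := (lt_rr hconc hpos ht').1 (sub_lt_self (rr a b g t') hε)
  simp only [smul_eq_mul] at *
  have hx0 : x ∈ Icc a b := ⟨hx.1, by linarith [hx.2, ht.1]⟩
  have hx0' : x' ∈ Icc a b := ⟨hx'.1, by linarith [hx'.2, ht'.1]⟩
  have hx1 : x + t ∈ Icc a b := ⟨by linarith [hx.1, ht.1], by linarith [hx.2]⟩
  have hx1' : x' + t' ∈ Icc a b := ⟨by linarith [hx'.1, ht'.1], by linarith [hx'.2]⟩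
  have c1 := hconc.2 hx0 hx0' hu hv huv
  have c2 := hconc.2 hx1 hx1' hu hv huv
  simp only [smul_eq_mul] at c1 c2
  have e : u * (x + t) + v * (x' + t') = (u * x + v * x') + (u * t + v * t') := by ring
  rw [e] at c2
  have hxx : u * x + v * x' ∈ Icc a (b - (u * t + v * t')) := by
    have ea : u * a + v * a = a := by rw [← add_mul, huv, one_mul]
    have eb : u * b + v * b = b := by rw [← add_mul, huv, one_mul]
    have f1 := mul_le_mul_of_nonneg_left hx.1 hu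
    have f1' := mul_le_mul_of_nonneg_left hx'.1 hv
    have f2 := mul_le_mul_of_nonneg_left hx.2 hu
    have f2' := mul_le_mul_of_nonneg_left hx'.2 hv
    rw [mul_sub] at f2 f2'
    constructor
    · linarith
    · linarith
  have h3 := le_rr hconc hpos htt hxx
  have h4 : u * rr a b g t + v * rr a b g t' - ε ≤
      min (g (u * x + v * x')) (g (u * x + v * x' + (u * t + v * t'))) := by
    have d1 := mul_le_mul_of_nonneg_left h1.le hu
    have d2 := mul_le_mul_of_nonneg_left h2.le hu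
    have d1' := mul_le_mul_of_nonneg_left h1'.le hv
    have d2' := mul_le_mul_of_nonneg_left h2'.le hv
    have e2 : u * ε + v * ε = ε := by rw [← add_mul, huv, one_mul]
    refine le_min ?_ ?_
    · nlinarith
    · nlinarith
  linarith

theorem rr_anti (hconc : ConcaveOn ℝ (Icc a b) g) (hpos : ∀ s ∈ Icc a b, 0 ≤ g s) :
    AntitoneOn (rr a b g) (Icc 0 (b - a)) := by
  intro t ht t' ht' htt
  refine le_of_forall_lt fun c hc => ?_
  obtain ⟨x, hx, h1, h2⟩ := (lt_rr hconc hpos ht').1 hc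
  refine (lt_rr hconc hpos ht).2 ⟨x, ⟨hx.1, by linarith [hx.2]⟩, h1, ?_⟩
  have := hconc.min_le_of_mem_Icc (x := x) (y := x + t') (z := x + t)
    ⟨hx.1, by linarith [hx.2, ht'.1]⟩ ⟨by linarith [hx.1, ht'.1], by linarith [hx.2]⟩
    ⟨by linarith [ht.1], by linarith⟩
  exact (lt_min h1 h2).trans_le this

/-- level sets -/
theorem lev (hconc : ConcaveOn ℝ (Icc a b) g) (hpos : ∀ s ∈ Icc a b, 0 ≤ g s) (c : ℝ)
    (hne : ({s | c < g s} ∩ Icc a b).Nonempty) {α β : ℝ}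
    (hα : α = sInf ({s | c < g s} ∩ Icc a b)) (hβ : β = sSup ({s | c < g s} ∩ Icc a b)) :
    α ≤ β ∧ Ioo α β ⊆ {s | c < g s} ∩ Icc a b ∧ {s | c < g s} ∩ Icc a b ⊆ Icc α β ∧
      Ioo 0 (β - α) ⊆ {t | c < rr a b g t} ∩ Icc 0 (b - a) ∧
      {t | c < rr a b g t} ∩ Icc 0 (b - a) ⊆ Icc 0 (β - α) := by
  have hba : BddAbove ({s | c < g s} ∩ Icc a b) := ⟨b, fun x hx => hx.2.2⟩
  have hbb : BddBelow ({s | c < g s} ∩ Icc a b) := ⟨a, fun x hx => hx.2.1⟩
  have hsub : {s | c < g s} ∩ Icc a b ⊆ Icc α β := fun x hx => by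
    rw [hα, hβ]
    exact ⟨csInf_le hbb hx, le_csSup hba hx⟩
  have hlow : ∀ z, α < z → ∃ x ∈ {s | c < g s} ∩ Icc a b, x < z := fun z hz => by
    rw [hα] at hz
    exact exists_lt_of_csInf_lt hne hz
  have hup : ∀ z, z < β → ∃ x ∈ {s | c < g s} ∩ Icc a b, z < x := fun z hz => by
    rw [hβ] at hz
    exact exists_lt_of_lt_csSup hne hz
  have hbetw : ∀ x ∈ {s | c < g s} ∩ Icc a b, ∀ y ∈ {s | c < g s} ∩ Icc a b, ∀ z ∈ Icc x y,
      z ∈ {s | c < g s} ∩ Icc a b := by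
    intro x hx y hy z hz
    refine ⟨?_, hx.2.1.trans hz.1, hz.2.trans hy.2.2⟩
    have := hconc.min_le_of_mem_Icc hx.2 hy.2 hz
    exact (lt_min hx.1 hy.1).trans_le this
  refine ⟨?_, ?_, hsub, ?_, ?_⟩
  · obtain ⟨x, hx⟩ := hne
    exact (hsub hx).1.trans (hsub hx).2
  · intro s hs
    obtain ⟨x, hx, hxs⟩ := hlow s hs.1
    obtain ⟨y, hy, hys⟩ := hup s hs.2
    exact hbetw x hx y hy s ⟨hxs.le, hys.le⟩
  · intro t ht
    obtain ⟨x, hx, hx1⟩ := hlow (α + (β - α - t) / 2) (by linarith [ht.2])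
    obtain ⟨y, hy, hy1⟩ := hup (β - (β - α - t) / 2) (by linarith [ht.2])
    have hxt := hbetw x hx y hy (x + t) ⟨by linarith [ht.1], by linarith⟩
    have ht' : t ∈ Icc 0 (b - a) := ⟨ht.1.le, by linarith [hx.2.1, hxt.2.2]⟩
    exact ⟨(lt_rr hconc hpos ht').2 ⟨x, ⟨hx.2.1, by linarith [hxt.2.2]⟩, hx.1, hxt.1⟩, ht'⟩
  · rintro t ⟨h1, ht⟩
    obtain ⟨x, hx, h2, h3⟩ := (lt_rr hconc hpos ht).1 h1
    have e1 := hsub (⟨h2, hx.1, by linarith [hx.2, ht.1]⟩ : x ∈ {s | c < g s} ∩ Icc a b)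
    have e2 := hsub (⟨h3, by linarith [hx.1, ht.1], by linarith [hx.2]⟩ :
      x + t ∈ {s | c < g s} ∩ Icc a b)
    exact ⟨ht.1, by linarith [e1.1, e2.2]⟩

theorem lev_empty (hconc : ConcaveOn ℝ (Icc a b) g) (hpos : ∀ s ∈ Icc a b, 0 ≤ g s) (c : ℝ)
    (hne : {s | c < g s} ∩ Icc a b = ∅) : {t | c < rr a b g t} ∩ Icc 0 (b - a) = ∅ := by
  rw [eq_empty_iff_forall_notMem] at *
  rintro t ⟨h1, ht⟩
  obtain ⟨x, hx, h2, h3⟩ := (lt_rr hconc hpos ht).1 h1
  exact hne x ⟨h2, hx.1, by linarith [hx.2, ht.1]⟩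

theorem ae_Ioo {α β : ℝ} {U : Set ℝ} (h1 : Ioo α β ⊆ U) (h2 : U ⊆ Icc α β) :
    U =ᵐ[volume] Ioo α β :=
  (h2.eventuallyLE.trans (Ioo_ae_eq_Icc (μ := volume) (a := α) (b := β)).symm.le).antisymm
    h1.eventuallyLE

theorem vol_eq (hconc : ConcaveOn ℝ (Icc a b) g) (hpos : ∀ s ∈ Icc a b, 0 ≤ g s) (c : ℝ) :
    (volume.restrict (Icc a b)) {s | c < g s} =
      (volume.restrict (Icc 0 (b - a))) {t | c < rr a b g t} := by
  rw [Measure.restrict_apply' measurableSet_Icc, Measure.restrict_apply' measurableSet_Icc]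
  rcases ({s | c < g s} ∩ Icc a b).eq_empty_or_nonempty with h | h
  · rw [lev_empty hconc hpos c h, h]
  · obtain ⟨h0, h1, h2, h3, h4⟩ := lev hconc hpos c h rfl rfl
    rw [measure_congr (ae_Ioo h1 h2), measure_congr (ae_Ioo h3 h4), Real.volume_Ioo,
      Real.volume_Ioo, sub_zero]

theorem layer (n : ℕ) (μ : Measure ℝ) {f : ℝ → ℝ} (h0 : 0 ≤ᵐ[μ] f) (hm : AEMeasurable f μ) :
    ∫⁻ x, ENNReal.ofReal (f x ^ (n + 1)) ∂μ =
      ∫⁻ t in Ioi 0, μ {x | t < f x} * ENNReal.ofReal (((n : ℝ) + 1) * t ^ n) := by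
  have h := lintegral_comp_eq_lintegral_meas_lt_mul μ (f := f)
    (g := fun t => ((n : ℝ) + 1) * t ^ n) h0 hm
    (fun t _ => (by fun_prop : Continuous fun t : ℝ => ((n : ℝ) + 1) * t ^ n).intervalIntegrable
      _ _)
    (by
      filter_upwards [ae_restrict_mem measurableSet_Ioi] with t ht
      have : (0 : ℝ) < t := ht
      positivity)
  rw [← h]
  refine lintegral_congr fun x => ?_
  congr 1
  rw [intervalIntegral.integral_const_mul, integral_pow]
  field_simp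
  simp

theorem conc_aem {a b : ℝ} {g : ℝ → ℝ} (hconc : ConcaveOn ℝ (Icc a b) g) :
    AEMeasurable g (volume.restrict (Icc a b)) := by
  have hc : ContinuousOn g (Ioo a b) := by
    have := hconc.continuousOn_interior
    rwa [interior_Icc] at this
  rw [← Measure.restrict_congr_set (Ioo_ae_eq_Icc (μ := volume) (a := a) (b := b))]
  exact hc.aemeasurable measurableSet_Ioo

theorem int_pow {C : ℝ} (hm : AEMeasurable g (volume.restrict (Icc a b)))
    (hpos : ∀ s ∈ Icc a b, 0 ≤ g s) (hC : ∀ s ∈ Icc a b, g s ≤ C) (k : ℕ) :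
    IntegrableOn (fun s => g s ^ k) (Icc a b) := by
  refine Integrable.of_bound (hm.pow_const k).aestronglyMeasurable (C ^ k) ?_
  filter_upwards [ae_restrict_mem measurableSet_Icc] with s hs
  rw [Real.norm_of_nonneg (pow_nonneg (hpos s hs) _)]
  exact pow_le_pow_left₀ (hpos s hs) (hC s hs) _

theorem toR {a b : ℝ} (hab : a ≤ b) {F : ℝ → ℝ} (hi : IntegrableOn F (Icc a b))
    (h0 : ∀ s ∈ Icc a b, 0 ≤ F s) :
    ∫ t in a..b, F t = (∫⁻ t in Icc a b, ENNReal.ofReal (F t)).toReal := by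
  rw [intervalIntegral.integral_of_le hab, ← integral_Icc_eq_integral_Ioc,
    integral_eq_lintegral_of_nonneg_ae _ hi.aestronglyMeasurable]
  filter_upwards [ae_restrict_mem measurableSet_Icc] with s hs using h0 s hs


theorem pow_eq (hab : a < b) (hconc : ConcaveOn ℝ (Icc a b) g) (hpos : ∀ s ∈ Icc a b, 0 ≤ g s)
    (n : ℕ) :
    (∫ t in (0 : ℝ)..(b - a), rr a b g t ^ (n + 1)) = ∫ t in a..b, g t ^ (n + 1) := by
  have hB : (0 : ℝ) ≤ b - a := (sub_pos.2 hab).le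
  have hh0 : ∀ s ∈ Icc 0 (b - a), 0 ≤ rr a b g s := fun s hs => rr_nonneg hconc hpos hs
  have hgm := conc_aem hconc
  have hhm := conc_aem (rr_conc hconc hpos)
  have hgi := int_pow hgm hpos (g_le hconc hpos) (n + 1)
  have hhi := int_pow hhm hh0 (fun s hs => rr_le hconc hpos hs) (n + 1)
  rw [toR hB hhi fun s hs => pow_nonneg (hh0 s hs) _,
    toR hab.le hgi fun s hs => pow_nonneg (hpos s hs) _,
    layer n _ (by filter_upwards [ae_restrict_mem measurableSet_Icc] with s hs using hh0 s hs) hhm,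
    layer n _ (by filter_upwards [ae_restrict_mem measurableSet_Icc] with s hs using hpos s hs) hgm]
  congr 1
  refine lintegral_congr fun t => ?_
  rw [vol_eq hconc hpos t]

theorem dec_sq {L : ℝ} (hL : 0 < L) {h : ℝ → ℝ} (hconc : ConcaveOn ℝ (Icc 0 L) h)
    (hanti : AntitoneOn h (Icc 0 L)) (hpos : ∀ s ∈ Icc 0 L, 0 ≤ h s) :
    L * ∫ s in (0 : ℝ)..L, h s ^ 2 ≤ 4 / 3 * (∫ s in (0 : ℝ)..L, h s) ^ 2 := by
  have m0 : (0 : ℝ) ∈ Icc 0 L := ⟨le_rfl, hL.le⟩
  have mL : L ∈ Icc 0 L := ⟨hL.le, le_rfl⟩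
  have u : uIcc 0 L = Icc 0 L := uIcc_of_le hL.le
  have i1 : IntervalIntegrable h volume 0 L := (by rwa [u] : AntitoneOn h (uIcc 0 L)).intervalIntegrable
  have i2 : IntervalIntegrable (fun s => h s ^ 2) volume 0 L := by
    refine AntitoneOn.intervalIntegrable ?_
    rw [u]
    intro x hx y hy hxy
    exact pow_le_pow_left₀ (hpos y hy) (hanti hx hy hxy) 2
  set a := ∫ s in (0 : ℝ)..L, h s with ha
  set c := 2 * a / L with hc
  have hcL : c * L = 2 * a := by rw [hc]; field_simp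
  have il : ∫ s in (0 : ℝ)..L, (1 - s / L) = L / 2 := by
    rw [intervalIntegral.integral_sub (by simp) (by apply Continuous.intervalIntegrable; fun_prop),
      intervalIntegral.integral_div, integral_id, intervalIntegral.integral_const]
    simp
    field_simp
    ring
  have il2 : ∫ s in (0 : ℝ)..L, (1 - s / L) ^ 2 = L / 3 := by
    have h1 : ∀ s : ℝ, (1 - s / L) ^ 2 = 1 - (2 / L) * s + (1 / L ^ 2) * s ^ 2 := by
      intro s; field_simp; ring
    simp only [h1]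
    rw [intervalIntegral.integral_add (by apply Continuous.intervalIntegrable; fun_prop)
        (by apply Continuous.intervalIntegrable; fun_prop),
      intervalIntegral.integral_sub (by simp) (by apply Continuous.intervalIntegrable; fun_prop),
      intervalIntegral.integral_const_mul, intervalIntegral.integral_const_mul, integral_id,
      integral_pow, intervalIntegral.integral_const]
    simp
    field_simp
    ring
  have hlow : ∀ s ∈ Icc 0 L, h 0 * (1 - s / L) ≤ h s := by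
    intro s hs
    have h1 := hconc.2 m0 mL
      (show (0 : ℝ) ≤ 1 - s / L by rw [sub_nonneg, div_le_one hL]; exact hs.2)
      (show (0 : ℝ) ≤ s / L from div_nonneg hs.1 hL.le) (by ring)
    simp only [smul_eq_mul] at h1
    have h2 : (1 - s / L) * 0 + s / L * L = s := by field_simp; ring
    rw [h2] at h1
    have h3 := mul_nonneg (div_nonneg hs.1 hL.le) (hpos L mL)
    linarith
  have hH : h 0 ≤ c := by
    have h1 : ∫ s in (0 : ℝ)..L, h 0 * (1 - s / L) ≤ ∫ s in (0 : ℝ)..L, h s :=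
      intervalIntegral.integral_mono_on hL.le (by apply Continuous.intervalIntegrable; fun_prop) i1
        hlow
    rw [intervalIntegral.integral_const_mul, il, ← ha] at h1
    rw [hc, le_div_iff₀ hL]
    linarith
  -- the crossing point
  set l : ℝ → ℝ := fun s => c * (1 - s / L) with hl
  have hc0 : 0 ≤ c := (hpos 0 m0).trans hH
  have lanti : ∀ x y : ℝ, x ≤ y → l y ≤ l x := by
    intro x y hxy
    have : x / L ≤ y / L := div_le_div_of_nonneg_right hxy hL.le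
    exact mul_le_mul_of_nonneg_left (by linarith) hc0
  set A : Set ℝ := {s | s ∈ Icc 0 L ∧ l s ≤ h s} with hA
  have lL : l L = 0 := by simp [hl, hL.ne']
  have mA : L ∈ A := ⟨mL, by rw [lL]; exact hpos L mL⟩
  have bA : BddBelow A := ⟨0, fun x hx => hx.1.1⟩
  set σ := sInf A with hσ
  have σ0 : 0 ≤ σ := le_csInf ⟨L, mA⟩ fun x hx => hx.1.1
  have σL : σ ≤ L := csInf_le bA mA
  have mσ : σ ∈ Icc 0 L := ⟨σ0, σL⟩
  have hright : ∀ s ∈ Icc 0 L, σ < s → l s ≤ h s := by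
    intro s hs hσs
    obtain ⟨x, hx, hxs⟩ := exists_lt_of_csInf_lt ⟨L, mA⟩ hσs
    rcases hs.2.eq_or_lt with rfl | hsL
    · exact mA.2
    have hxL : x < L := hxs.trans hsL
    have h1 := hconc.2 hx.1 mL
      (show (0 : ℝ) ≤ (L - s) / (L - x) from div_nonneg (by linarith) (by linarith))
      (show (0 : ℝ) ≤ (s - x) / (L - x) from div_nonneg (by linarith) (by linarith))
      (by rw [← add_div]; exact (div_eq_one_iff_eq (by linarith)).2 (by ring))
    simp only [smul_eq_mul] at h1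
    have hne : L - x ≠ 0 := by linarith
    have h2 : (L - s) / (L - x) * x + (s - x) / (L - x) * L = s := by field_simp; ring
    rw [h2] at h1
    have h3 : (L - s) / (L - x) * l x ≤ (L - s) / (L - x) * h x :=
      mul_le_mul_of_nonneg_left hx.2 (div_nonneg (by linarith) (by linarith))
    have h4 : 0 ≤ (s - x) / (L - x) * h L :=
      mul_nonneg (div_nonneg (by linarith) (by linarith)) (hpos L mL)
    have h5 : (L - s) / (L - x) * l x = l s := by
      simp only [hl]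
      field_simp
    linarith
  have hleft : ∀ s ∈ Icc 0 L, s < σ → h s ≤ l s := by
    intro s hs hsσ
    by_contra hcon
    exact absurd (csInf_le bA (⟨hs, (not_le.1 hcon).le⟩ : s ∈ A)) (not_le.2 hsσ)
  have key : ∀ s ∈ Icc 0 L, h s ^ 2 - l s ^ 2 ≤ (h σ + l σ) * (h s - l s) := by
    intro s hs
    rcases lt_trichotomy s σ with h1 | h1 | h1
    · have h2 := hleft s hs h1
      have h3 := hanti hs mσ h1.le
      have h4 := lanti s σ h1.le
      nlinarith [mul_nonneg (sub_nonneg.2 h2) (by linarith : 0 ≤ h s + l s - (h σ + l σ))]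
    · rw [h1]; nlinarith
    · have h2 := hright s hs h1
      have h3 := hanti mσ hs h1.le
      have h4 := lanti σ s h1.le
      nlinarith [mul_nonneg (sub_nonneg.2 h2) (by linarith : 0 ≤ (h σ + l σ) - (h s + l s))]
  have il' : IntervalIntegrable l volume 0 L := by
    apply Continuous.intervalIntegrable; fun_prop
  have il2' : IntervalIntegrable (fun s => l s ^ 2) volume 0 L := by
    apply Continuous.intervalIntegrable; fun_prop
  have h1 := intervalIntegral.integral_mono_on hL.le (i2.sub il2') ((i1.sub il').const_mul _) key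
  rw [intervalIntegral.integral_sub i2 il2', intervalIntegral.integral_const_mul,
    intervalIntegral.integral_sub i1 il', ← ha] at h1
  have h2 : ∫ s in (0 : ℝ)..L, l s = a := by
    simp only [hl]
    rw [intervalIntegral.integral_const_mul, il]
    linarith
  have h3 : ∫ s in (0 : ℝ)..L, l s ^ 2 = c ^ 2 * (L / 3) := by
    simp only [hl, mul_pow]
    rw [intervalIntegral.integral_const_mul, il2]
  rw [h2, h3, sub_self, mul_zero] at h1
  have h4 : L * (c ^ 2 * (L / 3)) = 4 / 3 * a ^ 2 := by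
    have : (c * L) ^ 2 = (2 * a) ^ 2 := by rw [hcL]
    nlinarith
  nlinarith [mul_le_mul_of_nonneg_left (sub_nonpos.1 h1) hL.le]

/-- [R2] -/
theorem cap_sq {a b : ℝ} (hab : a < b) {h : ℝ → ℝ} (hconc : ConcaveOn ℝ (Icc a b) h)
    (hpos : ∀ s ∈ Icc a b, 0 ≤ h s) :
    (b - a) * ∫ s in a..b, h s ^ 2 ≤ 4 / 3 * (∫ s in a..b, h s) ^ 2 := by
  have h1 := dec_sq (sub_pos.2 hab) (rr_conc hconc hpos) (rr_anti hconc hpos)
    fun s hs => rr_nonneg hconc hpos hs
  have e1 := pow_eq hab hconc hpos 0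
  have e2 := pow_eq hab hconc hpos 1
  simp only [zero_add, pow_one] at e1
  rw [← e1, ← e2]
  exact h1

end Vale.Agent.P254.Fib.H582
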