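import Vale.Agent.P254.Fib.Defs
import Vale.Agent.P254.Fib.Core678

/-!
P254, convex bodies whose parallel sections are isotropic up to scale: the main inequality
`Vale.Agent.P254.Fib.core` is in the imported file.
-/
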