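import Vale.Agent.P254.Fib.Transfer863
import Vale.Agent.P254.Fib.Core
import Vale.Agent.P254.Fib.CoreEq
import Vale.Agent.P254.Bdl.B2
import Vale.Agent.P254.Bdl.B4
import Vale.Agent.P254.Bdl.B7
import Vale.Agent.P254.Bdl.B10
import Vale.Agent.P254.Bdl.B17
import Vale.Agent.P254.Bdl.B20

/-!
P254: the isotropic constant conjecture for a body with centred sections which satisfy the
conjecture and have proportional covariance matrices.
-/

open MeasureTheory Set Real Matrix

namespace Vale.Agent.P254.Fib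

open Vale.Agent.P254.Perm (kap)
open Vale.Agent.P254.FV (Good Dn simpC simpC_pos)

/-- [F0] -/
theorem simpC_kap (m : ℕ) (hm : 1 ≤ m) : simpC m * kap m = simpC (m + 1) := by
  unfold simpC kap
  rw [Nat.factorial_succ]
  push_cast
  have h1 : (m.factorial : ℝ) ≠ 0 := by positivity
  have h2 : (m : ℝ) + 1 ≠ 0 := by positivity
  have h3 : (m : ℝ) + 2 ≠ 0 := by positivity
  have h4 : (m : ℝ) + 3 ≠ 0 := by positivity
  have e1 : (m : ℝ) + 1 + 1 = m + 2 := by ring
  have e2 : (m : ℝ) + 1 + 2 = m + 3 := by ring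
  rw [e1, e2]
  simp only [mul_pow]
  field_simp
  ring

namespace H863

variable {m : ℕ}

theorem kap_pos (m : ℕ) : 0 < kap m := by
  unfold kap; positivity

/-- The determinant of a block diagonal matrix. -/
theorem det_block {C : Matrix (Fin (m + 1)) (Fin (m + 1)) ℝ} {Q : Matrix (Fin m) (Fin m) ℝ}
    {τ ρ : ℝ} (h00 : C 0 0 = τ) (h0 : ∀ j : Fin m, C 0 j.succ = 0)
    (h1 : ∀ i j : Fin m, C i.succ j.succ = ρ * Q i j) : C.det = τ * (ρ ^ m * Q.det) := by
  rw [Matrix.det_succ_row_zero, Fin.sum_univ_succ]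
  have h2 : ∑ i : Fin m, (-1) ^ (i.succ : ℕ) * C 0 i.succ *
      (C.submatrix Fin.succ (Fin.succAbove i.succ)).det = 0 :=
    Finset.sum_eq_zero fun i _ => by rw [h0]; ring
  rw [h2, h00, add_zero]
  have h3 : C.submatrix Fin.succ (Fin.succAbove 0) = ρ • Q := by
    ext i j
    rw [submatrix_apply, Fin.succAbove_zero, Matrix.smul_apply, smul_eq_mul]
    exact h1 i j
  rw [h3, det_smul, Fintype.card_fin]
  simp

/-- A simplex in `ℝ × ℝ^m` is a simplex in `ℝ^(m+1)`. -/
theorem simplex_of_toL {K : Set (Fin (m + 1) → ℝ)} {v : Fin (m + 2) → ℝ × (Fin m → ℝ)}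
    (hv : AffineIndependent ℝ v) (h : toL K = convexHull ℝ (range v)) : IsSimplex K := by
  let φ : (ℝ × (Fin m → ℝ)) →ₗ[ℝ] (Fin (m + 1) → ℝ) :=
    { toFun := fun p => Fin.cons p.1 p.2
      map_add' := fun p q => by
        funext i
        refine Fin.cases ?_ (fun k => ?_) i <;> simp
      map_smul' := fun r p => by
        funext i
        refine Fin.cases ?_ (fun k => ?_) i <;> simp }
  have hφ : Function.Injective φ := by
    intro p q hpq
    have h0 := congrFun hpq 0
    refine Prod.ext ?_ ?_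
    · simpa [φ] using h0
    · funext i
      have := congrFun hpq i.succ
      simpa [φ] using this
  refine ⟨φ ∘ v, ?_, ?_⟩
  · have := hv.map' φ.toAffineMap (by simpa using hφ)
    exact this
  · have h1 : K = φ '' toL K := by
      ext x
      constructor
      · intro hx
        refine ⟨(x 0, fun i => x i.succ), ?_, ?_⟩
        · rw [toL_eq]
          exact ⟨x, hx, rfl⟩
        · show (Fin.cons (x 0) (fun i : Fin m => x i.succ) : Fin (m + 1) → ℝ) = x
          funext i
          refine Fin.cases ?_ (fun k => ?_) i <;> simp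
      · rintro ⟨p, hp, rfl⟩
        exact hp
    rw [range_comp, ← LinearMap.image_convexHull, ← h]
    exact h1

end H863

open H863

/-- [F3] all sections centred -/
theorem good0 {m : ℕ} (hm : 1 ≤ m) {K : Set (Fin (m + 1) → ℝ)} (hK : IsConvexBody K)
    (Q : Matrix (Fin m) (Fin m) ℝ)
    (hG : ∀ s, 0 < (volume (fib K s)).toReal → Good (fib K s))
    (hc : ∀ s, 0 < (volume (fib K s)).toReal → centroid (fib K s) = 0)
    (hQ : ∀ s, 0 < (volume (fib K s)).toReal → ∃ t : ℝ, covMatrix (fib K s) = t • Q) :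
    Good K := by
  have hL : IsCompact (toL K) := isCompact_toL hK.2.1
  have hLc : Convex ℝ (toL K) := convex_toL hK.1
  have hfib : ∀ s, fib K s = {y | (s, y) ∈ toL K} := fun s => rfl
  have hScomp : ∀ s, IsCompact (fib K s) := fun s => Perm.isCompact_slice hL s
  -- the volume
  have hV0 : 0 < volume K :=
    (isOpen_interior.measure_pos volume hK.2.2).trans_le (measure_mono interior_subset)
  have hM : 0 < (volume (toL K)).toReal := by
    rw [vol_toL]
    exact ENNReal.toReal_pos hV0.ne' hK.2.1.measure_lt_top.ne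
  set M := (volume (toL K)).toReal with hMdef
  have hKM : (volume K).toReal = M := by rw [hMdef, vol_toL]
  have hvolint : M = ∫ s, (volume (fib K s)).toReal := by
    have h := Perm.int_slice hL (f := fun _ => (1 : ℝ)) continuous_const
    rw [hMdef]
    exact (by simpa [Measure.real] using h :
      (volume (toL K)).toReal = ∫ s, (volume {y | (s, y) ∈ toL K}).toReal)
  obtain ⟨s0, hs0⟩ : ∃ s, 0 < (volume (fib K s)).toReal := by
    by_contra hcon
    push Not at hcon
    have : ∀ s, (volume (fib K s)).toReal = 0 := fun s => le_antisymm (hcon s) ENNReal.toReal_nonneg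
    rw [hvolint] at hM
    simp [this] at hM
  have hnull : ∀ s, ¬ 0 < (volume (fib K s)).toReal → ∀ f : (Fin m → ℝ) → ℝ,
      ∫ y in fib K s, f y = 0 := by
    intro s hs f
    have h1 : (volume (fib K s)).toReal = 0 := le_antisymm (not_lt.1 hs) ENNReal.toReal_nonneg
    have h2 : volume (fib K s) = 0 := by
      rcases (ENNReal.toReal_eq_zero_iff _).1 h1 with h | h
      · exact h
      · exact absurd h (hScomp s).measure_lt_top.ne
    rw [Measure.restrict_eq_zero.2 h2, integral_zero_measure]
  have hmean : ∀ s i, ∫ y in {y | (s, y) ∈ toL K}, y i = 0 := by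
    intro s i
    by_cases hs : 0 < (volume (fib K s)).toReal
    · have h := mom1 (hScomp s) hs.ne' 0 i
      rw [hc s hs] at h
      show ∫ y in fib K s, y i = 0
      simpa using h
    · exact hnull s hs _
  -- normalisation of the covariance matrix
  let i₀ : Fin m := ⟨0, hm⟩
  set A := covMatrix (fib K s0) with hA
  have hApd : A.PosDef := cov_posDef (hG s0 hs0).body
  have ha : 0 < A i₀ i₀ := hApd.diag_pos
  set P := (A i₀ i₀)⁻¹ • A with hP
  have hPdet : 0 < P.det := by
    rw [hP, det_smul]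
    exact mul_pos (pow_pos (inv_pos.2 ha) _) hApd.det_pos
  have hcov : ∀ s, 0 < (volume (fib K s)).toReal →
      covMatrix (fib K s) = (covMatrix (fib K s) i₀ i₀) • P := by
    intro s hs
    obtain ⟨t0, ht0⟩ := hQ s0 hs0
    obtain ⟨t, ht⟩ := hQ s hs
    have h1 : A i₀ i₀ = t0 * Q i₀ i₀ := by rw [hA, ht0]; rfl
    have ht0' : t0 ≠ 0 := fun h => by rw [h1, h, zero_mul] at ha; exact lt_irrefl _ ha
    have hQ' : Q i₀ i₀ ≠ 0 := fun h => by rw [h1, h, mul_zero] at ha; exact lt_irrefl _ ha
    have hAij : ∀ i j, A i j = t0 * Q i j := by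
      intro i j
      rw [hA, ht0]
      rfl
    rw [ht]
    ext i j
    show t * Q i j = (t * Q i₀ i₀) * ((A i₀ i₀)⁻¹ * A i j)
    rw [hAij, hAij]
    field_simp
  have hmom : ∀ s i j, ∫ y in fib K s, y i * y j = P i j * ∫ y in fib K s, y i₀ ^ 2 := by
    intro s i j
    by_cases hs : 0 < (volume (fib K s)).toReal
    · have h1 := mom2 (hScomp s) hs.ne' 0 0 i j
      have h2 := mom2 (hScomp s) hs.ne' 0 0 i₀ i₀
      rw [hc s hs] at h1 h2
      simp only [sub_zero, Pi.zero_apply, mul_zero, add_zero] at h1 h2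
      have h3 : ∫ y in fib K s, y i₀ ^ 2 = ∫ y in fib K s, y i₀ * y i₀ :=
        integral_congr_ae (Filter.Eventually.of_forall fun y => sq _)
      have h4 : P i₀ i₀ = 1 := inv_mul_cancel₀ ha.ne'
      have h5 : covMatrix (fib K s) i j = covMatrix (fib K s) i₀ i₀ * P i j :=
        congrFun (congrFun (hcov s hs) i) j
      refine h1.trans ?_
      rw [h3]
      refine Eq.trans ?_ (congrArg (fun z => P i j * z) h2).symm
      show (volume (fib K s)).toReal * covMatrix (fib K s) i j =
        P i j * ((volume (fib K s)).toReal * covMatrix (fib K s) i₀ i₀)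
      rw [h5]
      ring
    · rw [hnull s hs, hnull s hs, mul_zero]
  have hmom0 : ∀ s, 0 < (volume (fib K s)).toReal → ∫ y in fib K s, y i₀ ^ 2 =
      (volume (fib K s)).toReal * covMatrix (fib K s) i₀ i₀ := by
    intro s hs
    have h2 := mom2 (hScomp s) hs.ne' 0 0 i₀ i₀
    rw [hc s hs] at h2
    simp only [sub_zero, Pi.zero_apply, mul_zero, add_zero] at h2
    rw [← h2]
    simp_rw [sq]
  have hDn : ∀ s, 0 < (volume (fib K s)).toReal → Dn (fib K s) * (volume (fib K s)).toReal ^ 2 =
      (covMatrix (fib K s) i₀ i₀) ^ m * P.det := by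
    intro s hs
    rw [Dn, div_mul_cancel₀ _ (pow_ne_zero 2 hs.ne')]
    conv_lhs => rw [hcov s hs]
    rw [det_smul, Fintype.card_fin]
  set C := simpC m / P.det with hCdef
  have hC : 0 < C := div_pos (simpC_pos m) hPdet
  have hB : ∀ s, (∫ y in {y | (s, y) ∈ toL K}, y i₀ ^ 2) ^ m ≤
      C * (volume {y | (s, y) ∈ toL K}).toReal ^ (m + 2) := by
    intro s
    rw [← hfib s]
    by_cases hs : 0 < (volume (fib K s)).toReal
    · rw [hmom0 s hs, mul_pow, hCdef]
      have h1 : (covMatrix (fib K s) i₀ i₀) ^ m * P.det ≤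
          simpC m * (volume (fib K s)).toReal ^ 2 := by
        rw [← hDn s hs]
        exact mul_le_mul_of_nonneg_right (hG s hs).le (sq_nonneg _)
      have h2 : (covMatrix (fib K s) i₀ i₀) ^ m ≤
          simpC m / P.det * (volume (fib K s)).toReal ^ 2 := by
        rw [div_mul_eq_mul_div, le_div_iff₀ hPdet]
        exact h1
      calc (volume (fib K s)).toReal ^ m * (covMatrix (fib K s) i₀ i₀) ^ m ≤
          (volume (fib K s)).toReal ^ m * (simpC m / P.det * (volume (fib K s)).toReal ^ 2) :=
            mul_le_mul_of_nonneg_left h2 (pow_nonneg hs.le _)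
        _ = _ := by ring
    · rw [hnull s hs, zero_pow (by omega)]
      exact mul_nonneg hC.le (pow_nonneg ENNReal.toReal_nonneg _)
  obtain ⟨c1, c2, c3⟩ := core m hm hLc hL i₀ hC.le hmean hB
  set J := ∫ p in toL K, p.2 i₀ ^ 2 with hJ
  set S1 := ∫ p in toL K, p.1 with hS1
  set S2 := ∫ p in toL K, p.1 ^ 2 with hS2
  -- the centroid and the covariance matrix of `K`
  have hcent0 : centroid K 0 = S1 / M := by
    rw [centroid, int_toL, hKM, hS1]
    simp only [Fin.cons_zero]
    rw [inv_mul_eq_div]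
  have hcent : ∀ i : Fin m, centroid K i.succ = 0 := by
    intro i
    rw [centroid, int_toL]
    simp only [Fin.cons_succ]
    rw [c1 i, mul_zero]
  have i1 : IntegrableOn (fun p : ℝ × (Fin m → ℝ) => p.1) (toL K) :=
    (by fun_prop : Continuous fun p : ℝ × (Fin m → ℝ) => p.1).continuousOn.integrableOn_compact hL
  have i2 : IntegrableOn (fun p : ℝ × (Fin m → ℝ) => p.1 ^ 2) (toL K) :=
    (by fun_prop : Continuous fun p : ℝ × (Fin m → ℝ) =>
      p.1 ^ 2).continuousOn.integrableOn_compact hL
  have k00 : covMatrix K 0 0 = (M * S2 - S1 ^ 2) / M ^ 2 := by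
    rw [covMatrix, int_toL, hKM]
    simp only [Fin.cons_zero, hcent0]
    have e : ∀ p : ℝ × (Fin m → ℝ), (p.1 - S1 / M) * (p.1 - S1 / M) =
        (p.1 ^ 2 - 2 * (S1 / M) * p.1) + (S1 / M) ^ 2 := fun p => by ring
    simp_rw [e]
    have k1 : IntegrableOn (fun p : ℝ × (Fin m → ℝ) => p.1 ^ 2 - 2 * (S1 / M) * p.1) (toL K) :=
      i2.sub (i1.const_mul _)
    have k0 : IntegrableOn (fun _ : ℝ × (Fin m → ℝ) => (S1 / M) ^ 2) (toL K) :=
      integrableOn_const hL.measure_lt_top.ne
    rw [integral_add k1 k0, integral_sub i2 (i1.const_mul _), integral_const_mul, integral_const,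
      smul_eq_mul, Measure.real, Measure.restrict_apply_univ, ← hMdef, ← hS1, ← hS2]
    field_simp
    ring
  have k0 : ∀ j : Fin m, covMatrix K 0 j.succ = 0 := by
    intro j
    rw [covMatrix, int_toL]
    simp only [Fin.cons_zero, Fin.cons_succ, hcent0, hcent, sub_zero]
    have j1 : IntegrableOn (fun p : ℝ × (Fin m → ℝ) => p.1 * p.2 j) (toL K) :=
      (by fun_prop : Continuous fun p : ℝ × (Fin m → ℝ) =>
        p.1 * p.2 j).continuousOn.integrableOn_compact hL
    have j2 : IntegrableOn (fun p : ℝ × (Fin m → ℝ) => p.2 j) (toL K) :=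
      (by fun_prop : Continuous fun p : ℝ × (Fin m → ℝ) =>
        p.2 j).continuousOn.integrableOn_compact hL
    simp_rw [sub_mul]
    rw [integral_sub j1 (j2.const_mul _), integral_const_mul, c1 j, c2 j]
    simp
  have k1 : ∀ i j : Fin m, covMatrix K i.succ j.succ = (J / M) * P i j := by
    intro i j
    rw [covMatrix, int_toL, hKM]
    simp only [Fin.cons_succ, hcent, sub_zero]
    rw [Perm.int_slice hL (f := fun p => p.2 i * p.2 j) (by fun_prop), hJ,
      Perm.int_slice hL (f := fun p => p.2 i₀ ^ 2) (by fun_prop)]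
    simp_rw [← hfib, hmom]
    rw [integral_const_mul]
    ring
  have hdet := det_block k00 k0 k1
  have hDK : Dn K = (J ^ m * (M * S2 - S1 ^ 2)) * P.det / M ^ (m + 4) := by
    rw [Dn, hdet, hKM, div_pow]
    field_simp
    ring
  have hDC : simpC (m + 1) = C * kap m * M ^ (m + 4) * P.det / M ^ (m + 4) := by
    rw [← simpC_kap m hm, hCdef]
    field_simp
  refine ⟨by omega, hK, ?_, fun heq => ?_⟩
  · rw [hDK, hDC]
    exact div_le_div_of_nonneg_right (mul_le_mul_of_nonneg_right c3 hPdet.le) (by positivity)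
  · have heq' : C * kap m * M ^ (m + 4) ≤ J ^ m * (M * S2 - S1 ^ 2) := by
      rw [hDK, hDC, div_left_inj' (by positivity)] at heq
      exact (mul_right_cancel₀ hPdet.ne' heq).ge
    obtain ⟨v, hv, hv'⟩ := core_eq m hm hLc hL i₀ hC hmean hB hM heq' (by
      intro s hs hle
      rw [← hfib s] at hs hle ⊢
      refine (hG s hs).eq (le_antisymm (hG s hs).le ?_)
      have hV2 : 0 < (volume (fib K s)).toReal ^ 2 := pow_pos hs 2
      refine le_of_mul_le_mul_right ?_ hV2
      rw [hDn s hs]
      rw [hmom0 s hs, mul_pow, hCdef] at hle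
      have h3 : simpC m / P.det * (volume (fib K s)).toReal ^ 2 ≤
          (covMatrix (fib K s) i₀ i₀) ^ m := by
        refine le_of_mul_le_mul_left ?_ (pow_pos hs m)
        calc (volume (fib K s)).toReal ^ m * (simpC m / P.det * (volume (fib K s)).toReal ^ 2) =
            simpC m / P.det * (volume (fib K s)).toReal ^ (m + 2) := by ring
          _ ≤ _ := hle
      rw [div_mul_eq_mul_div, div_le_iff₀ hPdet] at h3
      exact h3)
    exact simplex_of_toL hv hv'

end Vale.Agent.P254.Fib
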