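import Vale.Agent.P254.Fib.Good
import Vale.Agent.P254.Fib.Good0

/-!
P254: the slice theorem.
-/

open MeasureTheory Set Real Matrix

namespace Vale.Agent.P254.Fib

open Vale.Agent.P254.FV (Good)

/-- [F4] the general slice theorem (from `good0` by a shear) -/
theorem good {m : ℕ} (hm : 1 ≤ m) {K : Set (Fin (m + 1) → ℝ)} (hK : IsConvexBody K)
    (b₀ b₁ : Fin m → ℝ) (Q : Matrix (Fin m) (Fin m) ℝ)
    (hG : ∀ s, 0 < (volume (fib K s)).toReal → Good (fib K s))
    (hc : ∀ s, 0 < (volume (fib K s)).toReal → centroid (fib K s) = b₀ + s • b₁)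
    (hQ : ∀ s, 0 < (volume (fib K s)).toReal → ∃ t : ℝ, covMatrix (fib K s) = t • Q) :
    Good K :=
  good_of_good0 (fun _ hK Q hG hc hQ => good0 hm hK Q hG hc hQ) hK b₀ b₁ Q hG hc hQ

end Vale.Agent.P254.Fib
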