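import Vale.Agent.P254.Fib.Defs

/-! Centroid and covariance of a planar body with a rotational symmetry. -/

open MeasureTheory Set Real

namespace Vale.Agent.P254.Fib

namespace PlaneCov

/-- The rotation as a linear map. -/
noncomputable def R (c s : ℝ) : (Fin 2 → ℝ) →ₗ[ℝ] (Fin 2 → ℝ) := Matrix.toLin' !![c, -s; s, c]

theorem R_apply (c s : ℝ) (x : Fin 2 → ℝ) : R c s x = ![c * x 0 - s * x 1, s * x 0 + c * x 1] := by
  unfold R
  rw [Matrix.toLin'_apply]
  ext i
  fin_cases i
  · simp [Matrix.mulVec, dotProduct, Fin.sum_univ_two]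
    ring
  · simp [Matrix.mulVec, dotProduct, Fin.sum_univ_two]

theorem mp (c s : ℝ) (h : c ^ 2 + s ^ 2 = 1) :
    MeasurePreserving (R c s) (volume : Measure (Fin 2 → ℝ)) volume := by
  have h1 : LinearMap.det (R c s) = 1 := by
    unfold R
    rw [LinearMap.det_toLin', Matrix.det_fin_two_of]
    linarith
  refine ⟨(LinearMap.continuous_of_finiteDimensional (R c s)).measurable, ?_⟩
  rw [Measure.map_linearMap_addHaar_eq_smul_addHaar volume (by rw [h1]; exact one_ne_zero), h1]
  simp

theorem int_R (c s : ℝ) (h : c ^ 2 + s ^ 2 = 1) {K : Set (Fin 2 → ℝ)} (hK : IsCompact K)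
    (hinv : ∀ x ∈ K, R c s x ∈ K) {f : (Fin 2 → ℝ) → ℝ} (hf : Continuous f) :
    ∫ x in K, f (R c s x) = ∫ x in K, f x := by
  have hmp := mp c s h
  have hc : Continuous (R c s) := LinearMap.continuous_of_finiteDimensional _
  have hm : MeasurableSet K := hK.measurableSet
  have hpre : (R c s) ⁻¹' K =ᵐ[volume] K := by
    have h1 : K ⊆ (R c s) ⁻¹' K := fun x hx => hinv x hx
    have h2 : volume ((R c s) ⁻¹' K) = volume K := hmp.measure_preimage hm.nullMeasurableSet
    exact (ae_eq_of_subset_of_measure_ge h1 h2.le hm.nullMeasurableSet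
      (by rw [h2]; exact hK.measure_lt_top.ne)).symm
  rw [← setIntegral_congr_set hpre]
  have h3 : ∫ x in K, f x = ∫ x, f x ∂(Measure.map (R c s) volume).restrict K := by
    rw [hmp.map_eq]
  rw [h3, setIntegral_map hm hf.aestronglyMeasurable hc.aemeasurable]

end PlaneCov

open PlaneCov in
/-- [R9] centroid and covariance of a planar body with a rotational symmetry -/
theorem plane_cov (k : ℕ) (hk : 3 ≤ k) {K : Set (Fin 2 → ℝ)} (hK : IsConvexBody K)
    (hinv : ∀ x ∈ K, rot k x ∈ K) :
    centroid K = 0 ∧ covMatrix K =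
      ((∫ x in K, (x 0 ^ 2 + x 1 ^ 2)) / (2 * (volume K).toReal)) • (1 : Matrix _ _ ℝ) := by
  have hcK := hK.2.1
  set c := cos (2 * π / k) with hc
  set s := sin (2 * π / k) with hs
  have hcs : c ^ 2 + s ^ 2 = 1 := by rw [hc, hs]; exact cos_sq_add_sin_sq _
  have hk0 : (3 : ℝ) ≤ k := by exact_mod_cast hk
  have hspos : 0 < s := by
    refine sin_pos_of_pos_of_lt_pi (by positivity) ?_
    rw [div_lt_iff₀ (by linarith)]
    nlinarith [pi_pos]
  have hc1 : c < 1 := by
    have : 0 < s ^ 2 := by positivity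
    nlinarith
  have hR : ∀ x, R c s x = rot k x := fun x => R_apply c s x
  have hinv' : ∀ x ∈ K, R c s x ∈ K := fun x hx => by rw [hR]; exact hinv x hx
  have hint : ∀ {f : (Fin 2 → ℝ) → ℝ}, Continuous f → Integrable f (volume.restrict K) :=
    fun hf => hf.continuousOn.integrableOn_compact hcK
  -- first moments
  have a1 := int_R c s hcs hcK hinv' (f := fun x => x 0) (continuous_apply 0)
  have a2 := int_R c s hcs hcK hinv' (f := fun x => x 1) (continuous_apply 1)
  simp only [R_apply, Matrix.cons_val_zero, Matrix.cons_val_one] at a1 a2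
  rw [integral_sub ((hint (continuous_apply 0)).const_mul _)
    ((hint (continuous_apply 1)).const_mul _), integral_const_mul, integral_const_mul] at a1
  rw [integral_add ((hint (continuous_apply 0)).const_mul _)
    ((hint (continuous_apply 1)).const_mul _), integral_const_mul, integral_const_mul] at a2
  set a := ∫ x in K, x 0 with ha
  set b := ∫ x in K, x 1 with hb
  have hne : (1 - c) ^ 2 + s ^ 2 ≠ 0 := by positivity
  have ha0 : a = 0 := by
    have h1 : ((1 - c) ^ 2 + s ^ 2) * a = 0 := by linear_combination -(1 - c) * a1 - (-s) * a2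
    exact (mul_eq_zero.1 h1).resolve_left hne
  have hb0 : b = 0 := by
    have h1 : ((1 - c) ^ 2 + s ^ 2) * b = 0 := by linear_combination -(1 - c) * a2 - s * a1
    exact (mul_eq_zero.1 h1).resolve_left hne
  have hcent : centroid K = 0 := by
    ext i
    fin_cases i
    · show (volume K).toReal⁻¹ * ∫ x in K, x 0 = 0
      rw [← ha, ha0, mul_zero]
    · show (volume K).toReal⁻¹ * ∫ x in K, x 1 = 0
      rw [← hb, hb0, mul_zero]
  refine ⟨hcent, ?_⟩
  -- second moments
  have c00 : Continuous fun x : Fin 2 → ℝ => x 0 * x 0 := by fun_prop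
  have c11 : Continuous fun x : Fin 2 → ℝ => x 1 * x 1 := by fun_prop
  have c01 : Continuous fun x : Fin 2 → ℝ => x 0 * x 1 := by fun_prop
  have i00 := hint c00
  have i11 := hint c11
  have i01 := hint c01
  have b1 := int_R c s hcs hcK hinv' c00
  have b3 := int_R c s hcs hcK hinv' c01
  simp only [R_apply, Matrix.cons_val_zero, Matrix.cons_val_one] at b1 b3
  have lin : ∀ p q r : ℝ, ∫ x in K, (p * (x 0 * x 0) + q * (x 0 * x 1) + r * (x 1 * x 1)) =
      p * (∫ x in K, x 0 * x 0) + q * (∫ x in K, x 0 * x 1) + r * ∫ x in K, x 1 * x 1 := by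
    intro p q r
    have j1 : Integrable (fun x : Fin 2 → ℝ => p * (x 0 * x 0) + q * (x 0 * x 1))
        (volume.restrict K) := (i00.const_mul p).add (i01.const_mul q)
    rw [integral_add j1 (i11.const_mul r), integral_add (i00.const_mul p) (i01.const_mul q),
      integral_const_mul, integral_const_mul, integral_const_mul]
  have e1 : ∫ x in K, (c * x 0 - s * x 1) * (c * x 0 - s * x 1) =
      c ^ 2 * (∫ x in K, x 0 * x 0) - 2 * c * s * (∫ x in K, x 0 * x 1) +
        s ^ 2 * ∫ x in K, x 1 * x 1 := by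
    have h1 := lin (c ^ 2) (-(2 * c * s)) (s ^ 2)
    have h2 : ∫ x in K, (c * x 0 - s * x 1) * (c * x 0 - s * x 1) =
        ∫ x in K, (c ^ 2 * (x 0 * x 0) + -(2 * c * s) * (x 0 * x 1) + s ^ 2 * (x 1 * x 1)) :=
      integral_congr_ae (Filter.Eventually.of_forall fun x => by simp only; ring)
    rw [h2, h1]
    ring
  have e3 : ∫ x in K, (c * x 0 - s * x 1) * (s * x 0 + c * x 1) =
      c * s * (∫ x in K, x 0 * x 0) + (c ^ 2 - s ^ 2) * (∫ x in K, x 0 * x 1) -
        c * s * ∫ x in K, x 1 * x 1 := by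
    have h1 := lin (c * s) (c ^ 2 - s ^ 2) (-(c * s))
    have h2 : ∫ x in K, (c * x 0 - s * x 1) * (s * x 0 + c * x 1) =
        ∫ x in K, (c * s * (x 0 * x 0) + (c ^ 2 - s ^ 2) * (x 0 * x 1) +
          -(c * s) * (x 1 * x 1)) :=
      integral_congr_ae (Filter.Eventually.of_forall fun x => by simp only; ring)
    rw [h2, h1]
    ring
  rw [e1] at b1
  rw [e3] at b3
  set A := ∫ x in K, x 0 * x 0 with hA
  set B := ∫ x in K, x 1 * x 1 with hB
  set C := ∫ x in K, x 0 * x 1 with hC
  have f1 : s * (A - B) + 2 * c * C = 0 := by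
    have : s * (s * (A - B) + 2 * c * C) = 0 := by linear_combination -b1 + A * hcs
    exact (mul_eq_zero.1 this).resolve_left hspos.ne'
  have f2 : 2 * s * C = c * (A - B) := by
    have : s * (2 * s * C - c * (A - B)) = 0 := by linear_combination -b3 + C * hcs
    have := (mul_eq_zero.1 this).resolve_left hspos.ne'
    linarith
  have f3 : A - B = 0 := by linear_combination -(A - B) * hcs + s * f1 - c * f2
  have f4 : C = 0 := by
    rw [f3, mul_zero] at f2
    have h2 : (2 * s) ≠ 0 := by positivity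
    exact (mul_eq_zero.1 f2).resolve_left h2
  have e5 : ∫ x in K, (x 0 ^ 2 + x 1 ^ 2) = 2 * A := by
    have : ∫ x in K, (x 0 ^ 2 + x 1 ^ 2) = A + B := by
      rw [hA, hB, ← integral_add i00 i11]
      refine integral_congr_ae (Filter.Eventually.of_forall fun x => ?_)
      simp only
      ring
    rw [this]; linarith
  rw [e5]
  have hcov : ∀ i j, covMatrix K i j = (volume K).toReal⁻¹ * ∫ x in K, x i * x j := by
    intro i j
    unfold covMatrix
    rw [hcent]
    simp
  have hBA : B = A := by linarith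
  have e6 : 2 * A / (2 * (volume K).toReal) = (volume K).toReal⁻¹ * A := by
    rw [mul_div_mul_left _ _ two_ne_zero]
    ring
  rw [e6]
  ext i j
  rw [hcov]
  fin_cases i <;> fin_cases j
  · show (volume K).toReal⁻¹ * ∫ x in K, x 0 * x 0 = _
    simp [hA]
  · show (volume K).toReal⁻¹ * ∫ x in K, x 0 * x 1 = _
    rw [← hC, f4]
    simp
  · show (volume K).toReal⁻¹ * ∫ x in K, x 1 * x 0 = _
    have : ∫ x in K, x 1 * x 0 = C := by
      rw [hC]
      refine integral_congr_ae (Filter.Eventually.of_forall fun x => ?_)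
      exact mul_comm _ _
    rw [this, f4]
    simp
  · show (volume K).toReal⁻¹ * ∫ x in K, x 1 * x 1 = _
    rw [← hB, hBA]
    simp

end Vale.Agent.P254.Fib
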