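import Vale.Agent.P254.Fib.Defs
import Mathlib.Analysis.SpecialFunctions.PolarCoord
import Mathlib.MeasureTheory.Constructions.Pi
import Mathlib.MeasureTheory.Integral.Prod
import Mathlib.Analysis.SpecialFunctions.Integrals.Basic
import Mathlib.Analysis.Real.Pi.Bounds

/-!
P254/Fib, leaf R6: a planar convex body between the discs of radius `1/√2` and `1` satisfies
`∫ |x|² ≤ (3 V - π) / 4` (polar coordinates).
-/

open MeasureTheory Set Real

namespace Vale.Agent.P254.Fib.H945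

/-- the integral along a ray -/
theorem ray_int {ρ : ℝ} (h0 : 1 / 2 ≤ ρ ^ 2) (h1 : ρ ^ 2 ≤ 1) :
    1 / 8 ≤ ∫ r in (0 : ℝ)..ρ, r * (3 / 4 - r ^ 2) := by
  have h : ∀ r ∈ uIcc (0 : ℝ) ρ, HasDerivAt (fun r : ℝ => 3 / 8 * r ^ 2 - r ^ 4 / 4)
      (r * (3 / 4 - r ^ 2)) r := by
    intro r _
    have h2 := ((hasDerivAt_pow 2 r).const_mul (3 / 8 : ℝ)).sub ((hasDerivAt_pow 4 r).div_const 4)
    refine h2.congr_deriv ?_
    push_cast
    ring
  rw [intervalIntegral.integral_eq_sub_of_hasDerivAt h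
    (Continuous.intervalIntegrable (by fun_prop) _ _)]
  nlinarith [mul_nonneg (sub_nonneg.2 h0) (sub_nonneg.2 h1)]

/-- the part of a ray inside `K` -/
theorem ray_set {K : Set (ℝ × ℝ)} (hc : Convex ℝ K)
    (h0 : ∀ x : ℝ × ℝ, x.1 ^ 2 + x.2 ^ 2 ≤ 1 / 2 → x ∈ K)
    (hle : ∀ x ∈ K, x.1 ^ 2 + x.2 ^ 2 ≤ 1) (t : ℝ) :
    1 / 8 ≤ ∫ r in Ioc (0 : ℝ) 1, r * K.indicator (fun x => 3 / 4 - (x.1 ^ 2 + x.2 ^ 2))
      (r * cos t, r * sin t) := by
  set S : Set ℝ := {r | 0 < r ∧ (r * cos t, r * sin t) ∈ K} with hS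
  have hsq : ∀ r : ℝ, (r * cos t) ^ 2 + (r * sin t) ^ 2 = r ^ 2 := by
    intro r
    have := Real.sin_sq_add_cos_sq t
    calc _ = r ^ 2 * (sin t ^ 2 + cos t ^ 2) := by ring
      _ = r ^ 2 := by rw [this, mul_one]
  have hS1 : ∀ r ∈ S, r ≤ 1 := by
    intro r hr
    have h2 := hle _ hr.2
    simp only [hsq] at h2
    have hr0 := hr.1
    nlinarith
  have hSh : ∀ r : ℝ, 0 < r → r ^ 2 ≤ 1 / 2 → r ∈ S := by
    intro r hr h2
    exact ⟨hr, h0 _ (by simpa only [hsq] using h2)⟩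
  have hmono : ∀ r ∈ S, ∀ q : ℝ, 0 < q → q ≤ r → q ∈ S := by
    intro r hr q hq hqr
    refine ⟨hq, ?_⟩
    have hz : (0 : ℝ × ℝ) ∈ K := h0 _ (by simp)
    have hr0 := hr.1
    have h3 := hc.smul_mem_of_zero_mem hz hr.2 (t := q / r)
      ⟨by positivity, (div_le_one hr0).2 hqr⟩
    have e : (q / r) • ((r * cos t, r * sin t) : ℝ × ℝ) = (q * cos t, q * sin t) := by
      ext
      · simp only [Prod.smul_fst, smul_eq_mul]
        field_simp
      · simp only [Prod.smul_snd, smul_eq_mul]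
        field_simp
    rwa [e] at h3
  have hs2 : (√2 / 2) ^ 2 = (1 / 2 : ℝ) := by
    rw [div_pow, Real.sq_sqrt (by norm_num)]; norm_num
  have hs2S : √2 / 2 ∈ S := hSh _ (by positivity) hs2.le
  have hbdd : BddAbove S := ⟨1, fun r hr => hS1 r hr⟩
  set ρ := sSup S with hρ
  have hρ1 : ρ ≤ 1 := csSup_le ⟨_, hs2S⟩ hS1
  have hρ0 : √2 / 2 ≤ ρ := le_csSup hbdd hs2S
  have hρp : 0 < ρ := lt_of_lt_of_le (by positivity) hρ0
  have hsub1 : S ⊆ Ioc 0 ρ := fun r hr => ⟨hr.1, le_csSup hbdd hr⟩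
  have hsub2 : Ioo 0 ρ ⊆ S := by
    intro r hr
    obtain ⟨q, hq, hrq⟩ := exists_lt_of_lt_csSup ⟨_, hs2S⟩ hr.2
    exact hmono q hq r hr.1 hrq.le
  have hae : (Ioc 0 ρ : Set ℝ) =ᵐ[volume] S := by
    apply Filter.EventuallyLE.antisymm
    · exact (Ioo_ae_eq_Ioc (a := (0 : ℝ)) (b := ρ)).symm.le.trans hsub2.eventuallyLE
    · exact hsub1.eventuallyLE
  have e1 : ∫ r in Ioc (0 : ℝ) 1, r * K.indicator (fun x => 3 / 4 - (x.1 ^ 2 + x.2 ^ 2))
      (r * cos t, r * sin t) = ∫ r in S ∩ Ioc 0 1, r * (3 / 4 - r ^ 2) := by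
    rw [← integral_indicator measurableSet_Ioc]
    have hms : NullMeasurableSet (S ∩ Ioc 0 1) (volume : Measure ℝ) :=
      (measurableSet_Ioc.nullMeasurableSet.congr hae).inter measurableSet_Ioc.nullMeasurableSet
    rw [← integral_indicator₀ hms]
    congr 1
    ext r
    by_cases hr : r ∈ Ioc (0 : ℝ) 1
    · by_cases hrS : r ∈ S
      · have h7 : r ∈ S ∩ Ioc 0 1 := ⟨hrS, hr⟩
        rw [indicator_of_mem hr, indicator_of_mem h7, indicator_of_mem hrS.2]
        simp only [hsq]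
      · have h7 : r ∉ S ∩ Ioc 0 1 := fun h => hrS h.1
        have h8 : ((r * cos t, r * sin t) : ℝ × ℝ) ∉ K := fun h => hrS ⟨hr.1, h⟩
        rw [indicator_of_mem hr, indicator_of_notMem h7, indicator_of_notMem h8, mul_zero]
    · have h7 : r ∉ S ∩ Ioc 0 1 := fun h => hr h.2
      rw [indicator_of_notMem hr, indicator_of_notMem h7]
  have e2 : S ∩ Ioc 0 1 = S := inter_eq_left.2 (fun r hr => ⟨hr.1, hS1 r hr⟩)
  rw [e1, e2, ← setIntegral_congr_set hae, ← intervalIntegral.integral_of_le hρp.le]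
  apply ray_int
  · rw [← hs2]
    exact pow_le_pow_left₀ (by positivity) hρ0 2
  · nlinarith

theorem disc_prod {K : Set (ℝ × ℝ)} (hc : Convex ℝ K) (hK : IsCompact K)
    (h0 : ∀ x : ℝ × ℝ, x.1 ^ 2 + x.2 ^ 2 ≤ 1 / 2 → x ∈ K)
    (hle : ∀ x ∈ K, x.1 ^ 2 + x.2 ^ 2 ≤ 1) :
    π / 4 ≤ ∫ x in K, (3 / 4 - (x.1 ^ 2 + x.2 ^ 2)) := by
  set g : ℝ × ℝ → ℝ := K.indicator (fun x => 3 / 4 - (x.1 ^ 2 + x.2 ^ 2)) with hg
  have hgm : Measurable g := by
    apply Measurable.indicator (by fun_prop) hK.isClosed.measurableSet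
  have hgb : ∀ x, ‖g x‖ ≤ 1 := by
    intro x
    by_cases hx : x ∈ K
    · rw [hg, indicator_of_mem hx, Real.norm_eq_abs, abs_le]
      have := hle x hx
      constructor
      · linarith
      · nlinarith [sq_nonneg x.1, sq_nonneg x.2]
    · rw [hg, indicator_of_notMem hx, norm_zero]; norm_num
  rw [← integral_indicator hK.isClosed.measurableSet, ← integral_comp_polarCoord_symm]
  set F : ℝ × ℝ → ℝ := fun p => p.1 • g (polarCoord.symm p) with hF
  have hFm : Measurable F := by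
    apply Measurable.smul measurable_fst
    apply hgm.comp
    exact continuous_polarCoord_symm.measurable
  have hFe : ∀ p : ℝ × ℝ, F p = p.1 * g (p.1 * cos p.2, p.1 * sin p.2) := fun p => rfl
  have hzero : ∀ p ∈ polarCoord.target \ (Ioc (0 : ℝ) 1 ×ˢ Ioo (-π) π), F p = 0 := by
    intro p hp
    have hp1 : p.1 ∈ Ioi (0 : ℝ) ∧ p.2 ∈ Ioo (-π) π := by
      have := hp.1
      rwa [polarCoord_target, mem_prod] at this
    have hp2 : 1 < p.1 := by
      by_contra hcon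
      exact hp.2 ⟨⟨hp1.1, not_lt.1 hcon⟩, hp1.2⟩
    rw [hFe, hg, indicator_of_notMem, mul_zero]
    intro hmem
    have h2 := hle _ hmem
    have h3 := Real.sin_sq_add_cos_sq p.2
    have h4 : (p.1 * cos p.2) ^ 2 + (p.1 * sin p.2) ^ 2 = p.1 ^ 2 := by
      calc _ = p.1 ^ 2 * (sin p.2 ^ 2 + cos p.2 ^ 2) := by ring
        _ = p.1 ^ 2 := by rw [h3, mul_one]
    simp only [h4] at h2
    nlinarith
  have hsubset : Ioc (0 : ℝ) 1 ×ˢ Ioo (-π) π ⊆ polarCoord.target := by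
    rw [polarCoord_target]
    exact prod_mono (fun r hr => hr.1) subset_rfl
  have hmt : MeasurableSet (polarCoord.target : Set (ℝ × ℝ)) :=
    polarCoord.open_target.measurableSet
  have e1 : ∫ p in polarCoord.target, F p = ∫ p in Ioc (0 : ℝ) 1 ×ˢ Ioo (-π) π, F p :=
    setIntegral_eq_of_subset_of_forall_sdiff_eq_zero hmt hsubset hzero
  have hint : Integrable F ((volume.restrict (Ioc (0 : ℝ) 1)).prod
      (volume.restrict (Ioo (-π) π))) := by
    rw [Measure.prod_restrict]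
    apply Measure.integrableOn_of_bounded (M := 1)
    · rw [Measure.prod_prod]
      simp
    · exact hFm.aestronglyMeasurable
    · apply (ae_restrict_iff' (measurableSet_Ioc.prod measurableSet_Ioo)).2
      apply Filter.Eventually.of_forall
      intro p hp
      rw [hFe, norm_mul]
      have h5 : ‖p.1‖ ≤ 1 := by
        rw [Real.norm_eq_abs, abs_of_pos hp.1.1]; exact hp.1.2
      calc ‖p.1‖ * ‖g (p.1 * cos p.2, p.1 * sin p.2)‖ ≤ 1 * 1 :=
            mul_le_mul h5 (hgb _) (norm_nonneg _) zero_le_one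
        _ = 1 := by norm_num
  show π / 4 ≤ ∫ p in polarCoord.target, F p
  rw [e1]
  have e2 : ∫ p in Ioc (0 : ℝ) 1 ×ˢ Ioo (-π) π, F p =
      ∫ t in Ioo (-π) π, ∫ r in Ioc (0 : ℝ) 1, F (r, t) := by
    rw [Measure.volume_eq_prod, ← Measure.prod_restrict, integral_prod_symm _ hint]
  rw [e2]
  have e3 : ∫ _ in Ioo (-π) π, (1 / 8 : ℝ) = π / 4 := by
    rw [setIntegral_const, smul_eq_mul, Measure.real, Real.volume_Ioo,
      ENNReal.toReal_ofReal (by linarith [Real.pi_pos])]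
    ring
  rw [← e3]
  apply setIntegral_mono
  · exact integrable_const _
  · exact hint.integral_prod_right
  · intro t
    exact ray_set hc h0 hle t

theorem disc_mom {K : Set (Fin 2 → ℝ)} (hc : Convex ℝ K) (hK : IsCompact K)
    (h0 : ∀ x : Fin 2 → ℝ, x 0 ^ 2 + x 1 ^ 2 ≤ 1 / 2 → x ∈ K)
    (hle : ∀ x ∈ K, x 0 ^ 2 + x 1 ^ 2 ≤ 1) :
    (∫ x in K, (x 0 ^ 2 + x 1 ^ 2)) ≤ (3 * (volume K).toReal - π) / 4 := by
  set L : Set (ℝ × ℝ) := {p | (![p.1, p.2] : Fin 2 → ℝ) ∈ K} with hL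
  have hmp := volume_preserving_finTwoArrow ℝ
  have hKL : K = (MeasurableEquiv.finTwoArrow (α := ℝ)) ⁻¹' L := by
    ext x
    have : (![x 0, x 1] : Fin 2 → ℝ) = x := by
      ext i; fin_cases i <;> rfl
    simp only [hL, mem_preimage, mem_ofPred_eq]
    change _ ↔ (![x 0, x 1] : Fin 2 → ℝ) ∈ K
    rw [this]
  have hcont : Continuous (fun p : ℝ × ℝ => (![p.1, p.2] : Fin 2 → ℝ)) := by
    apply continuous_pi
    intro i
    fin_cases i
    · exact continuous_fst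
    · exact continuous_snd
  have hLc : Convex ℝ L := by
    intro p hp q hq a b ha hb hab
    have h2 := hc hp hq ha hb hab
    simp only [hL, mem_ofPred_eq]
    convert h2 using 1
    ext i
    fin_cases i <;> simp
  have hLK : IsCompact L := by
    have : L = (fun x : Fin 2 → ℝ => (x 0, x 1)) '' K := by
      ext p
      simp only [hL, mem_ofPred_eq, mem_image]
      constructor
      · intro hp
        exact ⟨_, hp, rfl⟩
      · rintro ⟨x, hx, rfl⟩
        have : (![x 0, x 1] : Fin 2 → ℝ) = x := by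
          ext i; fin_cases i <;> rfl
        rwa [this]
    rw [this]
    exact hK.image (by fun_prop)
  have hL0 : ∀ x : ℝ × ℝ, x.1 ^ 2 + x.2 ^ 2 ≤ 1 / 2 → x ∈ L := by
    intro x hx
    exact h0 _ (by simpa using hx)
  have hLle : ∀ x ∈ L, x.1 ^ 2 + x.2 ^ 2 ≤ 1 := by
    intro x hx
    have := hle _ hx
    simpa using this
  have hmain := disc_prod hLc hLK hL0 hLle
  have e1 : ∫ p in L, (3 / 4 - (p.1 ^ 2 + p.2 ^ 2)) = ∫ x in K, (3 / 4 - (x 0 ^ 2 + x 1 ^ 2)) := by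
    rw [hKL, ← hmp.setIntegral_preimage_emb (MeasurableEquiv.measurableEmbedding _)]
    rfl
  rw [e1] at hmain
  have hi : IntegrableOn (fun x : Fin 2 → ℝ => x 0 ^ 2 + x 1 ^ 2) K :=
    (Continuous.continuousOn (by fun_prop)).integrableOn_compact hK
  have hi2 : IntegrableOn (fun _ : Fin 2 → ℝ => (3 / 4 : ℝ)) K :=
    (continuousOn_const).integrableOn_compact hK
  rw [integral_sub hi2 hi, setIntegral_const, smul_eq_mul, Measure.real] at hmain
  linarith

end Vale.Agent.P254.Fib.H945
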