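import Vale.Agent.P254.Fib.DiscSub102
import Vale.Agent.P254.Fib.DiscMom945

/-!
P254/Fib, leaf R7: a planar convex body with a rotation symmetry of order at least four has a
strictly smaller second moment than the regular triangle of the same area.
-/

open MeasureTheory Set Real

namespace Vale.Agent.P254.Fib

namespace H945

/-- the number inequality -/
theorem num : 27 * √3 < 16 * π := by
  have h3 : √3 < 1.7321 := by
    rw [Real.sqrt_lt' (by norm_num)]
    norm_num
  have hpi := Real.pi_gt_three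
  nlinarith

/-- the scalar step -/
theorem scalar (V : ℝ) : (3 * V - π) / 4 < V ^ 2 / (3 * √3) := by
  have h3 : 0 < √3 := Real.sqrt_pos.mpr (by norm_num)
  have hpi := Real.pi_pos
  have hn := num
  rcases eq_or_ne V 0 with h0 | h0
  · subst h0
    simp only [mul_zero, zero_sub, ne_eq, OfNat.ofNat_ne_zero, not_false_eq_true, zero_pow,
      zero_div]
    linarith
  · have hV : 0 < V ^ 2 := by positivity
    have h1 : (3 * V - π) / 4 ≤ 9 * V ^ 2 / (16 * π) := by
      rw [div_le_div_iff₀ (by norm_num) (by positivity)]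
      nlinarith [sq_nonneg (3 * V - 2 * π)]
    have h2 : 9 * V ^ 2 / (16 * π) < V ^ 2 / (3 * √3) := by
      rw [div_lt_div_iff₀ (by positivity) (by positivity)]
      nlinarith
    exact lt_of_le_of_lt h1 h2

end H945

/-- [R7] -/
theorem four_norm (k : ℕ) (hk : 4 ≤ k) {K : Set (Fin 2 → ℝ)} (hc : Convex ℝ K) (hK : IsCompact K)
    (hinv : ∀ x ∈ K, rot k x ∈ K) (h1 : ![1, 0] ∈ K) (hle : ∀ x ∈ K, x 0 ^ 2 + x 1 ^ 2 ≤ 1) :
    (∫ x in K, (x 0 ^ 2 + x 1 ^ 2)) < (volume K).toReal ^ 2 / (3 * √3) :=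
  lt_of_le_of_lt (H945.disc_mom hc hK (fun x hx => H102.disc_sub k hk hc hK hinv h1 x hx) hle)
    (H945.scalar _)

end Vale.Agent.P254.Fib
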