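import Vale.Agent.P254.Fib.Defs

/-!
P254/Fib: [R8] the second moment of a planar body with a rotational symmetry, from the two
normalised statements.
-/

open MeasureTheory Set Real

namespace Vale.Agent.P254.Fib

namespace H682

/-- multiplication by the complex number `p 0 + i p 1` -/
noncomputable def mulB (p : Fin 2 → ℝ) : (Fin 2 → ℝ) →ₗ[ℝ] (Fin 2 → ℝ) :=
  Matrix.toLin' !![p 0, -p 1; p 1, p 0]

theorem mulB_zero (p x : Fin 2 → ℝ) : mulB p x 0 = p 0 * x 0 - p 1 * x 1 := by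
  simp [mulB, Matrix.toLin'_apply, Matrix.mulVec, dotProduct, Fin.sum_univ_two]
  ring

theorem mulB_one (p x : Fin 2 → ℝ) : mulB p x 1 = p 1 * x 0 + p 0 * x 1 := by
  simp [mulB, Matrix.toLin'_apply, Matrix.mulVec, dotProduct, Fin.sum_univ_two]

theorem mulB_norm (p x : Fin 2 → ℝ) : mulB p x 0 ^ 2 + mulB p x 1 ^ 2 =
    (p 0 ^ 2 + p 1 ^ 2) * (x 0 ^ 2 + x 1 ^ 2) := by
  rw [mulB_zero, mulB_one]; ring

theorem mulB_det (p : Fin 2 → ℝ) : LinearMap.det (mulB p) = p 0 ^ 2 + p 1 ^ 2 := by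
  rw [mulB, LinearMap.det_toLin', Matrix.det_fin_two_of]; ring

theorem mulB_rot (k : ℕ) (p x : Fin 2 → ℝ) : mulB p (rot k x) = rot k (mulB p x) := by
  funext i
  fin_cases i
  · show mulB p (rot k x) 0 = rot k (mulB p x) 0
    rw [mulB_zero]
    simp only [rot, Matrix.cons_val_zero, Matrix.cons_val_one, mulB_zero, mulB_one]
    ring
  · show mulB p (rot k x) 1 = rot k (mulB p x) 1
    rw [mulB_one]
    simp only [rot, Matrix.cons_val_zero, Matrix.cons_val_one, mulB_zero, mulB_one]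
    ring

theorem mulB_inj {p : Fin 2 → ℝ} (hp : 0 < p 0 ^ 2 + p 1 ^ 2) : Function.Injective (mulB p) := by
  rw [← LinearMap.ker_eq_bot, LinearMap.ker_eq_bot']
  intro x hx
  have h0 : mulB p x 0 ^ 2 + mulB p x 1 ^ 2 = 0 := by rw [hx]; simp
  rw [mulB_norm] at h0
  have h1 : x 0 ^ 2 + x 1 ^ 2 = 0 := by
    rcases mul_eq_zero.1 h0 with h | h
    · exact absurd h hp.ne'
    · exact h
  have h2 : x 0 = 0 := by nlinarith [sq_nonneg (x 0), sq_nonneg (x 1)]
  have h3 : x 1 = 0 := by nlinarith [sq_nonneg (x 0), sq_nonneg (x 1)]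
  funext i
  fin_cases i
  · exact h2
  · exact h3

theorem mulB_surj {p : Fin 2 → ℝ} (hp : 0 < p 0 ^ 2 + p 1 ^ 2) : Function.Surjective (mulB p) :=
  LinearMap.injective_iff_surjective.1 (mulB_inj hp)

theorem image_int {p : Fin 2 → ℝ} (hp : 0 < p 0 ^ 2 + p 1 ^ 2) {L : Set (Fin 2 → ℝ)}
    (hL : MeasurableSet L) (f : (Fin 2 → ℝ) → ℝ) :
    ∫ x in mulB p '' L, f x = (p 0 ^ 2 + p 1 ^ 2) * ∫ y in L, f (mulB p y) := by
  have h := integral_image_eq_integral_abs_det_fderiv_smul volume hL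
    (f := mulB p) (f' := fun _ => LinearMap.toContinuousLinearMap (mulB p))
    (fun x _ => (LinearMap.toContinuousLinearMap (mulB p)).hasFDerivAt.hasFDerivWithinAt)
    (mulB_inj hp).injOn f
  rw [h, ← integral_const_mul]
  refine integral_congr_ae (Filter.Eventually.of_forall fun x => ?_)
  have h2 : (LinearMap.toContinuousLinearMap (mulB p)).det = p 0 ^ 2 + p 1 ^ 2 := by
    rw [ContinuousLinearMap.det, LinearMap.coe_toContinuousLinearMap, mulB_det]
  show |(LinearMap.toContinuousLinearMap (mulB p)).det| • f (mulB p x) = _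
  rw [h2, abs_of_pos hp, smul_eq_mul]

theorem image_vol {p : Fin 2 → ℝ} (hp : 0 < p 0 ^ 2 + p 1 ^ 2) {L : Set (Fin 2 → ℝ)}
    (hL : MeasurableSet L) :
    (volume (mulB p '' L)).toReal = (p 0 ^ 2 + p 1 ^ 2) * (volume L).toReal := by
  have h := image_int hp hL (fun _ => (1 : ℝ))
  simpa [Measure.real] using h

end H682

open H682 in
theorem plane_mom_of
    (h3 : ∀ K : Set (Fin 2 → ℝ), Convex ℝ K → IsCompact K → (∀ x ∈ K, rot 3 x ∈ K) →
      ![1, 0] ∈ K → (∀ x ∈ K, x 0 ^ 2 + x 1 ^ 2 ≤ 1) →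
      (∫ x in K, (x 0 ^ 2 + x 1 ^ 2)) ≤ (volume K).toReal ^ 2 / (3 * √3) ∧
      ((∫ x in K, (x 0 ^ 2 + x 1 ^ 2)) = (volume K).toReal ^ 2 / (3 * √3) → IsSimplex K))
    (h4 : ∀ k : ℕ, 4 ≤ k → ∀ K : Set (Fin 2 → ℝ), Convex ℝ K → IsCompact K →
      (∀ x ∈ K, rot k x ∈ K) → ![1, 0] ∈ K → (∀ x ∈ K, x 0 ^ 2 + x 1 ^ 2 ≤ 1) →
      (∫ x in K, (x 0 ^ 2 + x 1 ^ 2)) < (volume K).toReal ^ 2 / (3 * √3))
    (k : ℕ) (hk : 3 ≤ k) {K : Set (Fin 2 → ℝ)} (hK : IsConvexBody K)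
    (hinv : ∀ x ∈ K, rot k x ∈ K) :
    (∫ x in K, (x 0 ^ 2 + x 1 ^ 2)) ≤ (volume K).toReal ^ 2 / (3 * √3) ∧
      ((∫ x in K, (x 0 ^ 2 + x 1 ^ 2)) = (volume K).toReal ^ 2 / (3 * √3) → IsSimplex K) := by
  obtain ⟨hc, hcomp, hint⟩ := hK
  have hne : K.Nonempty := hint.mono interior_subset
  obtain ⟨p, hpK, hpmax⟩ := hcomp.exists_isMaxOn hne
    (f := fun x : Fin 2 → ℝ => x 0 ^ 2 + x 1 ^ 2) (by fun_prop)
  have hmax : ∀ x ∈ K, x 0 ^ 2 + x 1 ^ 2 ≤ p 0 ^ 2 + p 1 ^ 2 := fun x hx => hpmax hx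
  have hp : 0 < p 0 ^ 2 + p 1 ^ 2 := by
    by_contra hcon
    have h0 : ∀ x ∈ K, x = 0 := by
      intro x hx
      have h1 := hmax x hx
      have h2 : x 0 = 0 := by nlinarith [sq_nonneg (x 0), sq_nonneg (x 1)]
      have h3 : x 1 = 0 := by nlinarith [sq_nonneg (x 0), sq_nonneg (x 1)]
      funext i
      fin_cases i
      · exact h2
      · exact h3
    have hsub : interior K ⊆ {0} := fun x hx => h0 x (interior_subset hx)
    have hopen : IsOpen (interior K) := isOpen_interior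
    have hvol : volume (interior K) = 0 := measure_mono_null hsub (by simp)
    exact (hopen.measure_pos volume hint).ne' hvol
  set B := mulB p with hB
  set L : Set (Fin 2 → ℝ) := B ⁻¹' K with hL
  have hKL : K = B '' L := by
    rw [hL, image_preimage_eq _ (mulB_surj hp)]
  have hLclosed : IsClosed L := hcomp.isClosed.preimage (LinearMap.continuous_of_finiteDimensional B)
  have hLle : ∀ x ∈ L, x 0 ^ 2 + x 1 ^ 2 ≤ 1 := by
    intro x hx
    have h1 := hmax _ hx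
    rw [hB, mulB_norm] at h1
    have h2 : (p 0 ^ 2 + p 1 ^ 2) * (x 0 ^ 2 + x 1 ^ 2) ≤ (p 0 ^ 2 + p 1 ^ 2) * 1 := by
      rw [mul_one]; exact h1
    exact le_of_mul_le_mul_left h2 hp
  have hLcomp : IsCompact L := by
    refine Metric.isCompact_of_isClosed_isBounded hLclosed ?_
    refine (Metric.isBounded_closedBall (x := (0 : Fin 2 → ℝ)) (r := 1)).subset fun x hx => ?_
    rw [mem_closedBall_zero_iff, pi_norm_le_iff_of_nonneg zero_le_one]
    intro i
    have h1 := hLle x hx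
    rw [Real.norm_eq_abs, ← sq_le_one_iff_abs_le_one]
    fin_cases i
    · show x 0 ^ 2 ≤ 1
      nlinarith [sq_nonneg (x 1)]
    · show x 1 ^ 2 ≤ 1
      nlinarith [sq_nonneg (x 0)]
  have hLc : Convex ℝ L := hc.linear_preimage B
  have hLinv : ∀ x ∈ L, rot k x ∈ L := by
    intro x hx
    show B (rot k x) ∈ K
    rw [hB, mulB_rot]
    exact hinv _ hx
  have hL1 : ![1, 0] ∈ L := by
    show B ![1, 0] ∈ K
    have : B ![1, 0] = p := by
      funext i
      fin_cases i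
      · show mulB p ![1, 0] 0 = p 0
        rw [mulB_zero]; simp
      · show mulB p ![1, 0] 1 = p 1
        rw [mulB_one]; simp
    rw [this]; exact hpK
  have hmeas : MeasurableSet L := hLclosed.measurableSet
  set r := p 0 ^ 2 + p 1 ^ 2 with hr
  have hI : (∫ x in K, (x 0 ^ 2 + x 1 ^ 2)) = r ^ 2 * ∫ x in L, (x 0 ^ 2 + x 1 ^ 2) := by
    rw [hKL, image_int hp hmeas, ← hr]
    have : ∫ y in L, (mulB p y 0 ^ 2 + mulB p y 1 ^ 2) = r * ∫ x in L, (x 0 ^ 2 + x 1 ^ 2) := by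
      rw [← integral_const_mul]
      refine integral_congr_ae (Filter.Eventually.of_forall fun x => ?_)
      exact mulB_norm p x
    rw [this]; ring
  have hV : (volume K).toReal = r * (volume L).toReal := by
    rw [hKL, image_vol hp hmeas]
  have hVI : (volume K).toReal ^ 2 / (3 * √3) = r ^ 2 * ((volume L).toReal ^ 2 / (3 * √3)) := by
    rw [hV]; ring
  rw [hI, hVI]
  have hr2 : 0 < r ^ 2 := by positivity
  rcases hk.eq_or_lt with rfl | hk4
  · obtain ⟨a1, a2⟩ := h3 L hLc hLcomp hLinv hL1 hLle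
    refine ⟨mul_le_mul_of_nonneg_left a1 hr2.le, fun heq => ?_⟩
    obtain ⟨v, hv, hLv⟩ := a2 (mul_left_cancel₀ hr2.ne' heq)
    refine ⟨fun i => B (v i), ?_, ?_⟩
    · exact hv.map' B.toAffineMap (mulB_inj hp)
    · rw [hKL, hLv, LinearMap.image_convexHull]
      congr 1
      rw [← range_comp]
      rfl
  · have a1 := h4 k hk4 L hLc hLcomp hLinv hL1 hLle
    exact ⟨mul_le_mul_of_nonneg_left a1.le hr2.le,
      fun heq => absurd (mul_left_cancel₀ hr2.ne' heq) a1.ne⟩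

end Vale.Agent.P254.Fib
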