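import Vale.Agent.P254.Fib.Three
import Vale.Agent.P254.Fib.Four
import Vale.Agent.P254.Fib.PlaneMom

/-!
P254: the second moment of a planar convex body with a rotation of order at least three.
-/

open MeasureTheory Set Real

namespace Vale.Agent.P254.Fib

/-- [R8] -/
theorem plane_mom (k : ℕ) (hk : 3 ≤ k) {K : Set (Fin 2 → ℝ)} (hK : IsConvexBody K)
    (hinv : ∀ x ∈ K, rot k x ∈ K) :
    (∫ x in K, (x 0 ^ 2 + x 1 ^ 2)) ≤ (volume K).toReal ^ 2 / (3 * √3) ∧
      ((∫ x in K, (x 0 ^ 2 + x 1 ^ 2)) = (volume K).toReal ^ 2 / (3 * √3) → IsSimplex K) :=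
  plane_mom_of (fun _ a b c d e => three_norm a b c d e)
    (fun k h _ a b c d e => four_norm k h a b c d e) k hk hK hinv

end Vale.Agent.P254.Fib
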