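import Vale.Agent.P254.Fib.Space
import Vale.Agent.P254.Fib.PlaneCov
import Vale.Agent.P254.Fib.PlaneTop
import Vale.Agent.P254.Fib.Good0

/-!
P254: planar bodies with a rotational symmetry and the bodies of three-space with an axis of
rotational symmetry satisfy the strong isotropic constant conjecture.
-/

open MeasureTheory Set Real Matrix

namespace Vale.Agent.P254.Fib

open Vale.Agent.P254.FV (Good Dn simpC)

/-- [R10] -/
theorem plane_good (k : ℕ) (hk : 3 ≤ k) {K : Set (Fin 2 → ℝ)} (hK : IsConvexBody K)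
    (hinv : ∀ x ∈ K, rot k x ∈ K) : Good K :=
  H598.plane_good_of hK (plane_mom k hk hK hinv) (plane_cov k hk hK hinv).2

/-- [R11] -/
theorem space_good (k : ℕ) (hk : 3 ≤ k) {K : Set (Fin 3 → ℝ)} (hK : IsConvexBody K)
    (hinv : ∀ x ∈ K, ![x 0, cos (2 * π / k) * x 1 - sin (2 * π / k) * x 2,
      sin (2 * π / k) * x 1 + cos (2 * π / k) * x 2] ∈ K) : Good K :=
  H598.space_good_of k (fun hK Q h1 h2 h3 => good0 (by norm_num) hK Q h1 h2 h3)
    (fun hK h => plane_good k hk hK h) (fun hK h => plane_cov k hk hK h) hK hinv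

end Vale.Agent.P254.Fib
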