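import Vale.Agent.P254.Fib.AltMom
import Vale.Agent.P254.Fib.GoodAll
import Vale.Agent.P254.Fib.SpaceTop

/-!
P254: the strong isotropic constant conjecture for the convex bodies in `ℝⁿ`, `n ≥ 3`, which are
invariant under the even permutations of the coordinates.
-/

open MeasureTheory Set Real Matrix

namespace Vale.Agent.P254.Fib.Alt

open Vale.Agent.P254.FV (Good)

variable {m : ℕ}

lemma cvx_fib {K : Set (Fin (m + 1) → ℝ)} (hK : Convex ℝ K) (s : ℝ) : Convex ℝ (fib K s) := by
  intro y hy z hz a b ha hb hab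
  have h := hK hy hz ha hb hab
  have e : a • (Fin.cons s y : Fin (m + 1) → ℝ) + b • (Fin.cons s z : Fin (m + 1) → ℝ) =
      Fin.cons s (a • y + b • z) := by
    funext i
    refine Fin.cases ?_ (fun j => ?_) i
    · simp only [Pi.add_apply, Pi.smul_apply, Fin.cons_zero, smul_eq_mul]
      rw [← add_mul, hab, one_mul]
    · simp
  rw [e] at h
  exact h

lemma cpt_fib {K : Set (Fin (m + 1) → ℝ)} (hK : IsCompact K) (s : ℝ) : IsCompact (fib K s) := by
  have hc : Continuous fun y : Fin m → ℝ => (Fin.cons s y : Fin (m + 1) → ℝ) := by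
    refine continuous_pi fun i => ?_
    refine Fin.cases ?_ (fun j => ?_) i
    · simp only [Fin.cons_zero]
      exact continuous_const
    · simp only [Fin.cons_succ]
      exact continuous_apply j
  have h1 : IsClosed (fib K s) := hK.isClosed.preimage hc
  have hc2 : Continuous fun x : Fin (m + 1) → ℝ => fun i : Fin m => x i.succ := by fun_prop
  refine (hK.image hc2).of_isClosed_subset h1 ?_
  intro y hy
  exact ⟨Fin.cons s y, hy, by funext i; simp⟩

lemma num_cons_zero (c s : ℝ) (y : Fin m → ℝ) :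
    num c (Fin.cons s y : Fin (m + 1) → ℝ) 0 = s := by
  have : (0 : Fin (m + 1 + 1)) = (0 : Fin (m + 1)).castSucc := rfl
  rw [this, num_castSucc, Fin.cons_zero]

lemma num_cons_succ (c s : ℝ) (y : Fin m → ℝ) (k : Fin (m + 1)) :
    num c (Fin.cons s y : Fin (m + 1) → ℝ) k.succ = num (c - s) y k := by
  refine Fin.lastCases ?_ (fun i => ?_) k
  · rw [Fin.succ_last, num_last, num_last, Fin.sum_univ_succ]
    simp only [Fin.cons_zero, Fin.cons_succ]
    ring
  · rw [← Fin.castSucc_succ, num_castSucc, num_castSucc, Fin.cons_succ]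

lemma fib_alt {c s : ℝ} {K : Set (Fin (m + 1) → ℝ)} (h : AltInv c K) : AltInv (c - s) (fib K s) := by
  intro σ hσ y hy
  have h1 := h (Equiv.Perm.decomposeFin.symm (0, σ)) (by
    rw [Equiv.Perm.decomposeFin.symm_sign]
    simpa using hσ) (Fin.cons s y) hy
  show (Fin.cons s (T (c - s) σ y) : Fin (m + 1) → ℝ) ∈ K
  have e : (Fin.cons s (T (c - s) σ y) : Fin (m + 1) → ℝ) =
      T c (Equiv.Perm.decomposeFin.symm (0, σ)) (Fin.cons s y) := by
    funext i
    refine Fin.cases ?_ (fun j => ?_) i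
    · show s = num c (Fin.cons s y : Fin (m + 1) → ℝ)
        (Equiv.Perm.decomposeFin.symm (0, σ) (0 : Fin (m + 1)).castSucc)
      have h0 : (0 : Fin (m + 1)).castSucc = (0 : Fin (m + 2)) := rfl
      rw [h0, Equiv.Perm.decomposeFin_symm_apply_zero, num_cons_zero]
    · show num (c - s) y (σ j.castSucc) = num c (Fin.cons s y : Fin (m + 1) → ℝ)
        (Equiv.Perm.decomposeFin.symm (0, σ) j.succ.castSucc)
      rw [Fin.castSucc_succ, Equiv.Perm.decomposeFin_symm_apply_succ, Equiv.swap_self,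
        Equiv.refl_apply, num_cons_succ]
  rw [e]
  exact h1

lemma body_aff {n : ℕ} {K : Set (Fin n → ℝ)} {A : Matrix (Fin n) (Fin n) ℝ} (hA : A.det ≠ 0)
    (b : Fin n → ℝ) (hK : IsConvexBody K) : IsConvexBody (aff A b '' K) := by
  refine FV.body_of_vol ?_ (isCompact_aff_image A _ hK.2.1) ?_
  · rw [← coe_affMap]
    exact hK.1.affine_image _
  · rw [volume_aff_image hA _ hK.2.1.measurableSet]
    exact mul_ne_zero (abs_ne_zero.2 hA) (FV.vol_pos hK).ne'

/-- the order three case -/
lemma base {c : ℝ} {K : Set (Fin 2 → ℝ)} (hK : IsConvexBody K) (h : AltInv c K) : Good K := by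
  have h3 : (0 : ℝ) < √3 := by positivity
  have hs3 : √3 * √3 = 3 := Real.mul_self_sqrt (by norm_num)
  set A : Matrix (Fin 2) (Fin 2) ℝ := !![1, 0; -(1 / √3), -(2 / √3)] with hA
  set A' : Matrix (Fin 2) (Fin 2) ℝ := !![1, 0; -(1 / 2), -(√3 / 2)] with hA'
  set p : Fin 2 → ℝ := fun _ => c / 3 with hp
  have hdA' : A'.det ≠ 0 := by
    rw [hA', Matrix.det_fin_two_of]
    have : (1 : ℝ) * -(√3 / 2) - 0 * -(1 / 2) = -(√3 / 2) := by ring
    rw [this]
    exact neg_ne_zero.2 (by positivity)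
  have hdA : A.det ≠ 0 := by
    rw [hA, Matrix.det_fin_two_of]
    have : (1 : ℝ) * -(2 / √3) - 0 * -(1 / √3) = -(2 / √3) := by ring
    rw [this]
    exact neg_ne_zero.2 (by positivity)
  have hAA : ∀ x, A' *ᵥ (A *ᵥ x) = x := by
    intro x
    funext i
    fin_cases i
    · simp [hA, hA', Matrix.mulVec, dotProduct, Fin.sum_univ_two]
    · simp [hA, hA', Matrix.mulVec, dotProduct, Fin.sum_univ_two]
      field_simp
      ring
  set K' : Set (Fin 2 → ℝ) := aff A (-(A *ᵥ p)) '' K with hK'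
  have hKb : IsConvexBody K' := body_aff hdA _ hK
  have hback : K = aff A' p '' K' := by
    rw [hK', ← image_comp]
    have : aff A' p ∘ aff A (-(A *ᵥ p)) = id := by
      funext x
      show A' *ᵥ (A *ᵥ x + -(A *ᵥ p)) + p = x
      rw [← sub_eq_add_neg, ← Matrix.mulVec_sub, hAA]
      simp
    rw [this, image_id]
  rw [hback]
  refine Good.aff (plane_good 3 le_rfl hKb ?_) hdA' p
  rintro _ ⟨x, hx, rfl⟩
  -- the cycle
  have hc : cos (2 * π / (3 : ℕ)) = -(1 / 2) := by
    have : 2 * π / (3 : ℕ) = π - π / 3 := by push_cast; ring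
    rw [this, cos_pi_sub, cos_pi_div_three]
  have hs : sin (2 * π / (3 : ℕ)) = √3 / 2 := by
    have : 2 * π / (3 : ℕ) = π - π / 3 := by push_cast; ring
    rw [this, sin_pi_sub, sin_pi_div_three]
  obtain ⟨σ, hσ, h0, h1⟩ := exists_cycle (m := 2) (i := 1) (j := 0) (l := 2) (by decide)
    (by decide) (by decide)
  refine ⟨T c σ x, h σ hσ x hx, ?_⟩
  have e0 : T c σ x 0 = x 1 := by
    show num c x (σ (Fin.castSucc 0)) = x 1
    have : (Fin.castSucc (0 : Fin 2)) = (0 : Fin 3) := rfl
    rw [this, h1]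
    exact num_castSucc c x 1
  have e1 : T c σ x 1 = c - (x 0 + x 1) := by
    show num c x (σ (Fin.castSucc 1)) = _
    have : (Fin.castSucc (1 : Fin 2)) = (1 : Fin 3) := rfl
    rw [this, h0]
    have h2 : (2 : Fin 3) = Fin.last 2 := rfl
    rw [h2, num_last, Fin.sum_univ_two]
  funext i
  fin_cases i
  · simp only [aff, rot, hA, hp, Matrix.mulVec, dotProduct, Fin.sum_univ_two, Pi.add_apply,
      Pi.neg_apply, hc, hs]
    simp [e0, e1]
    field_simp
    nlinarith [hs3]
  · simp only [aff, rot, hA, hp, Matrix.mulVec, dotProduct, Fin.sum_univ_two, Pi.add_apply,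
      Pi.neg_apply, hc, hs]
    simp [e0, e1]
    field_simp
    rw [Real.sq_sqrt (by norm_num : (0 : ℝ) ≤ 3)]
    ring

theorem good_fib {c : ℝ} (hm : 2 ≤ m) (ih : ∀ (c : ℝ) (K : Set (Fin m → ℝ)), IsConvexBody K →
    AltInv c K → Good K) {K : Set (Fin (m + 1) → ℝ)} (hK : IsConvexBody K) (r : ℝ)
    (h : ∀ s, AltInv (c + r * s) (fib K s)) : Good K := by
  refine Fib.good (by omega) hK (fun _ => c / (m + 1)) (fun _ => r / (m + 1)) (Qm m) ?_ ?_ ?_
  · intro s hs
    exact ih _ _ (FV.body_of_vol (cvx_fib hK.1 s) (cpt_fib hK.2.1 s) hs.ne') (h s)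
  · intro s hs
    rw [cent hm (cpt_fib hK.2.1 s) hs (h s)]
    funext i
    simp only [Pi.add_apply, Pi.smul_apply, smul_eq_mul]
    ring
  · intro s hs
    exact cov hm (cpt_fib hK.2.1 s) hs (h s)

theorem good_all (m : ℕ) (hm : 2 ≤ m) : ∀ (c : ℝ) (K : Set (Fin m → ℝ)), IsConvexBody K →
    AltInv c K → Good K := by
  induction m, hm using Nat.le_induction with
  | base => exact fun c K hK h => base hK h
  | succ m hm ih =>
    intro c K hK h
    refine good_fib (c := c) hm ih hK (-1) fun s => ?_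
    have := fib_alt (s := s) h
    have e : c + -1 * s = c - s := by ring
    rw [e]
    exact this

/-- `(s, y) ↦ (y, s - ∑ y)` -/
def fC (m : ℕ) : (Fin (m + 1) → ℝ) →ₗ[ℝ] (Fin (m + 1) → ℝ) where
  toFun p := num (p 0) fun i => p i.succ
  map_add' p q := by
    funext k
    refine Fin.lastCases ?_ (fun i => ?_) k
    · simp only [Pi.add_apply, num_last, Finset.sum_add_distrib]
      ring
    · simp
  map_smul' r p := by
    funext k
    refine Fin.lastCases ?_ (fun i => ?_) k
    · simp only [Pi.smul_apply, smul_eq_mul, num_last, ← Finset.mul_sum, RingHom.id_apply]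
      ring
    · simp

/-- `x ↦ (∑ x, x₀, …)` -/
def fB (m : ℕ) : (Fin (m + 1) → ℝ) →ₗ[ℝ] (Fin (m + 1) → ℝ) where
  toFun x := Fin.cons (∑ k, x k) fun i => x i.castSucc
  map_add' p q := by
    funext k
    refine Fin.cases ?_ (fun i => ?_) k
    · simp [Finset.sum_add_distrib]
    · simp
  map_smul' r p := by
    funext k
    refine Fin.cases ?_ (fun i => ?_) k
    · simp [Finset.mul_sum]
    · simp

lemma fC_fB (m : ℕ) (x : Fin (m + 1) → ℝ) : fC m (fB m x) = x := by
  funext k
  show num ((Fin.cons (∑ k, x k) (fun i => x i.castSucc) : Fin (m + 1) → ℝ) 0)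
    (fun i => (Fin.cons (∑ k, x k) (fun i => x i.castSucc) : Fin (m + 1) → ℝ) i.succ) k = x k
  simp only [Fin.cons_zero, Fin.cons_succ]
  refine Fin.lastCases ?_ (fun i => ?_) k
  · rw [num_last, Fin.sum_univ_castSucc]
    ring
  · rw [num_castSucc]

lemma fB_fC (m : ℕ) (p : Fin (m + 1) → ℝ) : fB m (fC m p) = p := by
  funext k
  show (Fin.cons (∑ k, num (p 0) (fun i => p i.succ) k)
    (fun i => num (p 0) (fun i => p i.succ) i.castSucc) : Fin (m + 1) → ℝ) k = p k
  refine Fin.cases ?_ (fun i => ?_) k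
  · rw [Fin.cons_zero, sum_num]
  · rw [Fin.cons_succ, num_castSucc]

end Vale.Agent.P254.Fib.Alt

namespace Vale.Agent.P254.Fib

open Vale.Agent.P254.FV (Good)

open Alt in
/-- The strong isotropic constant conjecture for the convex bodies which are invariant under the
even permutations of the coordinates. -/
theorem alt_good {n : ℕ} (hn : 3 ≤ n) {K : Set (Fin n → ℝ)} (hK : IsConvexBody K)
    (hp : ∀ σ : Equiv.Perm (Fin n), Equiv.Perm.sign σ = 1 → ∀ x ∈ K, (fun i => x (σ i)) ∈ K) :
    Good K := by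
  obtain ⟨m, rfl⟩ : ∃ m, n = m + 1 := ⟨n - 1, by omega⟩
  have hm : 2 ≤ m := by omega
  set A := LinearMap.toMatrix' (fC m) with hA
  set B := LinearMap.toMatrix' (fB m) with hB
  have hAB : A * B = 1 := by
    rw [hA, hB, ← LinearMap.toMatrix'_comp]
    have : (fC m).comp (fB m) = LinearMap.id := LinearMap.ext fun x => fC_fB m x
    rw [this, LinearMap.toMatrix'_id]
  have hdet : A.det * B.det = 1 := by rw [← Matrix.det_mul, hAB, Matrix.det_one]
  have hdA : A.det ≠ 0 := fun h => by rw [h, zero_mul] at hdet; exact zero_ne_one hdet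
  have hdB : B.det ≠ 0 := fun h => by rw [h, mul_zero] at hdet; exact zero_ne_one hdet
  have hAx : ∀ x, aff A 0 x = fC m x := fun x => by
    rw [aff, add_zero, hA, LinearMap.toMatrix'_mulVec]
  have hBx : ∀ x, aff B 0 x = fB m x := fun x => by
    rw [aff, add_zero, hB, LinearMap.toMatrix'_mulVec]
  set K' := aff B 0 '' K with hK'
  have hmem : ∀ p, p ∈ K' ↔ fC m p ∈ K := by
    intro p
    constructor
    · rintro ⟨x, hx, rfl⟩
      rw [hBx, fC_fB]
      exact hx
    · intro h
      exact ⟨_, h, by rw [hBx, fB_fC]⟩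
  have hback : K = aff A 0 '' K' := by
    ext x
    constructor
    · intro hx
      exact ⟨fB m x, (hmem _).2 (by rw [fC_fB]; exact hx), by rw [hAx, fC_fB]⟩
    · rintro ⟨p, hp', rfl⟩
      rw [hAx]
      exact (hmem p).1 hp'
  rw [hback]
  refine Good.aff (good_fib (c := 0) hm (good_all m hm) (body_aff hdB 0 hK) 1 fun s => ?_) hdA 0
  intro σ hσ y hy
  have hy' : num s y ∈ K := by
    have := (hmem _).1 hy
    exact this
  have h1 := hp σ hσ _ hy'
  show (Fin.cons s (T (0 + 1 * s) σ y) : Fin (m + 1) → ℝ) ∈ K'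
  rw [hmem, zero_add, one_mul]
  have e : fC m (Fin.cons s (T s σ y) : Fin (m + 1) → ℝ) = fun i => num s y (σ i) := by
    funext k
    exact num_T s σ y k
  rw [e]
  exact h1

end Vale.Agent.P254.Fib
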