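import Vale.Agent.P254.Fib.Aut461
import Vale.Agent.P254.Fib.SpaceTop

/-! P254: the convex bodies in `ℝ³` which have an affine automorphism preserving the orientation
other than the identity and the half turns. -/

open MeasureTheory Set Matrix

namespace Vale.Agent.P254.Fib

open Vale.Agent.P254.FV (Good)

/-- A convex body in `ℝ³` with an affine automorphism `T x = M x + c`, where `T` preserves the
orientation and `M² ≠ 1`, or `M⁴ ≠ 1`. -/
theorem space_aut {K : Set (Fin 3 → ℝ)} (hK : IsConvexBody K)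
    {M : Matrix (Fin 3) (Fin 3) ℝ} {c : Fin 3 → ℝ} (hT : (fun x => M *ᵥ x + c) '' K = K)
    (h : (0 < M.det ∧ M * M ≠ 1) ∨ M * M * (M * M) ≠ 1) : Good K :=
  Aut461.aut_good (fun k hk _ hK h => space_good k hk hK h) hK hT h

theorem space_aut_iso {K S : Set (Fin 3 → ℝ)} (hK : IsConvexBody K) (hS : IsSimplex S)
    {M : Matrix (Fin 3) (Fin 3) ℝ} {c : Fin 3 → ℝ} (hT : (fun x => M *ᵥ x + c) '' K = K)
    (h : (0 < M.det ∧ M * M ≠ 1) ∨ M * M * (M * M) ≠ 1) :
    isoConst K ≤ isoConst S ∧ (isoConst K = isoConst S ↔ IsSimplex K) :=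
  (space_aut hK hT h).iso hS

end Vale.Agent.P254.Fib
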