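import Vale.Agent.P254.Fib.GoodAll

/-!
P254: the general slice theorem, in the form used for the class of convex bodies.
-/

open MeasureTheory Set Matrix

namespace Vale.Agent.P254.Fib

open Vale.Agent.P254.FV (Good)

/-- If the sections `F s` of the convex body `K` satisfy the conjecture, have their centroids on a
line and have proportional covariance matrices, then `K` satisfies the conjecture. -/
theorem good_fibre {m : ℕ} {K : Set (Fin (m + 1) → ℝ)} {F : ℝ → Set (Fin m → ℝ)}
    {u v : Fin m → ℝ} {Q : Matrix (Fin m) (Fin m) ℝ} {t : ℝ → ℝ} (hK : IsConvexBody K)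
    (hF : ∀ s, F s = {y | (Fin.cons s y : Fin (m + 1) → ℝ) ∈ K})
    (hC : ∀ s, (interior (F s)).Nonempty → Good (F s))
    (hc : ∀ s, (interior (F s)).Nonempty → centroid (F s) = u + s • v)
    (hQ : ∀ s, (interior (F s)).Nonempty → covMatrix (F s) = t s • Q) : Good K := by
  have hF' : ∀ s, F s = fib K s := hF
  have hconv : ∀ s, Convex ℝ (F s) := by
    intro s y hy z hz a b ha hb hab
    rw [hF s] at hy hz ⊢
    have h := hK.1 hy hz ha hb hab
    show (Fin.cons s (a • y + b • z) : Fin (m + 1) → ℝ) ∈ K
    convert h using 1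
    funext i
    refine Fin.cases ?_ (fun k => ?_) i
    · simp only [Fin.cons_zero, Pi.add_apply, Pi.smul_apply, smul_eq_mul]
      rw [← add_mul, hab, one_mul]
    · simp only [Fin.cons_succ, Pi.add_apply, Pi.smul_apply, smul_eq_mul]
  have hint : ∀ s, 0 < (volume (fib K s)).toReal → (interior (F s)).Nonempty := by
    intro s hs
    refine H863.interior_of_vol (hconv s) fun h0 => ?_
    rw [← hF' s, h0] at hs
    simp at hs
  -- a section with nonempty interior
  obtain ⟨x, hx⟩ := hK.2.2
  have hx' : (interior (F (x 0))).Nonempty := by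
    have hcont : Continuous fun y : Fin m → ℝ => (Fin.cons (x 0) y : Fin (m + 1) → ℝ) := by
      refine continuous_pi fun i => ?_
      refine Fin.cases ?_ (fun k => ?_) i
      · simp only [Fin.cons_zero]; fun_prop
      · simp only [Fin.cons_succ]; fun_prop
    refine ⟨fun i => x i.succ, ?_⟩
    refine mem_interior.2 ⟨{y | (Fin.cons (x 0) y : Fin (m + 1) → ℝ) ∈ interior K},
      fun y hy => ?_, isOpen_interior.preimage hcont, ?_⟩
    · have h1 : (Fin.cons (x 0) y : Fin (m + 1) → ℝ) ∈ K := interior_subset hy.out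
      rw [hF]
      exact h1
    · show (Fin.cons (x 0) (fun i : Fin m => x i.succ) : Fin (m + 1) → ℝ) ∈ interior K
      have e : (Fin.cons (x 0) (fun i : Fin m => x i.succ) : Fin (m + 1) → ℝ) = x :=
        Fin.cons_self_tail x
      rw [e]
      exact hx
  refine good (hC _ hx').one_le hK u v Q (fun s hs => ?_) (fun s hs => ?_) (fun s hs => ?_)
  · rw [← hF' s]
    exact hC s (hint s hs)
  · rw [← hF' s]
    exact hc s (hint s hs)
  · rw [← hF' s]
    exact ⟨t s, hQ s (hint s hs)⟩

end Vale.Agent.P254.Fib
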