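import Vale.Agent.P254.Fib.Defs
import Vale.Agent.P254.Perm.SymInt

/-!
P254: the moments of the bodies which are invariant under the even permutations of the `m + 1`
numbers `x₁, …, x_m, c - ∑ x`.
-/

open MeasureTheory Set Matrix

namespace Vale.Agent.P254.Fib.Alt

variable {m : ℕ}

/-- the numbers `x₁, …, x_m, c - ∑ x` -/
def num (c : ℝ) (x : Fin m → ℝ) : Fin (m + 1) → ℝ := Fin.snoc (α := fun _ => ℝ) x (c - ∑ i, x i)

@[simp] lemma num_castSucc (c : ℝ) (x : Fin m → ℝ) (i : Fin m) : num c x i.castSucc = x i := by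
  simp [num]

@[simp] lemma num_last (c : ℝ) (x : Fin m → ℝ) : num c x (Fin.last m) = c - ∑ i, x i := by
  simp [num]

lemma sum_num (c : ℝ) (x : Fin m → ℝ) : ∑ k, num c x k = c := by
  rw [Fin.sum_univ_castSucc]
  simp

/-- the permuted point -/
def T (c : ℝ) (σ : Equiv.Perm (Fin (m + 1))) (x : Fin m → ℝ) : Fin m → ℝ :=
  fun i => num c x (σ i.castSucc)

lemma num_T (c : ℝ) (σ : Equiv.Perm (Fin (m + 1))) (x : Fin m → ℝ) (k : Fin (m + 1)) :
    num c (T c σ x) k = num c x (σ k) := by
  refine Fin.lastCases ?_ (fun i => ?_) k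
  · rw [num_last]
    have h : ∑ k, num c x (σ k) = c := by rw [Equiv.sum_comp σ (num c x), sum_num]
    rw [Fin.sum_univ_castSucc] at h
    simp only [T]
    linarith
  · rw [num_castSucc]
    rfl

lemma T_T (c : ℝ) (σ τ : Equiv.Perm (Fin (m + 1))) (x : Fin m → ℝ) :
    T c σ (T c τ x) = T c (τ * σ) x := by
  funext i
  show num c (T c τ x) (σ i.castSucc) = _
  rw [num_T]
  rfl

lemma T_one (c : ℝ) (x : Fin m → ℝ) : T c 1 x = x := by
  funext i
  simp [T]

/-- invariance under the even permutations -/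
def AltInv (c : ℝ) (K : Set (Fin m → ℝ)) : Prop :=
  ∀ σ : Equiv.Perm (Fin (m + 1)), Equiv.Perm.sign σ = 1 → ∀ x ∈ K, T c σ x ∈ K

lemma num_add (x y : Fin m → ℝ) (k : Fin (m + 1)) : num 0 (x + y) k = num 0 x k + num 0 y k := by
  refine Fin.lastCases ?_ (fun i => ?_) k
  · simp [Finset.sum_add_distrib]
    ring
  · simp

lemma num_smul (r : ℝ) (x : Fin m → ℝ) (k : Fin (m + 1)) : num 0 (r • x) k = r * num 0 x k := by
  refine Fin.lastCases ?_ (fun i => ?_) k
  · simp [Finset.mul_sum]
  · simp

lemma num_const (c : ℝ) (x : Fin m → ℝ) (k : Fin (m + 1)) :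
    num c x k = num 0 x k + if k = Fin.last m then c else 0 := by
  refine Fin.lastCases ?_ (fun i => ?_) k
  · simp
    ring
  · simp [(Fin.castSucc_lt_last i).ne]

/-- the linear part -/
def Lin (σ : Equiv.Perm (Fin (m + 1))) : (Fin m → ℝ) →ₗ[ℝ] (Fin m → ℝ) where
  toFun := T 0 σ
  map_add' x y := by
    funext i
    exact num_add x y _
  map_smul' r x := by
    funext i
    exact num_smul r x _

lemma Lin_mul (σ τ : Equiv.Perm (Fin (m + 1))) : Lin σ * Lin τ = Lin (τ * σ) :=
  LinearMap.ext fun x => T_T 0 σ τ x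

lemma Lin_pow (σ : Equiv.Perm (Fin (m + 1))) (k : ℕ) : Lin σ ^ k = Lin (σ ^ k) := by
  induction k with
  | zero => exact LinearMap.ext fun x => (T_one 0 x).symm
  | succ k ih => rw [pow_succ, ih, Lin_mul, pow_succ']

lemma mp_Lin (σ : Equiv.Perm (Fin (m + 1))) :
    MeasurePreserving (Lin σ) (volume : Measure (Fin m → ℝ)) volume := by
  have h1 : LinearMap.det (Lin σ) ^ orderOf σ = 1 := by
    rw [← map_pow, Lin_pow, pow_orderOf_eq_one]
    have : Lin (1 : Equiv.Perm (Fin (m + 1))) = LinearMap.id := LinearMap.ext fun x => T_one 0 x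
    rw [this, LinearMap.det_id]
  have h0 : LinearMap.det (Lin σ) ≠ 0 := by
    intro h
    rw [h, zero_pow (orderOf_pos σ).ne'] at h1
    exact zero_ne_one h1
  have h2 : |LinearMap.det (Lin σ)| = 1 := by
    have h3 : |LinearMap.det (Lin σ)| ^ orderOf σ = 1 := by rw [← abs_pow, h1, abs_one]
    exact (pow_eq_one_iff_of_nonneg (abs_nonneg _) (orderOf_pos σ).ne').1 h3
  refine ⟨(LinearMap.continuous_of_finiteDimensional _).measurable, ?_⟩
  rw [Measure.map_linearMap_addHaar_eq_smul_addHaar volume h0, abs_inv, h2, inv_one,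
    ENNReal.ofReal_one, one_smul]

lemma T_eq (c : ℝ) (σ : Equiv.Perm (Fin (m + 1))) (x : Fin m → ℝ) :
    T c σ x = Lin σ x + fun i => if σ i.castSucc = Fin.last m then c else 0 := by
  funext i
  exact num_const c x _

lemma mp_T (c : ℝ) (σ : Equiv.Perm (Fin (m + 1))) :
    MeasurePreserving (T c σ) (volume : Measure (Fin m → ℝ)) volume := by
  have h := (measurePreserving_add_right (volume : Measure (Fin m → ℝ))
    (fun i => if σ i.castSucc = Fin.last m then c else 0)).comp (mp_Lin σ)
  have e : T c σ = (fun x => x + fun i => if σ i.castSucc = Fin.last m then c else 0) ∘ Lin σ := by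
    funext x
    exact T_eq c σ x
  rw [e]
  exact h

lemma continuous_T (c : ℝ) (σ : Equiv.Perm (Fin (m + 1))) : Continuous (T c σ) := by
  have e : T c σ = fun x => Lin σ x + fun i => if σ i.castSucc = Fin.last m then c else 0 := by
    funext x
    exact T_eq c σ x
  rw [e]
  exact (LinearMap.continuous_of_finiteDimensional (Lin σ)).add continuous_const

lemma int_T {c : ℝ} {K : Set (Fin m → ℝ)} (h : AltInv c K) {σ : Equiv.Perm (Fin (m + 1))}
    (hσ : Equiv.Perm.sign σ = 1) (f : (Fin m → ℝ) → ℝ) :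
    ∫ x in K, f (T c σ x) = ∫ x in K, f x := by
  let e : (Fin m → ℝ) ≃ᵐ (Fin m → ℝ) :=
    { toFun := T c σ
      invFun := T c σ⁻¹
      left_inv := fun x => by rw [T_T, mul_inv_cancel, T_one]
      right_inv := fun x => by rw [T_T, inv_mul_cancel, T_one]
      measurable_toFun := (continuous_T c σ).measurable
      measurable_invFun := (continuous_T c σ⁻¹).measurable }
  have hpre : T c σ ⁻¹' K = K := by
    ext x
    constructor
    · intro hx
      have := h σ⁻¹ (by rw [Equiv.Perm.sign_inv, hσ]) _ hx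
      rwa [T_T, mul_inv_cancel, T_one] at this
    · exact fun hx => h σ hσ x hx
  have h1 := (mp_T c σ).setIntegral_preimage_emb e.measurableEmbedding f K
  rw [hpre] at h1
  exact h1

lemma exists_third (hm : 2 ≤ m) (i l : Fin (m + 1)) : ∃ j, j ≠ i ∧ j ≠ l := by
  by_contra hcon
  push Not at hcon
  have h1 : (Finset.univ : Finset (Fin (m + 1))) ⊆ {i, l} := by
    intro j _
    rw [Finset.mem_insert, Finset.mem_singleton]
    by_cases hj : j = i
    · exact Or.inl hj
    · exact Or.inr (hcon j hj)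
  have h2 := Finset.card_le_card h1
  have h3 := Finset.card_le_two (a := i) (b := l)
  rw [Finset.card_univ, Fintype.card_fin] at h2
  omega

lemma exists_cycle {i j l : Fin (m + 1)} (hij : i ≠ j) (hil : i ≠ l) (hjl : j ≠ l) :
    ∃ σ : Equiv.Perm (Fin (m + 1)), Equiv.Perm.sign σ = 1 ∧ σ i = l ∧ σ j = i := by
  refine ⟨Equiv.swap j l * Equiv.swap i j, ?_, ?_, ?_⟩
  · rw [Equiv.Perm.sign_mul, Equiv.Perm.sign_swap hjl, Equiv.Perm.sign_swap hij]
    norm_num
  · rw [Equiv.Perm.mul_apply, Equiv.swap_apply_left, Equiv.swap_apply_left]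
  · rw [Equiv.Perm.mul_apply, Equiv.swap_apply_right, Equiv.swap_apply_of_ne_of_ne hij hil]

section

variable {c : ℝ} {K : Set (Fin m → ℝ)}

lemma int_one (hm : 2 ≤ m) (h : AltInv c K) (f : ℝ → ℝ) (i l : Fin (m + 1)) :
    ∫ x in K, f (num c x i) = ∫ x in K, f (num c x l) := by
  by_cases hil : i = l
  · rw [hil]
  obtain ⟨j, hji, hjl⟩ := exists_third hm i l
  obtain ⟨σ, hσ, h1, _⟩ := exists_cycle (Ne.symm hji) hil hjl
  rw [← int_T h hσ fun x => f (num c x i)]
  simp_rw [num_T, h1]

lemma int_two (h : AltInv c K) (f : ℝ → ℝ) {i j l : Fin (m + 1)} (hij : i ≠ j) (hil : i ≠ l) :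
    ∫ x in K, f (num c x i) * f (num c x j) = ∫ x in K, f (num c x i) * f (num c x l) := by
  by_cases hjl : j = l
  · rw [hjl]
  obtain ⟨σ, hσ, h1, h2⟩ := exists_cycle hij hil hjl
  rw [← int_T h hσ fun x => f (num c x i) * f (num c x j)]
  simp_rw [num_T, h1, h2]
  refine integral_congr_ae (Filter.Eventually.of_forall fun x => ?_)
  exact mul_comm _ _

lemma int_pair (h : AltInv c K) (f : ℝ → ℝ) {i j k l : Fin (m + 1)} (hij : i ≠ j) (hkl : k ≠ l) :
    ∫ x in K, f (num c x i) * f (num c x j) = ∫ x in K, f (num c x k) * f (num c x l) := by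
  by_cases hik : i = k
  · subst hik
    exact int_two h f hij hkl
  · rw [int_two h f hij hik]
    have e : ∫ x in K, f (num c x i) * f (num c x k) = ∫ x in K, f (num c x k) * f (num c x i) :=
      integral_congr_ae (Filter.Eventually.of_forall fun x => mul_comm _ _)
    rw [e]
    exact int_two h f (Ne.symm hik) hkl

lemma continuous_num (c : ℝ) (k : Fin (m + 1)) : Continuous fun x : Fin m → ℝ => num c x k := by
  refine Fin.lastCases ?_ (fun i => ?_) k
  · simp only [num_last]
    fun_prop
  · simp only [num_castSucc]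
    fun_prop

theorem cent (hm : 2 ≤ m) (hK : IsCompact K) (hV : 0 < (volume K).toReal) (h : AltInv c K) :
    centroid K = fun _ => c / (m + 1) := by
  have hint : ∀ k : Fin (m + 1), IntegrableOn (fun x : Fin m → ℝ => num c x k) K := fun k =>
    (continuous_num c k).continuousOn.integrableOn_compact hK
  have h1 : ∑ k : Fin (m + 1), ∫ x in K, num c x k = c * (volume K).toReal := by
    rw [← integral_finsetSum _ fun k _ => hint k]
    simp_rw [sum_num]
    rw [integral_const, smul_eq_mul, Measure.real, Measure.restrict_apply_univ, mul_comm]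
  funext i
  have h2 : ∀ k : Fin (m + 1), ∫ x in K, num c x k = ∫ x in K, x i := by
    intro k
    have := int_one hm h (fun t => t) k i.castSucc
    simpa using this
  simp_rw [h2] at h1
  rw [Finset.sum_const, Finset.card_univ, Fintype.card_fin, nsmul_eq_mul] at h1
  push_cast at h1
  unfold centroid
  have hm1 : (0 : ℝ) < (m : ℝ) + 1 := by positivity
  rw [inv_mul_eq_div, div_eq_div_iff hV.ne' hm1.ne']
  linarith

/-- the matrix of the covariances -/
noncomputable def Qm (m : ℕ) : Matrix (Fin m) (Fin m) ℝ :=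
  fun i j => if i = j then 1 else -(1 / (m : ℝ))

theorem cov (hm : 2 ≤ m) (hK : IsCompact K) (hV : 0 < (volume K).toReal) (h : AltInv c K) :
    ∃ t : ℝ, covMatrix K = t • Qm m := by
  have hm0 : (0 : ℝ) < m := by
    have : 0 < m := by omega
    exact_mod_cast this
  set α : ℝ := c / (m + 1) with hα
  set S : Fin (m + 1) → Fin (m + 1) → ℝ :=
    fun k l => ∫ x in K, (num c x k - α) * (num c x l - α) with hS
  have hi0 : (0 : Fin (m + 1)) ≠ 1 := by
    have : NeZero m := ⟨by omega⟩
    have : Nontrivial (Fin (m + 1)) := Fin.nontrivial_iff_two_le.2 (by omega)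
    exact zero_ne_one
  have hd : ∀ k, S k k = S 0 0 := by
    intro k
    have := int_one hm h (fun t => (t - α) * (t - α)) k 0
    exact this
  have ho : ∀ k l, k ≠ l → S k l = S 0 1 := by
    intro k l hkl
    exact int_pair h (fun t => t - α) hkl hi0
  have hint : ∀ k l : Fin (m + 1), IntegrableOn
      (fun x : Fin m → ℝ => (num c x k - α) * (num c x l - α)) K := fun k l =>
    (((continuous_num c k).sub continuous_const).mul
      ((continuous_num c l).sub continuous_const)).continuousOn.integrableOn_compact hK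
  have hsum : ∑ l, S 0 l = 0 := by
    rw [hS]
    simp only
    rw [← integral_finsetSum _ fun l _ => hint 0 l]
    simp_rw [← Finset.mul_sum, Finset.sum_sub_distrib, sum_num]
    rw [Finset.sum_const, Finset.card_univ, Fintype.card_fin, nsmul_eq_mul]
    have : c - ((m + 1 : ℕ) : ℝ) * α = 0 := by
      rw [hα]
      push_cast
      field_simp
      ring
    rw [this]
    simp
  have hw : S 0 0 + m * S 0 1 = 0 := by
    rw [← Finset.add_sum_erase _ _ (Finset.mem_univ (0 : Fin (m + 1)))] at hsum
    rw [Finset.sum_congr rfl (g := fun _ => S 0 1) fun l hl =>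
      ho 0 l (Finset.ne_of_mem_erase hl).symm] at hsum
    rw [Finset.sum_const, Finset.card_erase_of_mem (Finset.mem_univ _), Finset.card_univ,
      Fintype.card_fin, nsmul_eq_mul] at hsum
    simpa using hsum
  refine ⟨(volume K).toReal⁻¹ * S 0 0, ?_⟩
  ext i j
  have hcov : covMatrix K i j = (volume K).toReal⁻¹ * S i.castSucc j.castSucc := by
    unfold covMatrix
    rw [cent hm hK hV h]
    simp only [hS, num_castSucc]
    rfl
  rw [hcov, Matrix.smul_apply, smul_eq_mul, mul_assoc]
  congr 1
  unfold Qm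
  by_cases hij : i = j
  · subst hij
    rw [hd, if_pos rfl, mul_one]
  · rw [ho _ _ fun h => hij (Fin.castSucc_injective m h), if_neg hij]
    field_simp
    linarith

end

end Vale.Agent.P254.Fib.Alt
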