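import Vale.Agent.P254.Fib.Defs
import Vale.Agent.P254.Bdl.B2
import Vale.Agent.P254.Bdl.B7
import Vale.Agent.P254.Bdl.B10
import Vale.Agent.P254.Bdl.B17
import Vale.Agent.P254.Bdl.B20

/-! P254: the convex bodies in `ℝ³` which have an affine automorphism preserving the orientation
other than the identity and the half turns, from the bodies with a rotation of order `k ≥ 3`. -/

open MeasureTheory Set Real Matrix

namespace Vale.Agent.P254.Fib.Aut461

open Vale.Agent.P254.FV (Good Dn simpC)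

/-- The rotation by the angle `t` about the first axis. -/
noncomputable def R3 (t : ℝ) (x : Fin 3 → ℝ) : Fin 3 → ℝ :=
  ![x 0, cos t * x 1 - sin t * x 2, sin t * x 1 + cos t * x 2]

lemma R3_add (s t : ℝ) (x : Fin 3 → ℝ) : R3 (s + t) x = R3 s (R3 t x) := by
  funext i
  fin_cases i
  · rfl
  · simp only [R3, cos_add, sin_add, Fin.mk_one, Matrix.cons_val_one, Matrix.cons_val_zero,
      Matrix.cons_val]
    ring
  · simp only [R3, cos_add, sin_add, Matrix.cons_val_one, Matrix.cons_val_zero,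
      Matrix.cons_val, Fin.reduceFinMk]
    ring

lemma R3_zero (x : Fin 3 → ℝ) : R3 0 x = x := by
  funext i
  fin_cases i <;> simp [R3]

lemma R3_two_pi (x : Fin 3 → ℝ) : R3 (2 * π) x = x := by
  funext i
  fin_cases i <;> simp [R3]

lemma R3_neg_two_pi (x : Fin 3 → ℝ) : R3 (-(2 * π)) x = x := by
  funext i
  fin_cases i <;> simp [R3]

/-- The angles of the rotations which preserve `K`. -/
noncomputable def Hs (K : Set (Fin 3 → ℝ)) : AddSubgroup ℝ where
  carrier := {t | ∀ x ∈ K, R3 t x ∈ K ∧ R3 (-t) x ∈ K}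
  zero_mem' := by
    intro x hx
    rw [neg_zero, R3_zero]
    exact ⟨hx, hx⟩
  add_mem' := by
    intro s t hs ht x hx
    refine ⟨?_, ?_⟩
    · rw [R3_add]
      exact (hs _ (ht x hx).1).1
    · rw [neg_add, R3_add]
      exact (hs _ (ht x hx).2).2
  neg_mem' := by
    intro t ht x hx
    refine ⟨(ht x hx).2, ?_⟩
    rw [neg_neg]
    exact (ht x hx).1

lemma mem_Hs {K : Set (Fin 3 → ℝ)} {t : ℝ} :
    t ∈ Hs K ↔ ∀ x ∈ K, R3 t x ∈ K ∧ R3 (-t) x ∈ K := Iff.rfl

lemma continuous_R3 (x : Fin 3 → ℝ) : Continuous fun t => R3 t x := by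
  refine continuous_pi fun i => ?_
  fin_cases i
  · exact continuous_const
  · show Continuous fun t => cos t * x 1 - sin t * x 2
    fun_prop
  · show Continuous fun t => sin t * x 1 + cos t * x 2
    fun_prop

lemma isClosed_Hs {K : Set (Fin 3 → ℝ)} (hK : IsClosed K) : IsClosed (Hs K : Set ℝ) := by
  have e : (Hs K : Set ℝ) = ⋂ x ∈ K, ({t | R3 t x ∈ K} ∩ {t | R3 (-t) x ∈ K}) := by
    ext t
    simp only [SetLike.mem_coe, mem_Hs, mem_iInter, mem_inter_iff, mem_ofPred_eq]
  rw [e]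
  refine isClosed_biInter fun x _ => ?_
  refine (hK.preimage (continuous_R3 x)).inter ?_
  exact hK.preimage ((continuous_R3 x).comp continuous_neg)

lemma exists_k {H : AddSubgroup ℝ} (hH : IsClosed (H : Set ℝ)) (h2 : 2 * π ∈ H) {θ : ℝ}
    (hθ : θ ∈ H) (hs : sin θ ≠ 0) : ∃ k : ℕ, 3 ≤ k ∧ 2 * π / k ∈ H := by
  rcases H.dense_or_cyclic with hd | ⟨a, ha⟩
  · refine ⟨3, le_rfl, ?_⟩
    have : (H : Set ℝ) = univ := by rw [← hH.closure_eq]; exact hd.closure_eq
    have h : 2 * π / (3 : ℕ) ∈ (H : Set ℝ) := this ▸ mem_univ _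
    exact h
  · rw [ha, AddSubgroup.mem_closure_singleton] at h2 hθ
    obtain ⟨n, hn⟩ := h2
    obtain ⟨j, hj⟩ := hθ
    rw [zsmul_eq_mul] at hn hj
    have hpi := Real.pi_pos
    have hn0 : n ≠ 0 := by
      rintro rfl
      simp at hn
    have hn0' : (n : ℝ) ≠ 0 := by exact_mod_cast hn0
    have ha2 : a = 2 * π / n := by
      rw [eq_div_iff hn0']
      linarith
    have key : ∀ p : ℤ, a = p * π → False := by
      intro p hp
      apply hs
      rw [← hj, hp]
      have := Real.sin_int_mul_pi (j * p)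
      push_cast at this
      rw [← this]
      congr 1
      ring
    refine ⟨n.natAbs, ?_, ?_⟩
    · by_contra hk
      have hk2 : n.natAbs ≤ 2 := by omega
      have hcases : n = 1 ∨ n = -1 ∨ n = 2 ∨ n = -2 := by omega
      rcases hcases with h | h | h | h
      · exact key 2 (by rw [ha2, h]; push_cast; ring)
      · exact key (-2) (by rw [ha2, h]; push_cast; ring)
      · exact key 1 (by rw [ha2, h]; push_cast; ring)
      · exact key (-1) (by rw [ha2, h]; push_cast; ring)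
    · rw [ha, AddSubgroup.mem_closure_singleton]
      rcases Int.natAbs_eq n with h | h
      · refine ⟨1, ?_⟩
        rw [one_zsmul, ha2]
        congr 1
        rw [h]
        simp
      · refine ⟨-1, ?_⟩
        rw [neg_one_zsmul, ha2]
        have h3 : (n : ℝ) = -((n.natAbs : ℕ) : ℝ) := by
          obtain ⟨q, hq⟩ : ∃ q : ℕ, n.natAbs = q := ⟨_, rfl⟩
          rw [hq] at h ⊢
          rw [h]
          push_cast
          ring
        rw [h3]
        rw [div_neg, neg_neg]

lemma axis {M : Matrix (Fin 3) (Fin 3) ℝ} (h1 : M * Mᵀ = 1) (hd : M.det = 1) :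
    ∃ e : Fin 3 → ℝ, e ≠ 0 ∧ M *ᵥ e = e := by
  have h : (M - 1).det = 0 := by
    have e1 : (M - 1) * Mᵀ = -(M - 1)ᵀ := by
      rw [sub_mul, h1, one_mul, transpose_sub, transpose_one]
      abel
    have e2 := congrArg Matrix.det e1
    rw [det_mul, det_transpose, hd, mul_one, det_neg, det_transpose] at e2
    simp only [Fintype.card_fin] at e2
    linarith
  obtain ⟨v, hv, hv2⟩ := Matrix.exists_mulVec_eq_zero_iff.2 h
  refine ⟨v, hv, ?_⟩
  rw [sub_mulVec, one_mulVec] at hv2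
  exact sub_eq_zero.1 hv2

lemma exists_perp (u : Fin 3 → ℝ) : ∃ f : Fin 3 → ℝ,
    f 0 ^ 2 + f 1 ^ 2 + f 2 ^ 2 = 1 ∧ u 0 * f 0 + u 1 * f 1 + u 2 * f 2 = 0 := by
  by_cases h : u 0 ^ 2 + u 1 ^ 2 = 0
  · have h0 : u 0 = 0 := by nlinarith [sq_nonneg (u 0), sq_nonneg (u 1)]
    refine ⟨![1, 0, 0], by simp, by simp [h0]⟩
  · have hp : 0 < u 0 ^ 2 + u 1 ^ 2 := lt_of_le_of_ne (by positivity) (Ne.symm h)
    have hs : 0 < √(u 0 ^ 2 + u 1 ^ 2) := Real.sqrt_pos.2 hp
    have hs2 : √(u 0 ^ 2 + u 1 ^ 2) ^ 2 = u 0 ^ 2 + u 1 ^ 2 := Real.sq_sqrt hp.le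
    refine ⟨![-u 1 / √(u 0 ^ 2 + u 1 ^ 2), u 0 / √(u 0 ^ 2 + u 1 ^ 2), 0], ?_, ?_⟩
    · simp only [Matrix.cons_val_zero, Matrix.cons_val_one, Matrix.cons_val]
      field_simp
      rw [hs2]
      ring
    · simp only [Matrix.cons_val_zero, Matrix.cons_val_one, Matrix.cons_val]
      field_simp
      ring

lemma frame {e : Fin 3 → ℝ} (he : e ≠ 0) : ∃ O : Matrix (Fin 3) (Fin 3) ℝ, O * Oᵀ = 1 ∧
    ∃ r : ℝ, r ≠ 0 ∧ O *ᵥ e = ![r, 0, 0] := by
  have hp : 0 < e 0 ^ 2 + e 1 ^ 2 + e 2 ^ 2 := by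
    obtain ⟨i, hi⟩ := Function.ne_iff.1 he
    have : 0 < e i ^ 2 := by
      have : e i ≠ 0 := hi
      positivity
    fin_cases i
    · simp only [Fin.zero_eta] at this
      positivity
    · simp only [Fin.mk_one] at this
      positivity
    · simp only [Fin.reduceFinMk] at this
      positivity
  set s := √(e 0 ^ 2 + e 1 ^ 2 + e 2 ^ 2) with hs
  have hs0 : 0 < s := Real.sqrt_pos.2 hp
  have hs2 : s ^ 2 = e 0 ^ 2 + e 1 ^ 2 + e 2 ^ 2 := Real.sq_sqrt hp.le
  obtain ⟨f, hf, hef⟩ := exists_perp e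
  have hu : (e 0 / s) ^ 2 + (e 1 / s) ^ 2 + (e 2 / s) ^ 2 = 1 := by
    field_simp
    linarith
  have huf : (e 0 / s) * f 0 + (e 1 / s) * f 1 + (e 2 / s) * f 2 = 0 := by
    field_simp
    linarith
  obtain ⟨u, hu'⟩ : ∃ u : Fin 3 → ℝ, ∀ i, u i = e i / s := ⟨fun i => e i / s, fun _ => rfl⟩
  simp only [← hu'] at hu huf
  have heu : ∀ i, e i = s * u i := by
    intro i
    rw [hu']
    field_simp
  refine ⟨!![u 0, u 1, u 2; f 0, f 1, f 2;
    u 1 * f 2 - u 2 * f 1, u 2 * f 0 - u 0 * f 2, u 0 * f 1 - u 1 * f 0], ?_, s, hs0.ne', ?_⟩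
  · ext i j
    fin_cases i <;> fin_cases j <;>
      simp [Matrix.mul_apply, Fin.sum_univ_three, Matrix.transpose_apply]
    · linear_combination hu
    · linear_combination huf
    · ring
    · linear_combination huf
    · linear_combination hf
    · ring
    · ring
    · ring
    · linear_combination (u 0 ^ 2 + u 1 ^ 2 + u 2 ^ 2) * hf + hu -
        (u 0 * f 0 + u 1 * f 1 + u 2 * f 2) * huf
  · funext i
    fin_cases i
    · simp [Matrix.mulVec, dotProduct, Fin.sum_univ_three, heu]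
      linear_combination s * hu
    · simp [Matrix.mulVec, dotProduct, Fin.sum_univ_three, heu]
      linear_combination s * huf
    · simp [Matrix.mulVec, dotProduct, Fin.sum_univ_three, heu]
      ring

lemma exists_angle {a c : ℝ} (h : a ^ 2 + c ^ 2 = 1) : ∃ t : ℝ, cos t = a ∧ sin t = c := by
  have hn : ‖(⟨a, c⟩ : ℂ)‖ = 1 := by
    rw [Complex.norm_def, Complex.normSq_mk, Real.sqrt_eq_one]
    linarith
  have h0 : (⟨a, c⟩ : ℂ) ≠ 0 := by
    intro h0
    rw [h0] at hn
    simp at hn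
  refine ⟨Complex.arg ⟨a, c⟩, ?_, ?_⟩
  · rw [Complex.cos_arg h0, hn, div_one]
  · rw [Complex.sin_arg, hn, div_one]

lemma normal_form {M : Matrix (Fin 3) (Fin 3) ℝ} (h1 : M * Mᵀ = 1) (hd : M.det = 1)
    (he : M *ᵥ ![1, 0, 0] = ![1, 0, 0]) : ∃ t : ℝ, ∀ x, M *ᵥ x = R3 t x := by
  have c0 := congrFun he 0
  have c1 := congrFun he 1
  have c2 := congrFun he 2
  simp [Matrix.mulVec, dotProduct, Fin.sum_univ_three] at c0 c1 c2
  have e00 := congrFun (congrFun h1 0) 0
  have e11 := congrFun (congrFun h1 1) 1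
  have e12 := congrFun (congrFun h1 1) 2
  simp [Matrix.mul_apply, Fin.sum_univ_three, Matrix.transpose_apply, c0, c1, c2] at e00 e11 e12
  have h01 : M 0 1 = 0 := by nlinarith [sq_nonneg (M 0 1), sq_nonneg (M 0 2)]
  have h02 : M 0 2 = 0 := by nlinarith [sq_nonneg (M 0 1), sq_nonneg (M 0 2)]
  rw [Matrix.det_fin_three] at hd
  simp only [c0, c1, c2, h01, h02] at hd
  have hd' : M 1 1 * M 2 2 - M 1 2 * M 2 1 = 1 := by linarith
  have k1 : M 2 2 = M 1 1 := by
    linear_combination (M 1 1) * hd' - (M 2 2) * e11 + (M 1 2) * e12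
  have k2 : M 1 2 = -M 2 1 := by
    linear_combination (-M 1 2) * hd' - (M 2 1) * e11 + (M 1 1) * e12
  obtain ⟨t, ht1, ht2⟩ := exists_angle (a := M 1 1) (c := M 2 1) (by
    linear_combination e11 - (M 1 2 - M 2 1) * k2)
  refine ⟨t, fun x => ?_⟩
  funext i
  fin_cases i
  · simp [Matrix.mulVec, dotProduct, Fin.sum_univ_three, c0, h01, h02, R3]
  · simp [Matrix.mulVec, dotProduct, Fin.sum_univ_three, c1, R3, ht1, ht2, k2]
    ring
  · simp [Matrix.mulVec, dotProduct, Fin.sum_univ_three, c2, R3, ht1, ht2, k1]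

/-- The statement `space_good`. -/
def SpaceSt : Prop := ∀ (k : ℕ) (_ : 3 ≤ k) {K : Set (Fin 3 → ℝ)} (_ : IsConvexBody K)
    (_ : ∀ x ∈ K, ![x 0, cos (2 * π / k) * x 1 - sin (2 * π / k) * x 2,
      sin (2 * π / k) * x 1 + cos (2 * π / k) * x 2] ∈ K), Good K

lemma good_aff_iff {K : Set (Fin 3 → ℝ)} {A : Matrix (Fin 3) (Fin 3) ℝ} (hA : A.det ≠ 0)
    (b : Fin 3 → ℝ) (h : Good (aff A b '' K)) : Good K := by
  have hA' : A⁻¹.det ≠ 0 := by
    intro h0
    have h3 := congrArg Matrix.det (Matrix.nonsing_inv_mul A (isUnit_iff_ne_zero.2 hA))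
    rw [det_mul, h0, det_one] at h3
    simp at h3
  have h2 := h.aff hA' (-(A⁻¹ *ᵥ b))
  have e : aff A⁻¹ (-(A⁻¹ *ᵥ b)) '' (aff A b '' K) = K := by
    rw [← image_comp]
    have : aff A⁻¹ (-(A⁻¹ *ᵥ b)) ∘ aff A b = id := by
      funext x
      simp only [Function.comp_apply, aff, id]
      rw [mulVec_add, mulVec_mulVec, Matrix.nonsing_inv_mul A (isUnit_iff_ne_zero.2 hA),
        one_mulVec]
      abel
    rw [this, image_id]
  rwa [e] at h2

lemma body_aff {K : Set (Fin 3 → ℝ)} (hK : IsConvexBody K) {A : Matrix (Fin 3) (Fin 3) ℝ}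
    (hA : A.det ≠ 0) (b : Fin 3 → ℝ) : IsConvexBody (aff A b '' K) := by
  refine FV.body_of_vol ?_ (isCompact_aff_image A b hK.2.1) ?_
  · rw [← coe_affMap]
    exact hK.1.affine_image _
  · rw [volume_aff_image hA b hK.2.1.measurableSet]
    exact mul_ne_zero (abs_ne_zero.2 hA) (FV.vol_pos hK).ne'

theorem orth_good (hsp : SpaceSt) {K : Set (Fin 3 → ℝ)} (hK : IsConvexBody K)
    {M : Matrix (Fin 3) (Fin 3) ℝ} (h1 : M * Mᵀ = 1) (hd : M.det = 1) (h2 : M * M ≠ 1)
    (hT : (fun x => M *ᵥ x) '' K = K) : Good K := by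
  obtain ⟨e, he, hMe⟩ := axis h1 hd
  obtain ⟨O, hO, r, hr, hOe⟩ := frame he
  have hO' : Oᵀ * O = 1 := mul_eq_one_comm.1 hO
  have hOd : O.det * O.det = 1 := by
    have := congrArg Matrix.det hO
    rwa [det_mul, det_transpose, det_one] at this
  have hO0 : O.det ≠ 0 := by
    intro h
    rw [h] at hOd
    simp at hOd
  set N := O * M * Oᵀ with hN
  have hN1 : N * Nᵀ = 1 := by
    calc N * Nᵀ = O * M * (Oᵀ * O) * Mᵀ * Oᵀ := by
          rw [hN]
          simp only [transpose_mul, transpose_transpose, Matrix.mul_assoc]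
      _ = 1 := by
          rw [hO', Matrix.mul_one, Matrix.mul_assoc O M, h1, Matrix.mul_one, hO]
  have hNd : N.det = 1 := by
    rw [hN, det_mul, det_mul, det_transpose, hd]
    linarith
  have hNe : N *ᵥ ![1, 0, 0] = ![1, 0, 0] := by
    have h3 : (![1, 0, 0] : Fin 3 → ℝ) = r⁻¹ • (O *ᵥ e) := by
      rw [hOe]
      funext i
      fin_cases i <;> simp [hr]
    rw [h3, mulVec_smul]
    congr 1
    rw [hN, mulVec_mulVec, Matrix.mul_assoc, hO', Matrix.mul_one, ← mulVec_mulVec, hMe]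
  obtain ⟨t, ht⟩ := normal_form hN1 hNd hNe
  have hNO : ∀ x, N *ᵥ (O *ᵥ x) = O *ᵥ (M *ᵥ x) := by
    intro x
    rw [hN, mulVec_mulVec, Matrix.mul_assoc, hO', Matrix.mul_one, mulVec_mulVec]
  have hst : sin t ≠ 0 := by
    intro hs
    apply h2
    have hc : cos t ^ 2 = 1 := by
      have := Real.sin_sq_add_cos_sq t
      rw [hs] at this
      linarith
    have h4 : ∀ x, N *ᵥ (N *ᵥ x) = x := by
      intro x
      rw [ht, ht]
      funext i
      fin_cases i
      · rfl
      · simp [R3, hs]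
        linear_combination (x 1) * hc
      · simp [R3, hs]
        linear_combination (x 2) * hc
    have h5 : N * N = 1 := by
      apply Matrix.toLin'.injective
      apply LinearMap.ext
      intro x
      rw [Matrix.toLin'_apply, Matrix.toLin'_apply, ← mulVec_mulVec, h4, one_mulVec]
    calc M * M = (Oᵀ * O) * M * (Oᵀ * O) * M * (Oᵀ * O) := by
          rw [hO']
          simp
      _ = Oᵀ * (N * N) * O := by
          rw [hN]
          simp only [Matrix.mul_assoc]
      _ = 1 := by rw [h5, Matrix.mul_one, hO']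
  -- the rotated body
  have hb : IsConvexBody (aff O 0 '' K) := body_aff hK hO0 0
  have hmem : t ∈ Hs (aff O 0 '' K) := by
    rintro _ ⟨x, hx, rfl⟩
    have hx2 : x ∈ (fun x => M *ᵥ x) '' K := by rw [hT]; exact hx
    obtain ⟨z, hz, hzx⟩ := hx2
    have hzx' : M *ᵥ z = x := hzx
    refine ⟨⟨M *ᵥ x, ?_, ?_⟩, ⟨z, hz, ?_⟩⟩
    · rw [← hT]
      exact ⟨x, hx, rfl⟩
    · simp only [aff, add_zero]
      rw [← ht, hNO]
    · simp only [aff, add_zero]
      rw [← hzx', ← hNO, ht, ← R3_add, neg_add_cancel, R3_zero]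
  have h2pi : 2 * π ∈ Hs (aff O 0 '' K) := by
    intro x hx
    rw [R3_two_pi, R3_neg_two_pi]
    exact ⟨hx, hx⟩
  obtain ⟨k, hk, hkH⟩ := exists_k (isClosed_Hs hb.2.1.isClosed) h2pi hmem hst
  have hg : Good (aff O 0 '' K) := hsp k hk hb fun x hx => (hkH x hx).1
  exact good_aff_iff hO0 0 hg

lemma whiten {C : Matrix (Fin 3) (Fin 3) ℝ} (hC : C.PosDef) :
    ∃ L : Matrix (Fin 3) (Fin 3) ℝ, L * C * Lᵀ = 1 := by
  have hH := hC.isHermitian
  obtain ⟨U, hU⟩ : ∃ U : Matrix (Fin 3) (Fin 3) ℝ, U = hH.eigenvectorUnitary.val := ⟨_, rfl⟩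
  have h1 : Uᵀ * U = 1 := by
    rw [hU]
    have := Unitary.coe_star_mul_self hH.eigenvectorUnitary
    simpa [Matrix.star_eq_conjTranspose, Matrix.conjTranspose_eq_transpose_of_trivial] using this
  have h3 : C = U * Matrix.diagonal hH.eigenvalues * Uᵀ := by
    rw [hU]
    have := hH.spectral_theorem
    rw [Unitary.conjStarAlgAut_apply] at this
    simpa [Matrix.star_eq_conjTranspose, Matrix.conjTranspose_eq_transpose_of_trivial] using this
  have hlam : ∀ i, 0 < hH.eigenvalues i := fun i => hC.eigenvalues_pos i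
  refine ⟨Matrix.diagonal (fun i => (√(hH.eigenvalues i))⁻¹) * Uᵀ, ?_⟩
  set d := fun i => (√(hH.eigenvalues i))⁻¹ with hd
  calc Matrix.diagonal d * Uᵀ * C * (Matrix.diagonal d * Uᵀ)ᵀ
      = Matrix.diagonal d * (Uᵀ * U) * Matrix.diagonal hH.eigenvalues * (Uᵀ * U) *
          Matrix.diagonal d := by
        conv_lhs => rw [h3]
        simp only [transpose_mul, transpose_transpose, diagonal_transpose, Matrix.mul_assoc]
    _ = 1 := by
        rw [h1, Matrix.mul_one, Matrix.mul_one, diagonal_mul_diagonal, diagonal_mul_diagonal,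
          ← diagonal_one]
        congr 1
        funext i
        have h4 : 0 < √(hH.eigenvalues i) := Real.sqrt_pos.2 (hlam i)
        have h5 : √(hH.eigenvalues i) ^ 2 = hH.eigenvalues i := Real.sq_sqrt (hlam i).le
        simp only [hd]
        field_simp
        rw [h5]

theorem pos_good (hsp : SpaceSt) {K : Set (Fin 3 → ℝ)} (hK : IsConvexBody K)
    {M : Matrix (Fin 3) (Fin 3) ℝ} {c : Fin 3 → ℝ} (hT : aff M c '' K = K) (hd : 0 < M.det)
    (h2 : M * M ≠ 1) : Good K := by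
  have hV := (FV.vol_pos hK).ne'
  have hcen : aff M c (centroid K) = centroid K := by
    rw [← centroid_aff_image hd.ne' c hK.2.1 hV, hT]
  have hcov : M * covMatrix K * Mᵀ = covMatrix K := by
    rw [← cov_aff_image hd.ne' c hK.2.1 hV, hT]
  obtain ⟨L, hL⟩ := whiten (covMatrix_posDef hK)
  have hLd : L.det ≠ 0 := by
    intro h
    have := congrArg Matrix.det hL
    rw [det_mul, det_mul, h] at this
    simp at this
  have hLL : L⁻¹ * L = 1 := Matrix.nonsing_inv_mul L (isUnit_iff_ne_zero.2 hLd)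
  have hLL' : L * L⁻¹ = 1 := Matrix.mul_nonsing_inv L (isUnit_iff_ne_zero.2 hLd)
  set b := -(L *ᵥ centroid K) with hb
  set N := L * M * L⁻¹ with hN
  have hconj : ∀ x, N *ᵥ (aff L b x) = aff L b (aff M c x) := by
    intro x
    have h3 : M *ᵥ centroid K + c = centroid K := hcen
    have h4 : N *ᵥ (L *ᵥ x) = L *ᵥ (M *ᵥ x) := by
      rw [hN, mulVec_mulVec, Matrix.mul_assoc, hLL, Matrix.mul_one, mulVec_mulVec]
    have h5 : N *ᵥ (L *ᵥ centroid K) = L *ᵥ (M *ᵥ centroid K) := by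
      rw [hN, mulVec_mulVec, Matrix.mul_assoc, hLL, Matrix.mul_one, mulVec_mulVec]
    have h6 : M *ᵥ centroid K = centroid K - c := eq_sub_of_add_eq h3
    simp only [aff, hb]
    rw [mulVec_add, mulVec_neg, h4, h5, h6, mulVec_add, mulVec_sub]
    abel
  have hK1 := body_aff hK hLd b
  have hTN : (fun x => N *ᵥ x) '' (aff L b '' K) = aff L b '' K := by
    rw [← image_comp]
    have : (fun x => N *ᵥ x) ∘ aff L b = aff L b ∘ aff M c := by
      funext x
      exact hconj x
    rw [this, image_comp, hT]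
  have hNd : N.det = M.det := by
    rw [hN, det_mul, det_mul, Matrix.det_nonsing_inv]
    have : L.det * Ring.inverse L.det = 1 :=
      Ring.mul_inverse_cancel _ (isUnit_iff_ne_zero.2 hLd)
    linear_combination M.det * this
  have hN1 : N * Nᵀ = 1 := by
    calc N * Nᵀ = L * M * L⁻¹ * (L * covMatrix K * Lᵀ) * (L * M * L⁻¹)ᵀ := by
          rw [hL, Matrix.mul_one]
      _ = L * (M * (L⁻¹ * L) * covMatrix K * (L⁻¹ * L)ᵀ * Mᵀ) * Lᵀ := by
          simp only [transpose_mul, Matrix.mul_assoc]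
      _ = 1 := by
          rw [hLL, transpose_one, Matrix.mul_one, Matrix.mul_one, hcov, hL]
  have hNd1 : N.det = 1 := by
    have h7 := congrArg Matrix.det hN1
    rw [det_mul, det_transpose, det_one, hNd] at h7
    rw [hNd]
    nlinarith
  have hN2 : N * N ≠ 1 := by
    intro h8
    apply h2
    calc M * M = (L⁻¹ * L) * M * (L⁻¹ * L) * M * (L⁻¹ * L) := by
          rw [hLL]
          simp
      _ = L⁻¹ * (N * N) * L := by
          rw [hN]
          simp only [Matrix.mul_assoc]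
      _ = 1 := by rw [h8, Matrix.mul_one, hLL]
  exact good_aff_iff hLd b (orth_good hsp hK1 hN1 hNd1 hN2 hTN)

/-- The convex bodies in `ℝ³` which have an affine automorphism `T` with `T² ≠ 1` preserving the
orientation, or any affine automorphism `T` with `T⁴ ≠ 1`. -/
theorem aut_good (hsp : SpaceSt) {K : Set (Fin 3 → ℝ)} (hK : IsConvexBody K)
    {M : Matrix (Fin 3) (Fin 3) ℝ} {c : Fin 3 → ℝ} (hT : (fun x => M *ᵥ x + c) '' K = K)
    (h : (0 < M.det ∧ M * M ≠ 1) ∨ M * M * (M * M) ≠ 1) : Good K := by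
  have hT' : aff M c '' K = K := hT
  rcases h with ⟨h1, h2⟩ | h
  · exact pos_good hsp hK hT' h1 h2
  · have hM : M.det ≠ 0 := by
      intro h0
      obtain ⟨v, hv, hvM⟩ := Matrix.exists_vecMul_eq_zero_iff.2 h0
      have hconst : ∀ x ∈ K, v ⬝ᵥ x = v ⬝ᵥ c := by
        intro x hx
        rw [← hT'] at hx
        obtain ⟨z, -, rfl⟩ := hx
        rw [aff, dotProduct_add, dotProduct_mulVec, hvM, zero_dotProduct, zero_add]
      obtain ⟨x, hx⟩ := hK.2.2
      have hO : IsOpen ((fun s : ℝ => x + s • v) ⁻¹' interior K) :=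
        isOpen_interior.preimage (by fun_prop)
      obtain ⟨r, hr, hball⟩ := Metric.isOpen_iff.1 hO 0 (by simpa using hx)
      have hmem : r / 2 ∈ Metric.ball (0 : ℝ) r := by
        rw [Metric.mem_ball, dist_zero_right, Real.norm_eq_abs, abs_of_pos (by positivity)]
        linarith
      have h3 := hconst _ (interior_subset (hball hmem))
      rw [dotProduct_add, dotProduct_smul, hconst x (interior_subset hx), smul_eq_mul] at h3
      have h4 : v ⬝ᵥ v = 0 := by
        have : r / 2 * (v ⬝ᵥ v) = 0 := by linarith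
        rcases mul_eq_zero.1 this with h | h
        · linarith
        · exact h
      exact hv (dotProduct_self_eq_zero.1 h4)
    refine pos_good hsp hK (M := M * M) (c := M *ᵥ c + c) ?_ ?_ h
    · have e : aff (M * M) (M *ᵥ c + c) = aff M c ∘ aff M c := by
        funext x
        simp only [aff, Function.comp_apply, mulVec_add, mulVec_mulVec]
        abel
      rw [e, image_comp, hT', hT']
    · rw [det_mul]
      exact mul_self_pos.2 hM

end Vale.Agent.P254.Fib.Aut461
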