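import Vale.Agent.P254.Fib.Defs

/-! The second moment of a concave cap. -/

open MeasureTheory Set Real

namespace Vale.Agent.P254.Fib.H598

theorem even_anti {c : ℝ} {h : ℝ → ℝ} (hconc : ConcaveOn ℝ (Icc (-c) c) h) {s t : ℝ}
    (hst : |s| ≤ |t|) (ht : |t| ≤ c) : h t + h (-t) ≤ h s + h (-s) := by
  rcases eq_or_ne t 0 with rfl | h0
  · have : s = 0 := by
      rw [abs_zero] at hst
      exact abs_eq_zero.1 (le_antisymm hst (abs_nonneg s))
    rw [this]
  have htm : t ∈ Icc (-c) c := abs_le.1 ht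
  have htm' : -t ∈ Icc (-c) c := by
    constructor
    · linarith [htm.2]
    · linarith [htm.1]
  have h1 : |s / t| ≤ 1 := by
    rw [abs_div, div_le_one (abs_pos.2 h0)]
    exact hst
  have h2 := abs_le.1 h1
  have a1 := hconc.2 htm htm' (show 0 ≤ (1 + s / t) / 2 by linarith)
    (show 0 ≤ (1 - s / t) / 2 by linarith) (by ring)
  have a2 := hconc.2 htm htm' (show 0 ≤ (1 - s / t) / 2 by linarith)
    (show 0 ≤ (1 + s / t) / 2 by linarith) (by ring)
  have e1 : ((1 + s / t) / 2) • t + ((1 - s / t) / 2) • (-t) = s := by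
    simp only [smul_eq_mul]; field_simp; ring
  have e2 : ((1 - s / t) / 2) • t + ((1 + s / t) / 2) • (-t) = -s := by
    simp only [smul_eq_mul]; field_simp; ring
  rw [e1] at a1
  rw [e2] at a2
  simp only [smul_eq_mul] at a1 a2
  linarith

theorem cap_mom {c : ℝ} (hc : 0 < c) {h : ℝ → ℝ} (hconc : ConcaveOn ℝ (Icc (-c) c) h)
    (_hpos : ∀ s ∈ Icc (-c) c, 0 ≤ h s) : ∫ s in (-c)..c, (s ^ 2 - c ^ 2 / 3) * h s ≤ 0 := by
  by_cases hi : IntervalIntegrable (fun s => (s ^ 2 - c ^ 2 / 3) * h s) volume (-c) c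
  swap
  · rw [intervalIntegral.integral_undef hi]
  have e1 : ∫ s in (-c)..c, (s ^ 2 - c ^ 2 / 3) * h (-s) =
      ∫ s in (-c)..c, (s ^ 2 - c ^ 2 / 3) * h s := by
    have := intervalIntegral.integral_comp_neg (a := -c) (b := c)
      (fun s => (s ^ 2 - c ^ 2 / 3) * h s)
    simpa using this
  have hi' : IntervalIntegrable (fun s => (s ^ 2 - c ^ 2 / 3) * h (-s)) volume (-c) c := by
    have := (hi.comp_sub_left 0).symm
    simpa using this
  set a : ℝ := √(c ^ 2 / 3) with ha
  have ha0 : 0 ≤ a := Real.sqrt_nonneg _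
  have ha2 : a ^ 2 = c ^ 2 / 3 := Real.sq_sqrt (by positivity)
  have hac : |a| ≤ c := by
    rw [abs_of_nonneg ha0]
    nlinarith
  have h2 : ∫ s in (-c)..c, ((s ^ 2 - c ^ 2 / 3) * h s + (s ^ 2 - c ^ 2 / 3) * h (-s)) ≤
      ∫ s in (-c)..c, (s ^ 2 - c ^ 2 / 3) * (h a + h (-a)) := by
    apply intervalIntegral.integral_mono_on (by linarith) (hi.add hi')
      (Continuous.intervalIntegrable (by fun_prop) _ _)
    intro s hs
    have hsc : |s| ≤ c := abs_le.2 hs
    rcases le_total |s| |a| with hsa | hsa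
    · have h3 := even_anti hconc hsa hac
      have h4 : s ^ 2 ≤ a ^ 2 := sq_le_sq.2 hsa
      have h5 : 0 ≤ c ^ 2 / 3 - s ^ 2 := by linarith
      have := mul_nonneg h5 (sub_nonneg.2 h3)
      linarith
    · have h3 := even_anti hconc hsa hsc
      have h4 : a ^ 2 ≤ s ^ 2 := sq_le_sq.2 hsa
      have h5 : 0 ≤ s ^ 2 - c ^ 2 / 3 := by linarith
      have := mul_nonneg h5 (sub_nonneg.2 h3)
      linarith
  rw [intervalIntegral.integral_add hi hi', e1, intervalIntegral.integral_mul_const] at h2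
  have e3 : ∫ s in (-c)..c, (s ^ 2 - c ^ 2 / 3) = 0 := by
    rw [intervalIntegral.integral_sub (Continuous.intervalIntegrable (by fun_prop) _ _)
      (Continuous.intervalIntegrable (by fun_prop) _ _), integral_pow,
      intervalIntegral.integral_const]
    simp only [smul_eq_mul]
    push_cast
    ring
  rw [e3, zero_mul] at h2
  linarith

end Vale.Agent.P254.Fib.H598
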