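import Vale.Agent.P254.Fib.Defs

/-! P254/Fib [R1]: the second moment of a concave function on a symmetric interval. -/

open MeasureTheory Set Real

namespace Vale.Agent.P254.Fib.H968

theorem three_point {a b : ℝ} {h : ℝ → ℝ} (hconc : ConcaveOn ℝ (Icc a b) h) {x y z : ℝ}
    (hx : x ∈ Icc a b) (hz : z ∈ Icc a b) (hxy : x ≤ y) (hyz : y ≤ z) :
    (z - y) * h x + (y - x) * h z ≤ (z - x) * h y := by
  rcases (hxy.trans hyz).eq_or_lt with hxz | hxz
  · have h1 : y = x := le_antisymm (hyz.trans hxz.symm.le) hxy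
    subst h1
    subst hxz
    simp
  have hp : 0 < z - x := sub_pos.2 hxz
  have w1 : 0 ≤ (z - y) / (z - x) := div_nonneg (by linarith) hp.le
  have w2 : 0 ≤ (y - x) / (z - x) := div_nonneg (by linarith) hp.le
  have w3 : (z - y) / (z - x) + (y - x) / (z - x) = 1 := by
    rw [← add_div, div_eq_one_iff_eq hp.ne']
    ring
  have h1 := hconc.2 hx hz w1 w2 w3
  simp only [smul_eq_mul] at h1
  have h2 : (z - y) / (z - x) * x + (y - x) / (z - x) * z = y := by
    field_simp
    ring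
  rw [h2] at h1
  have h3 := mul_le_mul_of_nonneg_left h1 hp.le
  have h4 : (z - x) * ((z - y) / (z - x) * h x + (y - x) / (z - x) * h z) =
      (z - y) * h x + (y - x) * h z := by
    field_simp
  rwa [h4] at h3

/-- [R1] -/
theorem cap_mom {c : ℝ} (hc : 0 < c) {h : ℝ → ℝ} (hconc : ConcaveOn ℝ (Icc (-c) c) h)
    (_hpos : ∀ s ∈ Icc (-c) c, 0 ≤ h s) : ∫ s in (-c)..c, (s ^ 2 - c ^ 2 / 3) * h s ≤ 0 := by
  by_cases hi : IntervalIntegrable (fun s => (s ^ 2 - c ^ 2 / 3) * h s) volume (-c) c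
  swap
  · rw [intervalIntegral.integral_undef hi]
  have hr : 0 < √3 := Real.sqrt_pos.2 (by norm_num)
  have hr2 : √3 ^ 2 = 3 := Real.sq_sqrt (by norm_num)
  have hr1 : 1 < √3 := by nlinarith
  obtain ⟨d, hd⟩ : ∃ d : ℝ, d = c / √3 := ⟨_, rfl⟩
  have hd0 : 0 < d := by rw [hd]; positivity
  have hdc : d < c := by
    rw [hd, div_lt_iff₀ hr]
    nlinarith
  have hd2 : d ^ 2 = c ^ 2 / 3 := by rw [hd, div_pow, hr2]
  have m1 : d ∈ Icc (-c) c := ⟨by linarith, hdc.le⟩
  have m2 : -d ∈ Icc (-c) c := ⟨by linarith, by linarith⟩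
  obtain ⟨A, hA⟩ : ∃ A : ℝ, A = (h d + h (-d)) / 2 := ⟨_, rfl⟩
  obtain ⟨B, hB⟩ : ∃ B : ℝ, B = (h d - h (-d)) / (2 * d) := ⟨_, rfl⟩
  have hl : ∀ s, 2 * d * (A + B * s) = (d - s) * h (-d) + (s + d) * h d := fun s => by
    rw [hA, hB]
    field_simp
    ring
  have hpt : ∀ s ∈ Icc (-c) c, (s ^ 2 - c ^ 2 / 3) * h s ≤ (s ^ 2 - c ^ 2 / 3) * (A + B * s) := by
    intro s hs
    rw [← hd2]
    have key : (s ^ 2 - d ^ 2) * (2 * d * h s) ≤ (s ^ 2 - d ^ 2) * (2 * d * (A + B * s)) := by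
      rw [hl]
      rcases le_total s (-d) with h1 | h1
      · have h2 := three_point hconc hs m1 h1 (by linarith : -d ≤ d)
        have h3 : 2 * d * h s ≤ (d - s) * h (-d) + (s + d) * h d := by linarith
        exact mul_le_mul_of_nonneg_left h3 (by nlinarith)
      · rcases le_total s d with h4 | h4
        · have h2 := three_point hconc m2 m1 h1 h4
          have h3 : (d - s) * h (-d) + (s + d) * h d ≤ 2 * d * h s := by linarith
          exact mul_le_mul_of_nonpos_left h3 (by nlinarith)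
        · have h2 := three_point hconc m2 hs (by linarith : -d ≤ d) h4
          have h3 : 2 * d * h s ≤ (d - s) * h (-d) + (s + d) * h d := by linarith
          exact mul_le_mul_of_nonneg_left h3 (by nlinarith)
    have h5 : 2 * d * ((s ^ 2 - d ^ 2) * h s) ≤ 2 * d * ((s ^ 2 - d ^ 2) * (A + B * s)) := by
      linarith
    exact le_of_mul_le_mul_left h5 (by linarith)
  have hcont : Continuous fun s : ℝ => (s ^ 2 - c ^ 2 / 3) * (A + B * s) := by fun_prop
  refine (intervalIntegral.integral_mono_on (by linarith) hi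
    (hcont.intervalIntegrable _ _) hpt).trans (le_of_eq ?_)
  have hF : ∀ x : ℝ, HasDerivAt (fun s : ℝ => A * (s ^ 3 / 3 - c ^ 2 / 3 * s) +
      B * (s ^ 4 / 4 - c ^ 2 / 3 * s ^ 2 / 2)) ((x ^ 2 - c ^ 2 / 3) * (A + B * x)) x := fun x => by
    have a1 := (((hasDerivAt_pow 3 x).div_const 3).sub
      ((hasDerivAt_id' x).const_mul (c ^ 2 / 3))).const_mul A
    have a2 := (((hasDerivAt_pow 4 x).div_const 4).sub
      (((hasDerivAt_pow 2 x).const_mul (c ^ 2 / 3)).div_const 2)).const_mul B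
    refine (a1.add a2).congr_deriv ?_
    norm_num
    ring
  rw [intervalIntegral.integral_eq_sub_of_hasDerivAt (fun x _ => hF x)
    (hcont.intervalIntegrable _ _)]
  ring

end Vale.Agent.P254.Fib.H968
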