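import Vale.Agent.P254.Fib.Defs

/-!
P254: `L ∫ h² ≤ (4 / 3) (∫ h)²` for a nonnegative concave function on an interval of length `L`.
-/

open MeasureTheory Set

namespace Vale.Agent.P254.Fib

namespace H434

/-- superlevel set -/
def Lev (c d : ℝ) (φ : ℝ → ℝ) (t : ℝ) : Set ℝ := {x | x ∈ Icc c d ∧ t < φ x}

theorem meas_ind {c d : ℝ} {φ : ℝ → ℝ} (h0 : ∀ x ∈ Icc c d, 0 ≤ φ x)
    (hm : ∀ t, MeasurableSet (Lev c d φ t)) : Measurable ((Icc c d).indicator φ) := by
  refine measurable_of_Ioi fun t => ?_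
  rcases lt_or_ge t 0 with ht | ht
  · have h1 : (Icc c d).indicator φ ⁻¹' Ioi t = univ := by
      ext x
      simp only [mem_preimage, mem_Ioi, mem_univ, iff_true]
      exact lt_of_lt_of_le ht (indicator_nonneg h0 x)
    rw [h1]
    exact MeasurableSet.univ
  · have h1 : (Icc c d).indicator φ ⁻¹' Ioi t = Lev c d φ t := by
      ext x
      by_cases hx : x ∈ Icc c d
      · simp only [mem_preimage, indicator_of_mem hx, mem_Ioi, Lev, mem_ofPred_eq, hx, true_and]
      · simp only [mem_preimage, indicator_of_notMem hx, mem_Ioi, Lev, mem_ofPred_eq, hx,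
          false_and, iff_false, not_lt]
        exact ht
    rw [h1]
    exact hm t

theorem intg (k : ℕ) {c d : ℝ} {φ w : ℝ → ℝ} {C : ℝ}
    (h0 : ∀ x ∈ Icc c d, 0 ≤ φ x) (hC : ∀ x ∈ Icc c d, φ x ≤ C)
    (hm : ∀ t, MeasurableSet (Lev c d φ t)) (hw : Continuous w) :
    IntegrableOn (fun x => w x * φ x ^ k) (Icc c d) := by
  obtain ⟨W, hW⟩ := isCompact_Icc.exists_bound_of_continuousOn (hw.continuousOn (s := Icc c d))
  have h1 : AEStronglyMeasurable (fun x => w x * φ x ^ k) (volume.restrict (Icc c d)) := by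
    have h2 : AEStronglyMeasurable (fun x => w x * (Icc c d).indicator φ x ^ k)
        (volume.restrict (Icc c d)) :=
      (hw.measurable.mul ((meas_ind h0 hm).pow_const k)).aestronglyMeasurable
    refine h2.congr ?_
    filter_upwards [ae_restrict_mem measurableSet_Icc] with x hx
    rw [indicator_of_mem hx]
  refine Integrable.mono' (integrable_const (W * C ^ k)) h1 ?_
  filter_upwards [ae_restrict_mem measurableSet_Icc] with x hx
  rw [norm_mul, norm_pow, Real.norm_of_nonneg (h0 x hx)]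
  exact mul_le_mul (hW x hx) (pow_le_pow_left₀ (h0 x hx) (hC x hx) k)
    (pow_nonneg (h0 x hx) k) ((norm_nonneg _).trans (hW x hx))

theorem cake (k : ℕ) (hk : 1 ≤ k) {c d : ℝ} (hcd : c ≤ d) {φ w : ℝ → ℝ} {C : ℝ}
    (h0 : ∀ x ∈ Icc c d, 0 ≤ φ x) (hC : ∀ x ∈ Icc c d, φ x ≤ C)
    (hm : ∀ t, MeasurableSet (Lev c d φ t)) (hw : Continuous w) (hw0 : ∀ x, 0 ≤ w x) :
    ENNReal.ofReal (∫ x in c..d, w x * φ x ^ k) =
      ∫⁻ t in Ioi (0 : ℝ), ∫⁻ x in Lev c d φ (t ^ ((k : ℝ)⁻¹)), ENNReal.ofReal (w x) := by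
  have hk0 : k ≠ 0 := by omega
  rw [intervalIntegral.integral_of_le hcd, ← integral_Icc_eq_integral_Ioc,
    ofReal_integral_eq_lintegral_ofReal (intg k h0 hC hm hw) ?_]
  swap
  · filter_upwards [ae_restrict_mem measurableSet_Icc] with x hx
    exact mul_nonneg (hw0 x) (pow_nonneg (h0 x hx) k)
  have h1 : (∫⁻ x in Icc c d, ENNReal.ofReal (w x * φ x ^ k)) =
      ∫⁻ x, ENNReal.ofReal ((Icc c d).indicator φ x ^ k)
        ∂(volume.withDensity fun x => ENNReal.ofReal (w x)) := by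
    rw [lintegral_withDensity_eq_lintegral_mul volume hw.measurable.ennreal_ofReal
      (((meas_ind h0 hm).pow_const k).ennreal_ofReal), ← lintegral_indicator measurableSet_Icc]
    refine lintegral_congr fun x => ?_
    by_cases hx : x ∈ Icc c d
    · simp only [indicator_of_mem hx, Pi.mul_apply]
      rw [← ENNReal.ofReal_mul (hw0 x)]
    · simp only [indicator_of_notMem hx, Pi.mul_apply, zero_pow hk0, ENNReal.ofReal_zero, mul_zero]
  rw [h1, lintegral_eq_lintegral_meas_lt _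
    (ae_of_all _ fun x => pow_nonneg (indicator_nonneg h0 x) k)
    ((meas_ind h0 hm).pow_const k).aemeasurable]
  refine setLIntegral_congr_fun measurableSet_Ioi fun t ht => ?_
  have ht' : 0 < t := ht
  have h2 : {x | t < (Icc c d).indicator φ x ^ k} = Lev c d φ (t ^ ((k : ℝ)⁻¹)) := by
    have h3 : (t ^ ((k : ℝ)⁻¹)) ^ k = t := Real.rpow_inv_natCast_pow ht'.le hk0
    have h4 : 0 ≤ t ^ ((k : ℝ)⁻¹) := Real.rpow_nonneg ht'.le _
    ext x
    by_cases hx : x ∈ Icc c d
    · simp only [mem_ofPred_eq, indicator_of_mem hx, Lev, hx, true_and]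
      conv_lhs => rw [← h3]
      exact pow_lt_pow_iff_left₀ h4 (h0 x hx) hk0
    · simp only [mem_ofPred_eq, indicator_of_notMem hx, Lev, hx, false_and, iff_false, not_lt]
      rw [zero_pow hk0]
      exact ht'.le
  rw [h2, withDensity_apply _ (hm _)]

theorem vol_eq {E : Set ℝ} {p q : ℝ} (h1 : Ioo p q ⊆ E) (h2 : E ⊆ Icc p q) :
    volume E = ENNReal.ofReal (q - p) :=
  le_antisymm ((measure_mono h2).trans_eq Real.volume_Icc)
    (Real.volume_Ioo.symm.trans_le (measure_mono h1))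

/-- the rearrangement -/
noncomputable def re (a b : ℝ) (g : ℝ → ℝ) (s : ℝ) : ℝ :=
  sSup ((fun x => min (g x) (g (x + s))) '' Icc a (b - s))

section

variable {a b : ℝ} {g : ℝ → ℝ}

theorem bd (hconc : ConcaveOn ℝ (Icc a b) g) (hpos : ∀ s ∈ Icc a b, 0 ≤ g s) :
    ∀ x ∈ Icc a b, g x ≤ 2 * g ((a + b) / 2) := by
  intro x hx
  have hx' : a + b - x ∈ Icc a b := ⟨by linarith [hx.2], by linarith [hx.1]⟩
  have h1 := hconc.2 hx hx' (by norm_num : (0 : ℝ) ≤ 1 / 2) (by norm_num : (0 : ℝ) ≤ 1 / 2)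
    (by norm_num)
  have h2 := hpos _ hx'
  simp only [smul_eq_mul] at h1
  have h3 : (1 / 2 : ℝ) * x + 1 / 2 * (a + b - x) = (a + b) / 2 := by ring
  rw [h3] at h1
  linarith

theorem bdd (hconc : ConcaveOn ℝ (Icc a b) g) (hpos : ∀ s ∈ Icc a b, 0 ≤ g s) {s : ℝ}
    (hs : 0 ≤ s) : BddAbove ((fun x => min (g x) (g (x + s))) '' Icc a (b - s)) := by
  refine ⟨2 * g ((a + b) / 2), ?_⟩
  rintro _ ⟨x, hx, rfl⟩
  exact (min_le_left _ _).trans (bd hconc hpos x ⟨hx.1, by linarith [hx.2]⟩)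

theorem ne (g : ℝ → ℝ) {s : ℝ} (hs : s ≤ b - a) :
    ((fun x => min (g x) (g (x + s))) '' Icc a (b - s)).Nonempty :=
  ⟨_, a, ⟨le_rfl, by linarith⟩, rfl⟩

theorem lt_re (hconc : ConcaveOn ℝ (Icc a b) g) (hpos : ∀ s ∈ Icc a b, 0 ≤ g s) {s t : ℝ}
    (hs : s ∈ Icc 0 (b - a)) :
    t < re a b g s ↔ ∃ x ∈ Icc a (b - s), t < g x ∧ t < g (x + s) := by
  unfold re
  rw [lt_csSup_iff (bdd hconc hpos hs.1) (ne g hs.2)]
  constructor
  · rintro ⟨_, ⟨x, hx, rfl⟩, h⟩
    exact ⟨x, hx, lt_min_iff.1 h⟩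
  · rintro ⟨x, hx, h⟩
    exact ⟨_, ⟨x, hx, rfl⟩, lt_min_iff.2 h⟩

theorem re_conc (hconc : ConcaveOn ℝ (Icc a b) g) (hpos : ∀ s ∈ Icc a b, 0 ≤ g s) :
    ConcaveOn ℝ (Icc 0 (b - a)) (re a b g) := by
  refine ⟨convex_Icc _ _, ?_⟩
  intro s hs s' hs' α β hα hβ hαβ
  have hS : α * s + β * s' ∈ Icc 0 (b - a) := (convex_Icc _ _) hs hs' hα hβ hαβ
  simp only [smul_eq_mul]
  refine le_of_forall_pos_le_add fun ε hε => ?_
  obtain ⟨x, hx, h1, h2⟩ := (lt_re hconc hpos hs).1 (sub_lt_self (re a b g s) hε)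
  obtain ⟨x', hx', h1', h2'⟩ := (lt_re hconc hpos hs').1 (sub_lt_self (re a b g s') hε)
  have hX : α * x + β * x' ∈ Icc a (b - (α * s + β * s')) := by
    obtain rfl : β = 1 - α := by linarith
    constructor
    · linarith [mul_nonneg hα (sub_nonneg.2 hx.1), mul_nonneg hβ (sub_nonneg.2 hx'.1)]
    · linarith [mul_nonneg hα (sub_nonneg.2 hx.2), mul_nonneg hβ (sub_nonneg.2 hx'.2)]
  have e1 := hconc.2 (x := x) (y := x') ⟨hx.1, by linarith [hx.2, hs.1]⟩
    ⟨hx'.1, by linarith [hx'.2, hs'.1]⟩ hα hβ hαβ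
  have e2 := hconc.2 (x := x + s) (y := x' + s') ⟨by linarith [hx.1, hs.1], by linarith [hx.2]⟩
    ⟨by linarith [hx'.1, hs'.1], by linarith [hx'.2]⟩ hα hβ hαβ
  simp only [smul_eq_mul] at e1 e2
  have e3 : α * (x + s) + β * (x' + s') = α * x + β * x' + (α * s + β * s') := by ring
  rw [e3] at e2
  have f1 := mul_le_mul_of_nonneg_left h1.le hα
  have f2 := mul_le_mul_of_nonneg_left h2.le hα
  have f1' := mul_le_mul_of_nonneg_left h1'.le hβ
  have f2' := mul_le_mul_of_nonneg_left h2'.le hβ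
  have hε' : α * ε + β * ε = ε := by rw [← add_mul, hαβ, one_mul]
  have key : α * re a b g s + β * re a b g s' - ε ≤
      min (g (α * x + β * x')) (g (α * x + β * x' + (α * s + β * s'))) :=
    le_min (by linarith) (by linarith)
  have h3 := le_csSup (bdd hconc hpos hS.1) ⟨α * x + β * x', hX, rfl⟩
  have h4 : α * re a b g s + β * re a b g s' - ε ≤ re a b g (α * s + β * s') := key.trans h3
  linarith

theorem re_anti (hconc : ConcaveOn ℝ (Icc a b) g) (hpos : ∀ s ∈ Icc a b, 0 ≤ g s) :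
    AntitoneOn (re a b g) (Icc 0 (b - a)) := by
  intro s hs s' hs' hss
  refine csSup_le (ne g hs'.2) ?_
  rintro _ ⟨x, hx, rfl⟩
  refine le_trans ?_ (le_csSup (bdd hconc hpos hs.1) ⟨x, ⟨hx.1, by linarith [hx.2]⟩, rfl⟩)
  refine le_min (min_le_left _ _) ?_
  exact hconc.min_le_of_mem_Icc ⟨hx.1, by linarith [hx.2, hs'.1]⟩
    ⟨by linarith [hx.1, hs'.1], by linarith [hx.2]⟩ ⟨by linarith [hs.1], by linarith⟩

theorem re_nonneg (hconc : ConcaveOn ℝ (Icc a b) g) (hpos : ∀ s ∈ Icc a b, 0 ≤ g s) :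
    ∀ s ∈ Icc 0 (b - a), 0 ≤ re a b g s := by
  intro s hs
  refine le_trans ?_ (le_csSup (bdd hconc hpos hs.1) ⟨a, ⟨le_rfl, by linarith [hs.2]⟩, rfl⟩)
  exact le_min (hpos _ ⟨le_rfl, by linarith [hs.1, hs.2]⟩)
    (hpos _ ⟨by linarith [hs.1], by linarith [hs.2]⟩)

theorem lev_ord {c d : ℝ} {φ : ℝ → ℝ} (h : ConcaveOn ℝ (Icc c d) φ) (t : ℝ) :
    (Lev c d φ t).OrdConnected := (h.convex_gt t).ordConnected

theorem lev_cmp (hconc : ConcaveOn ℝ (Icc a b) g) (hpos : ∀ s ∈ Icc a b, 0 ≤ g s) (t : ℝ)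
    (hne : (Lev a b g t).Nonempty) :
    Ioo (sInf (Lev a b g t)) (sSup (Lev a b g t)) ⊆ Lev a b g t ∧
    Lev a b g t ⊆ Icc (sInf (Lev a b g t)) (sSup (Lev a b g t)) ∧
    Ioo 0 (sSup (Lev a b g t) - sInf (Lev a b g t)) ⊆ Lev 0 (b - a) (re a b g) t ∧
    Lev 0 (b - a) (re a b g) t ⊆ Icc 0 (sSup (Lev a b g t) - sInf (Lev a b g t)) := by
  have hsub : Lev a b g t ⊆ Icc a b := fun x hx => hx.1
  have hA : BddAbove (Lev a b g t) := bddAbove_Icc.mono hsub
  have hB : BddBelow (Lev a b g t) := bddBelow_Icc.mono hsub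
  have hord := lev_ord hconc t
  refine ⟨IsConnected.Ioo_csInf_csSup_subset ⟨hne, hord.isPreconnected⟩ hB hA,
    subset_Icc_csInf_csSup hB hA, ?_, ?_⟩
  · intro s hs
    have h1 : sInf (Lev a b g t) + s < sSup (Lev a b g t) := by linarith [hs.2]
    obtain ⟨y, hy, hy1⟩ := exists_lt_of_lt_csSup hne h1
    have h2 : sInf (Lev a b g t) < y - s := by linarith
    obtain ⟨x, hx, hx1⟩ := exists_lt_of_csInf_lt hne h2
    have h3 : x + s ∈ Lev a b g t := hord.out hx hy ⟨by linarith [hs.1], by linarith⟩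
    have h4 : s ∈ Icc 0 (b - a) := ⟨hs.1.le, by linarith [hx.1.1, hy.1.2]⟩
    exact ⟨h4, (lt_re hconc hpos h4).2 ⟨x, ⟨hx.1.1, by linarith [h3.1.2]⟩, hx.2, h3.2⟩⟩
  · intro s hs
    obtain ⟨x, hx, h1, h2⟩ := (lt_re hconc hpos hs.1).1 hs.2
    have h3 : x ∈ Lev a b g t := ⟨⟨hx.1, by linarith [hx.2, hs.1.1]⟩, h1⟩
    have h4 : x + s ∈ Lev a b g t := ⟨⟨by linarith [hx.1, hs.1.1], by linarith [hx.2]⟩, h2⟩
    have h5 := csInf_le hB h3
    have h6 := le_csSup hA h4
    exact ⟨hs.1.1, by linarith⟩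

theorem lev_empty (hconc : ConcaveOn ℝ (Icc a b) g) (hpos : ∀ s ∈ Icc a b, 0 ≤ g s) (t : ℝ)
    (he : Lev a b g t = ∅) : Lev 0 (b - a) (re a b g) t = ∅ := by
  refine eq_empty_of_forall_notMem fun s hs => ?_
  obtain ⟨x, hx, h1, h2⟩ := (lt_re hconc hpos hs.1).1 hs.2
  have h3 : x ∈ Lev a b g t := ⟨⟨hx.1, by linarith [hx.2, hs.1.1]⟩, h1⟩
  rw [he] at h3
  exact h3

theorem lev_vol (hconc : ConcaveOn ℝ (Icc a b) g) (hpos : ∀ s ∈ Icc a b, 0 ≤ g s) (t : ℝ) :
    volume (Lev 0 (b - a) (re a b g) t) = volume (Lev a b g t) := by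
  rcases (Lev a b g t).eq_empty_or_nonempty with he | hne
  · rw [lev_empty hconc hpos t he, he]
  · obtain ⟨h1, h2, h3, h4⟩ := lev_cmp hconc hpos t hne
    rw [vol_eq h1 h2, vol_eq h3 h4, sub_zero]

theorem re_pow (hab : a < b) (hconc : ConcaveOn ℝ (Icc a b) g) (hpos : ∀ s ∈ Icc a b, 0 ≤ g s)
    (j : ℕ) (hj : 1 ≤ j) :
    (∫ t in (0 : ℝ)..(b - a), re a b g t ^ j) = ∫ t in a..b, g t ^ j := by
  have hl : 0 ≤ b - a := sub_nonneg.2 hab.le
  have c1 : ConcaveOn ℝ (Icc 0 (b - a)) (re a b g) := re_conc hconc hpos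
  have c2 : ∀ s ∈ Icc 0 (b - a), 0 ≤ re a b g s := re_nonneg hconc hpos
  have mg : ∀ t, MeasurableSet (Lev a b g t) := fun t => (lev_ord hconc t).measurableSet
  have mh : ∀ t, MeasurableSet (Lev 0 (b - a) (re a b g) t) :=
    fun t => (lev_ord c1 t).measurableSet
  have e1 := cake j hj hab.le hpos (bd hconc hpos) mg (w := fun _ => 1) continuous_const
    (fun _ => zero_le_one)
  have e2 := cake j hj hl c2 (bd c1 c2) mh (w := fun _ => 1) continuous_const
    (fun _ => zero_le_one)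
  simp only [one_mul, ENNReal.ofReal_one, setLIntegral_one] at e1 e2
  have e3 : ∀ t, volume (Lev 0 (b - a) (re a b g) t) = volume (Lev a b g t) := lev_vol hconc hpos
  simp only [e3] at e2
  rw [← e1] at e2
  have n1 : 0 ≤ ∫ x in a..b, g x ^ j :=
    intervalIntegral.integral_nonneg hab.le fun t ht => pow_nonneg (hpos t ht) _
  have n2 : 0 ≤ ∫ x in (0 : ℝ)..(b - a), re a b g x ^ j :=
    intervalIntegral.integral_nonneg hl fun t ht => pow_nonneg (c2 t ht) _
  rwa [ENNReal.ofReal_eq_ofReal_iff n2 n1] at e2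

end

theorem int_nonpos {L : ℝ} (hL : 0 ≤ L) {f : ℝ → ℝ} (hf : ∀ s ∈ Icc 0 L, f s ≤ 0) :
    ∫ s in (0 : ℝ)..L, f s ≤ 0 := by
  have h1 := intervalIntegral.integral_nonneg (μ := volume) hL (f := fun s => -f s)
    fun s hs => neg_nonneg.2 (hf s hs)
  rw [intervalIntegral.integral_neg] at h1
  linarith

/-- the monotone case, by two Chebyshev inequalities -/
theorem cap_dec {L : ℝ} (hL : 0 < L) {h : ℝ → ℝ} (hconc : ConcaveOn ℝ (Icc 0 L) h)
    (hanti : AntitoneOn h (Icc 0 L)) (hpos : ∀ s ∈ Icc 0 L, 0 ≤ h s) :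
    L * ∫ s in (0 : ℝ)..L, h s ^ 2 ≤ 4 / 3 * (∫ s in (0 : ℝ)..L, h s) ^ 2 := by
  have hmeas : ∀ t, MeasurableSet (Lev 0 L h t) := fun t => (lev_ord hconc t).measurableSet
  have I : ∀ (k : ℕ) (w : ℝ → ℝ), Continuous w →
      IntervalIntegrable (fun x => w x * h x ^ k) volume 0 L := by
    intro k w hw
    rw [intervalIntegrable_iff_integrableOn_Icc_of_le hL.le]
    exact intg k hpos (bd hconc hpos) hmeas hw
  have Ih : IntervalIntegrable h volume 0 L := by simpa using I 1 (fun _ => 1) continuous_const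
  have Ih2 : IntervalIntegrable (fun x => h x ^ 2) volume 0 L := by
    simpa using I 2 (fun _ => 1) continuous_const
  have Ip : IntervalIntegrable (fun x => L - x) volume 0 L :=
    (by fun_prop : Continuous fun x : ℝ => L - x).intervalIntegrable _ _
  have Ip2 : IntervalIntegrable (fun x => (L - x) ^ 2) volume 0 L :=
    (by fun_prop : Continuous fun x : ℝ => (L - x) ^ 2).intervalIntegrable _ _
  have Ihp : IntervalIntegrable (fun x => (L - x) * h x) volume 0 L := by
    simpa using I 1 (fun x => L - x) (by fun_prop)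
  -- slopes
  have hs : ∀ s ∈ Icc 0 L, ∀ t ∈ Icc 0 L, s ≤ t → h s * (L - t) ≤ h t * (L - s) := by
    intro s hs t ht hst
    rcases eq_or_lt_of_le hs.2 with hsL | hsL
    · have htL : t = L := le_antisymm ht.2 (hsL ▸ hst)
      rw [htL, hsL]
    have hd : 0 < L - s := sub_pos.2 hsL
    have h1 := hconc.2 hs (right_mem_Icc.2 hL.le)
      (show 0 ≤ (L - t) / (L - s) from div_nonneg (sub_nonneg.2 ht.2) hd.le)
      (show 0 ≤ (t - s) / (L - s) from div_nonneg (sub_nonneg.2 hst) hd.le)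
      (by field_simp; ring)
    have h2 : ((L - t) / (L - s)) • s + ((t - s) / (L - s)) • L = t := by
      simp only [smul_eq_mul]
      field_simp
      ring
    rw [h2] at h1
    simp only [smul_eq_mul] at h1
    have h3 : 0 ≤ (t - s) / (L - s) * h L :=
      mul_nonneg (div_nonneg (sub_nonneg.2 hst) hd.le) (hpos L (right_mem_Icc.2 hL.le))
    have h4 : (L - t) / (L - s) * h s ≤ h t := by linarith
    rw [div_mul_eq_mul_div, div_le_iff₀ hd] at h4
    linarith
  have k1 : ∀ s ∈ Icc 0 L, ∀ t ∈ Icc 0 L,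
      (h s * (L - t) - h t * (L - s)) * (h s - h t) ≤ 0 := by
    intro s hs' t ht'
    rcases le_total s t with hst | hst
    · exact mul_nonpos_of_nonpos_of_nonneg (by linarith [hs s hs' t ht' hst])
        (by linarith [hanti hs' ht' hst])
    · exact mul_nonpos_of_nonneg_of_nonpos (by linarith [hs t ht' s hs' hst])
        (by linarith [hanti ht' hs' hst])
  have k2 : ∀ s ∈ Icc 0 L, ∀ t ∈ Icc 0 L,
      (h s * (L - t) - h t * (L - s)) * (t - s) ≤ 0 := by
    intro s hs' t ht'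
    rcases le_total s t with hst | hst
    · exact mul_nonpos_of_nonpos_of_nonneg (by linarith [hs s hs' t ht' hst]) (by linarith)
    · exact mul_nonpos_of_nonneg_of_nonpos (by linarith [hs t ht' s hs' hst]) (by linarith)
  set A := ∫ s in (0 : ℝ)..L, h s with hA
  set B := ∫ s in (0 : ℝ)..L, h s ^ 2 with hB
  set P := ∫ s in (0 : ℝ)..L, (L - s) with hP
  set P2 := ∫ s in (0 : ℝ)..L, (L - s) ^ 2 with hP2
  set Q := ∫ s in (0 : ℝ)..L, (L - s) * h s with hQ
  have e1 : ∀ t ∈ Icc 0 L, (L - t) * B - (L - t) * h t * A - h t * Q + h t ^ 2 * P ≤ 0 := by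
    intro t ht
    have e : (L - t) * B - (L - t) * h t * A - h t * Q + h t ^ 2 * P =
        ∫ s in (0 : ℝ)..L, ((L - t) * h s ^ 2 - (L - t) * h t * h s - h t * ((L - s) * h s) +
          h t ^ 2 * (L - s)) := by
      rw [intervalIntegral.integral_add (((Ih2.const_mul _).sub (Ih.const_mul _)).sub
          (Ihp.const_mul _)) (Ip.const_mul _),
        intervalIntegral.integral_sub ((Ih2.const_mul _).sub (Ih.const_mul _)) (Ihp.const_mul _),
        intervalIntegral.integral_sub (Ih2.const_mul _) (Ih.const_mul _),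
        intervalIntegral.integral_const_mul, intervalIntegral.integral_const_mul,
        intervalIntegral.integral_const_mul, intervalIntegral.integral_const_mul]
    rw [e]
    refine int_nonpos hL.le fun s hs' => ?_
    have := k1 s hs' t ht
    nlinarith
  have e2 : ∀ t ∈ Icc 0 L, (L - t) * Q - (L - t) ^ 2 * A - h t * P2 + (L - t) * h t * P ≤ 0 := by
    intro t ht
    have e : (L - t) * Q - (L - t) ^ 2 * A - h t * P2 + (L - t) * h t * P =
        ∫ s in (0 : ℝ)..L, ((L - t) * ((L - s) * h s) - (L - t) ^ 2 * h s - h t * (L - s) ^ 2 +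
          (L - t) * h t * (L - s)) := by
      rw [intervalIntegral.integral_add (((Ihp.const_mul _).sub (Ih.const_mul _)).sub
          (Ip2.const_mul _)) (Ip.const_mul _),
        intervalIntegral.integral_sub ((Ihp.const_mul _).sub (Ih.const_mul _)) (Ip2.const_mul _),
        intervalIntegral.integral_sub (Ihp.const_mul _) (Ih.const_mul _),
        intervalIntegral.integral_const_mul, intervalIntegral.integral_const_mul,
        intervalIntegral.integral_const_mul, intervalIntegral.integral_const_mul]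
    rw [e]
    refine int_nonpos hL.le fun s hs' => ?_
    have := k2 s hs' t ht
    nlinarith
  have f1 : P * B - Q * A - A * Q + B * P ≤ 0 := by
    have e : P * B - Q * A - A * Q + B * P =
        ∫ t in (0 : ℝ)..L, (B * (L - t) - A * ((L - t) * h t) - Q * h t + P * h t ^ 2) := by
      rw [intervalIntegral.integral_add (((Ip.const_mul _).sub (Ihp.const_mul _)).sub
          (Ih.const_mul _)) (Ih2.const_mul _),
        intervalIntegral.integral_sub ((Ip.const_mul _).sub (Ihp.const_mul _)) (Ih.const_mul _),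
        intervalIntegral.integral_sub (Ip.const_mul _) (Ihp.const_mul _),
        intervalIntegral.integral_const_mul, intervalIntegral.integral_const_mul,
        intervalIntegral.integral_const_mul, intervalIntegral.integral_const_mul]
      ring
    rw [e]
    refine int_nonpos hL.le fun t ht => ?_
    have := e1 t ht
    linarith
  have f2 : P * Q - P2 * A - A * P2 + Q * P ≤ 0 := by
    have e : P * Q - P2 * A - A * P2 + Q * P =
        ∫ t in (0 : ℝ)..L, (Q * (L - t) - A * (L - t) ^ 2 - P2 * h t + P * ((L - t) * h t)) := by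
      rw [intervalIntegral.integral_add (((Ip.const_mul _).sub (Ip2.const_mul _)).sub
          (Ih.const_mul _)) (Ihp.const_mul _),
        intervalIntegral.integral_sub ((Ip.const_mul _).sub (Ip2.const_mul _)) (Ih.const_mul _),
        intervalIntegral.integral_sub (Ip.const_mul _) (Ip2.const_mul _),
        intervalIntegral.integral_const_mul, intervalIntegral.integral_const_mul,
        intervalIntegral.integral_const_mul, intervalIntegral.integral_const_mul]
      ring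
    rw [e]
    refine int_nonpos hL.le fun t ht => ?_
    have := e2 t ht
    linarith
  have vP : P = L ^ 2 / 2 := by
    rw [hP, intervalIntegral.integral_sub (by simp) (by simp), integral_id]
    simp
    ring
  have vP2 : P2 = L ^ 3 / 3 := by
    rw [hP2, intervalIntegral.integral_comp_sub_left (fun x => x ^ 2) L, integral_pow]
    norm_num
  have hA0 : 0 ≤ A := intervalIntegral.integral_nonneg hL.le fun s hs' => hpos s hs'
  have g1 : L ^ 2 / 2 * B ≤ Q * A := by rw [vP] at f1; linarith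
  have g2 : L ^ 2 / 2 * Q ≤ L ^ 3 / 3 * A := by rw [vP, vP2] at f2; linarith
  have g3 : Q ≤ 2 / 3 * L * A := by
    have : L ^ 2 * Q ≤ L ^ 2 * (2 / 3 * L * A) := by linarith
    exact le_of_mul_le_mul_left this (by positivity)
  have g4 : Q * A ≤ 2 / 3 * L * A * A := mul_le_mul_of_nonneg_right g3 hA0
  have g5 : L * (L * B) ≤ L * (4 / 3 * A ^ 2) := by nlinarith
  exact le_of_mul_le_mul_left g5 hL

end H434

open H434 in
/-- [R2] -/
theorem cap_sq {a b : ℝ} (hab : a < b) {h : ℝ → ℝ} (hconc : ConcaveOn ℝ (Icc a b) h)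
    (hpos : ∀ s ∈ Icc a b, 0 ≤ h s) :
    (b - a) * ∫ s in a..b, h s ^ 2 ≤ 4 / 3 * (∫ s in a..b, h s) ^ 2 := by
  have h1 := cap_dec (sub_pos.2 hab) (re_conc hconc hpos) (re_anti hconc hpos)
    (re_nonneg hconc hpos)
  have h2 := re_pow hab hconc hpos 2 (by norm_num)
  have h3 := re_pow hab hconc hpos 1 le_rfl
  simp only [pow_one] at h3
  rwa [h2, h3] at h1

end Vale.Agent.P254.Fib
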