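import Vale.Agent.P254.Fib.Defs
import Vale.Agent.P254.Perm.SlicesCore
import Vale.Agent.P254.Perm.Sec956
import Vale.Agent.P254.Perm.OneDim
import Vale.Agent.P254.Perm.OneEq
import Vale.Agent.P254.Perm.Cone
import Vale.Agent.P254.Perm.ConeM

/-!
P254, the equality case of the slice inequality with a general constant.
-/

open MeasureTheory Set Real

namespace Vale.Agent.P254.Fib.H77

open Vale.Agent.P254.Perm

lemma kapPos (m : ℕ) : 0 < kap m := by
  unfold kap
  positivity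

section

variable {m : ℕ} {L : Set (ℝ × (Fin m → ℝ))}

theorem eq_core (hm : 1 ≤ m) (hL : IsCompact L) (i : Fin m) {C : ℝ} (hC0 : 0 < C)
    {a b : ℝ} {g : ℝ → ℝ}
    (hab : a ≤ b) (hg0 : ∀ s ∈ Icc a b, 0 ≤ g s)
    (hg : ∀ s ∈ Icc a b, g s ^ m = (volume {y | (s, y) ∈ L}).toReal)
    (hout : ∀ s ∉ Icc a b, {y | (s, y) ∈ L} = ∅)
    (hB : ∀ s, (∫ y in {y | (s, y) ∈ L}, y i ^ 2) ^ m ≤
      C * (volume {y | (s, y) ∈ L}).toReal ^ (m + 2))
    (hone : ((∫ t in a..b, g t ^ m) * (∫ t in a..b, t ^ 2 * g t ^ m) -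
        (∫ t in a..b, t * g t ^ m) ^ 2) * (∫ t in a..b, g t ^ (m + 2)) ^ m ≤
      kap m * (∫ t in a..b, g t ^ m) ^ (m + 4))
    (hvol : 0 < (volume L).toReal)
    (heq : C * kap m * (volume L).toReal ^ (m + 4) ≤ (∫ p in L, p.2 i ^ 2) ^ m *
        ((volume L).toReal * (∫ p in L, p.1 ^ 2) - (∫ p in L, p.1) ^ 2)) :
    a < b ∧ (0 < ∫ t in a..b, g t ^ m) ∧
      kap m * (∫ t in a..b, g t ^ m) ^ (m + 4) ≤
        ((∫ t in a..b, g t ^ m) * (∫ t in a..b, t ^ 2 * g t ^ m) -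
          (∫ t in a..b, t * g t ^ m) ^ 2) * (∫ t in a..b, g t ^ (m + 2)) ^ m ∧
      ∀ᵐ s ∂(volume.restrict (Ioo a b)), C * (volume {y | (s, y) ∈ L}).toReal ^ (m + 2) ≤
        (∫ y in {y | (s, y) ∈ L}, y i ^ 2) ^ m := by
  have hm0 : m ≠ 0 := by omega
  have hmR : (0 : ℝ) < m := by exact_mod_cast Nat.pos_of_ne_zero hm0
  -- the basic integrals
  have eM : (volume L).toReal = ∫ t in a..b, g t ^ m := by
    rw [vol_slice' hL hab hout]
    refine intervalIntegral.integral_congr fun s hs => ?_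
    rw [uIcc_of_le hab] at hs
    exact (hg s hs).symm
  have e2 : ∫ p in L, p.1 ^ 2 = ∫ t in a..b, t ^ 2 * g t ^ m := by
    rw [int_slice' hL hab hout (f := fun p => p.1 ^ 2) (by fun_prop)]
    refine intervalIntegral.integral_congr fun s hs => ?_
    rw [uIcc_of_le hab] at hs
    simp only [integral_const, smul_eq_mul]
    rw [hg s hs, Measure.real, Measure.restrict_apply_univ, mul_comm]
  have e1 : ∫ p in L, p.1 = ∫ t in a..b, t * g t ^ m := by
    rw [int_slice' hL hab hout (f := fun p => p.1) (by fun_prop)]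
    refine intervalIntegral.integral_congr fun s hs => ?_
    rw [uIcc_of_le hab] at hs
    simp only [integral_const, smul_eq_mul]
    rw [hg s hs, Measure.real, Measure.restrict_apply_univ, mul_comm]
  have hab' : a < b := by
    refine lt_of_le_of_ne hab ?_
    intro h
    rw [eM, h] at hvol
    simp at hvol
  have hMpos : 0 < ∫ t in a..b, g t ^ m := by rw [← eM]; exact hvol
  refine ⟨hab', hMpos, ?_⟩
  set V : ℝ → ℝ := fun s => (volume {y | (s, y) ∈ L}).toReal with hV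
  obtain ⟨Cv, hCv⟩ := slice_vol hL
  have hV0 : ∀ s, 0 ≤ V s := fun s => ENNReal.toReal_nonneg
  have hVm : Measurable V := measurable_slice_vol hL
  have hgV : ∀ s ∈ Icc a b, g s = V s ^ ((1 : ℝ) / m) := by
    intro s hs
    show g s = (volume {y | (s, y) ∈ L}).toReal ^ ((1 : ℝ) / m)
    rw [← hg s hs, ← Real.rpow_natCast, ← Real.rpow_mul (hg0 s hs), mul_one_div_cancel hmR.ne',
      Real.rpow_one]
  set G : ℝ → ℝ := fun s => V s ^ ((1 : ℝ) / m) with hG
  have hG0 : ∀ s, 0 ≤ G s := fun s => Real.rpow_nonneg (hV0 s) _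
  have hGm : Measurable G := hVm.pow_const _
  have hGC : ∀ s, G s ≤ Cv ^ ((1 : ℝ) / m) := fun s =>
    Real.rpow_le_rpow (hV0 s) (hCv s) (by positivity)
  have hGp : ∀ s, G s ^ m = V s := by
    intro s
    show (V s ^ ((1 : ℝ) / m)) ^ m = V s
    rw [← Real.rpow_natCast, ← Real.rpow_mul (hV0 s), one_div_mul_cancel hmR.ne', Real.rpow_one]
  have hGint : ∀ k : ℕ, IntegrableOn (fun s => G s ^ k) (Ioc a b) := by
    intro k
    refine Measure.integrableOn_of_bounded (M := (Cv ^ ((1 : ℝ) / m)) ^ k) (by simp)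
      (hGm.pow_const k).aestronglyMeasurable (Filter.Eventually.of_forall fun s => ?_)
    rw [Real.norm_eq_abs, abs_of_nonneg (pow_nonneg (hG0 s) k)]
    exact pow_le_pow_left₀ (hG0 s) (hGC s) k
  have eP : ∫ t in a..b, g t ^ (m + 2) = ∫ t in Ioc a b, G t ^ (m + 2) := by
    rw [intervalIntegral.integral_of_le hab]
    refine setIntegral_congr_fun measurableSet_Ioc fun s hs => ?_
    show g s ^ (m + 2) = (V s ^ ((1 : ℝ) / m)) ^ (m + 2)
    rw [hgV s ⟨hs.1.le, hs.2⟩]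
  have hP0 : 0 ≤ ∫ t in a..b, g t ^ (m + 2) := by
    rw [eP]
    exact integral_nonneg fun s => pow_nonneg (hG0 s) _
  set κ : ℝ := C ^ ((1 : ℝ) / m) with hκ
  have hκ0 : 0 < κ := Real.rpow_pos_of_pos hC0 _
  have hκm : κ ^ m = C := by
    rw [hκ, ← Real.rpow_natCast, ← Real.rpow_mul hC0.le, one_div_mul_cancel hmR.ne',
      Real.rpow_one]
  -- the second moments of the slices
  have hQ0 : ∀ s, 0 ≤ ∫ y in {y | (s, y) ∈ L}, y i ^ 2 := fun s =>
    integral_nonneg fun y => sq_nonneg _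
  have hQ : ∀ s, ∫ y in {y | (s, y) ∈ L}, y i ^ 2 ≤ κ * G s ^ (m + 2) := by
    intro s
    refine le_of_pow_le_pow_left₀ hm0 (mul_nonneg hκ0.le (pow_nonneg (hG0 s) _)) ?_
    refine (hB s).trans (le_of_eq ?_)
    rw [mul_pow, hκm, ← pow_mul, mul_comm (m + 2) m, pow_mul, hGp]
  have hWeq : ∫ p in L, p.2 i ^ 2 = ∫ s in Ioc a b, ∫ y in {y | (s, y) ∈ L}, y i ^ 2 := by
    rw [int_slice' hL hab hout (f := fun p => p.2 i ^ 2) (by fun_prop),
      intervalIntegral.integral_of_le hab]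
  have hW : ∫ p in L, p.2 i ^ 2 ≤ κ * ∫ t in a..b, g t ^ (m + 2) := by
    rw [hWeq, eP, ← integral_const_mul]
    exact integral_mono_of_nonneg (Filter.Eventually.of_forall fun s => hQ0 s)
      ((hGint (m + 2)).const_mul _) (Filter.Eventually.of_forall fun s => hQ s)
  have hW0 : 0 ≤ ∫ p in L, p.2 i ^ 2 := integral_nonneg fun p => sq_nonneg _
  have hWm : (∫ p in L, p.2 i ^ 2) ^ m ≤ C * (∫ t in a..b, g t ^ (m + 2)) ^ m := by
    refine (pow_le_pow_left₀ hW0 hW m).trans (le_of_eq ?_)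
    rw [mul_pow, hκm]
  rw [eM, e1, e2] at heq
  obtain ⟨D, hD⟩ : ∃ D : ℝ, D = (∫ t in a..b, g t ^ m) * (∫ t in a..b, t ^ 2 * g t ^ m) -
          (∫ t in a..b, t * g t ^ m) ^ 2 := ⟨_, rfl⟩
  obtain ⟨M, hM⟩ : ∃ M : ℝ, M = ∫ t in a..b, g t ^ m := ⟨_, rfl⟩
  obtain ⟨P, hP⟩ : ∃ P : ℝ, P = ∫ t in a..b, g t ^ (m + 2) := ⟨_, rfl⟩
  obtain ⟨W, hWdef⟩ : ∃ W : ℝ, W = ∫ p in L, p.2 i ^ 2 := ⟨_, rfl⟩
  rw [← hD, ← hM, ← hWdef] at heq
  rw [← hD, ← hM, ← hP] at hone
  rw [← hM] at hMpos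
  rw [← hP] at hP0
  rw [← hWdef] at hW0
  rw [← hWdef, ← hP] at hWm hW
  rw [← hD, ← hM, ← hP]
  have hleft : 0 < C * kap m * M ^ (m + 4) :=
    mul_pos (mul_pos hC0 (kapPos m)) (pow_pos hMpos _)
  have hWm0 : 0 ≤ W ^ m := pow_nonneg hW0 m
  have hDpos : 0 < D := by
    by_contra hcon
    rw [not_lt] at hcon
    have : W ^ m * D ≤ 0 := mul_nonpos_of_nonneg_of_nonpos hWm0 hcon
    linarith only [hleft, heq, this]
  refine ⟨?_, ?_⟩
  · have h1 : C * (kap m * M ^ (m + 4)) ≤ C * (D * P ^ m) := by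
      calc C * (kap m * M ^ (m + 4)) = C * kap m * M ^ (m + 4) := by ring
        _ ≤ W ^ m * D := heq
        _ ≤ C * P ^ m * D := mul_le_mul_of_nonneg_right hWm hDpos.le
        _ = C * (D * P ^ m) := by ring
    exact le_of_mul_le_mul_left h1 hC0
  · have h1 : C * P ^ m ≤ W ^ m := by
      have h2 : C * P ^ m * D ≤ W ^ m * D := by
        calc C * P ^ m * D = C * (D * P ^ m) := by ring
          _ ≤ C * (kap m * M ^ (m + 4)) := mul_le_mul_of_nonneg_left hone hC0.le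
          _ = C * kap m * M ^ (m + 4) := by ring
          _ ≤ W ^ m * D := heq
      exact le_of_mul_le_mul_right h2 hDpos
    have h2 : κ * P ≤ W := by
      refine le_of_pow_le_pow_left₀ hm0 hW0 ?_
      rw [mul_pow, hκm]
      exact h1
    -- equality of the integrals
    have hWint : IntegrableOn (fun s => ∫ y in {y | (s, y) ∈ L}, y i ^ 2) (Ioc a b) := by
      have hf : Continuous fun p : ℝ × (Fin m → ℝ) => p.2 i ^ 2 := by fun_prop
      have hint : Integrable (L.indicator fun p : ℝ × (Fin m → ℝ) => p.2 i ^ 2)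
          ((volume : Measure ℝ).prod volume) :=
        (hf.continuousOn.integrableOn_compact hL).integrable_indicator hL.measurableSet
      have h3 := hint.integral_prod_left
      refine Integrable.congr (f := fun s => ∫ y, L.indicator
        (fun p : ℝ × (Fin m → ℝ) => p.2 i ^ 2) (s, y)) h3.integrableOn
        (Filter.Eventually.of_forall fun s => ?_)
      simp only
      rw [← integral_indicator (measurableSet_slice hL s)]
      rfl
    have hdiff : ∫ s in Ioc a b, (κ * G s ^ (m + 2) - ∫ y in {y | (s, y) ∈ L}, y i ^ 2) ≤ 0 := by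
      rw [integral_sub ((hGint (m + 2)).const_mul _) hWint, integral_const_mul, ← hWeq, ← eP,
        ← hP, ← hWdef]
      linarith only [h2]
    have hdiff0 : ∀ s, 0 ≤ κ * G s ^ (m + 2) - ∫ y in {y | (s, y) ∈ L}, y i ^ 2 := fun s =>
      sub_nonneg.2 (hQ s)
    have hz : ∫ s in Ioc a b, (κ * G s ^ (m + 2) - ∫ y in {y | (s, y) ∈ L}, y i ^ 2) = 0 :=
      le_antisymm hdiff (integral_nonneg fun s => hdiff0 s)
    have hae := (setIntegral_eq_zero_iff_of_nonneg_ae
      (Filter.Eventually.of_forall fun s => hdiff0 s)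
      (((hGint (m + 2)).const_mul _).sub hWint)).1 hz
    have hae' : ∀ᵐ s ∂(volume.restrict (Ioo a b)),
        κ * G s ^ (m + 2) - ∫ y in {y | (s, y) ∈ L}, y i ^ 2 = 0 :=
      ae_mono (Measure.restrict_mono Ioo_subset_Ioc_self le_rfl) hae
    filter_upwards [hae'] with s hs
    have h4 : ∫ y in {y | (s, y) ∈ L}, y i ^ 2 = κ * G s ^ (m + 2) := by linarith only [hs]
    rw [h4, mul_pow, hκm, ← pow_mul, mul_comm (m + 2) m, pow_mul, hGp]


end

end Vale.Agent.P254.Fib.H77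

namespace Vale.Agent.P254.Fib

open Vale.Agent.P254.Perm

/-- [F2] equality case (`Perm.slices_eq` with a general constant) -/
theorem core_eq77 (m : ℕ) (hm : 1 ≤ m) {L : Set (ℝ × (Fin m → ℝ))} (hc : Convex ℝ L)
    (hL : IsCompact L) (i₀ : Fin m) {C : ℝ} (hC : 0 < C)
    (hmean : ∀ s i, ∫ y in {y | (s, y) ∈ L}, y i = 0)
    (hB : ∀ s, (∫ y in {y | (s, y) ∈ L}, y i₀ ^ 2) ^ m ≤
      C * (volume {y | (s, y) ∈ L}).toReal ^ (m + 2))
    (hvol : 0 < (volume L).toReal)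
    (heq : C * kap m * (volume L).toReal ^ (m + 4) ≤ (∫ p in L, p.2 i₀ ^ 2) ^ m *
        ((volume L).toReal * (∫ p in L, p.1 ^ 2) - (∫ p in L, p.1) ^ 2))
    (hsimp : ∀ s, 0 < (volume {y | (s, y) ∈ L}).toReal →
      C * (volume {y | (s, y) ∈ L}).toReal ^ (m + 2) ≤
        (∫ y in {y | (s, y) ∈ L}, y i₀ ^ 2) ^ m → IsSimplex {y | (s, y) ∈ L}) :
    ∃ v : Fin (m + 2) → ℝ × (Fin m → ℝ), AffineIndependent ℝ v ∧ L = convexHull ℝ (range v) := by
  have hne : L.Nonempty := by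
    rcases L.eq_empty_or_nonempty with rfl | hne
    · simp at hvol
    · exact hne
  obtain ⟨a, b, g, hab, hconc, hg0, hg, hout⟩ := sec m hm hc hL hne
  obtain ⟨h1, h2, h3, h4⟩ := H77.eq_core hm hL i₀ hC hab hg0 hg hout hB
    (one_dim m hm hab hconc hg0) hvol heq
  obtain ⟨c, hc0, hcase⟩ := one_dim_eq m hm h1 hconc hg0 h2 h3
  have key : (∀ s ∈ Ioo a b, 0 < g s) →
      ∀ᵐ s ∂(volume.restrict (Ioo a b)), IsSimplex {y | (s, y) ∈ L} := by
    intro hpos
    rw [ae_restrict_iff' measurableSet_Ioo] at h4 ⊢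
    filter_upwards [h4] with s h5 h6
    refine hsimp s ?_ (h5 h6)
    rw [← hg s (Ioo_subset_Icc_self h6)]
    exact pow_pos (hpos s h6) m
  rcases hcase with hcase | hcase
  · refine cone_simplex m hm hc hL h1 hc0 ?_ hout (key ?_)
    · intro s h
      rw [← hg s (Ioo_subset_Icc_self h), hcase s h]
    · intro s h
      rw [hcase s h]
      exact mul_pos hc0 (by linarith [h.2])
  · refine cone_simplex_mirror m hm hc hL h1 hc0 ?_ hout (key ?_)
    · intro s h
      rw [← hg s (Ioo_subset_Icc_self h), hcase s h]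
    · intro s h
      rw [hcase s h]
      exact mul_pos hc0 (by linarith [h.1])

end Vale.Agent.P254.Fib
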