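import Vale.Agent.P254.Perm.Defs

/-!
P254, convex bodies whose parallel sections are isotropic up to scale: definitions.
-/

open MeasureTheory Set Real

namespace Vale.Agent.P254.Fib

/-- The fibre (section) of `K` over `s`. -/
def fib {m : ℕ} (K : Set (Fin (m + 1) → ℝ)) (s : ℝ) : Set (Fin m → ℝ) :=
  {y | (Fin.cons s y : Fin (m + 1) → ℝ) ∈ K}

/-- The rotation of the plane by the angle `2π / k`. -/
noncomputable def rot (k : ℕ) (x : Fin 2 → ℝ) : Fin 2 → ℝ :=
  ![cos (2 * π / k) * x 0 - sin (2 * π / k) * x 1, sin (2 * π / k) * x 0 + cos (2 * π / k) * x 1]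

end Vale.Agent.P254.Fib
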