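import Mathlib

/-!
P254, Fib, leaf R6: the second moment of a convex body between the discs `|x|² ≤ 1/2` and `|x|² ≤ 1`.
-/

open MeasureTheory Set Real

namespace Vale.Agent.P254.Fib.H208

/-- the planar set in `ℝ × ℝ` -/
def prodSet (K : Set (Fin 2 → ℝ)) : Set (ℝ × ℝ) := {p | ![p.1, p.2] ∈ K}

private lemma cont_vec : Continuous (fun p : ℝ × ℝ => (![p.1, p.2] : Fin 2 → ℝ)) := by
  refine continuous_pi fun i => ?_
  fin_cases i
  · exact continuous_fst
  · exact continuous_snd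

private lemma prodSet_closed {K : Set (Fin 2 → ℝ)} (hK : IsCompact K) :
    IsClosed (prodSet K) := hK.isClosed.preimage cont_vec

private lemma transfer {K : Set (Fin 2 → ℝ)} (g : ℝ × ℝ → ℝ) :
    ∫ x in K, g (x 0, x 1) = ∫ p in prodSet K, g p := by
  have h := (volume_preserving_finTwoArrow ℝ).setIntegral_preimage_emb
    (MeasurableEquiv.finTwoArrow (α := ℝ)).measurableEmbedding g (prodSet K)
  have h2 : (MeasurableEquiv.finTwoArrow (α := ℝ)) ⁻¹' (prodSet K) = K := by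
    ext x
    simp only [mem_preimage, prodSet, mem_ofPred_eq]
    have : (![((MeasurableEquiv.finTwoArrow (α := ℝ)) x).1,
        ((MeasurableEquiv.finTwoArrow (α := ℝ)) x).2] : Fin 2 → ℝ) = x := by
      ext i; fin_cases i <;> rfl
    rw [this]
  rw [h2] at h
  exact h

/-- one ray -/
private lemma ray {S : Set ℝ} (hS : IsCompact S) (hin : ∀ r, 0 ≤ r → r ^ 2 ≤ 1 / 2 → r ∈ S)
    (hstar : ∀ r ∈ S, ∀ t, 0 ≤ t → t ≤ r → t ∈ S) (hle : ∀ r ∈ S, r ≤ 1) :
    ∫ r in Ioc (0 : ℝ) 1, r * S.indicator (fun r => r ^ 2 - 3 / 4) r ≤ -(1 / 8) := by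
  have h0 : (0 : ℝ) ∈ S := hin 0 le_rfl (by norm_num)
  have hne : S.Nonempty := ⟨0, h0⟩
  set ρ := sSup S with hρ
  have hρS : ρ ∈ S := hS.sSup_mem hne
  have hub : ∀ r ∈ S, r ≤ ρ := fun r hr => le_csSup hS.bddAbove hr
  have hρ0 : 0 ≤ ρ := hub 0 h0
  have hρ1 : ρ ≤ 1 := hle ρ hρS
  have hρ2 : 1 / 2 ≤ ρ ^ 2 := by
    have h1 : √(1 / 2) ∈ S := hin _ (Real.sqrt_nonneg _) (by rw [Real.sq_sqrt (by norm_num)])
    have h2 := hub _ h1
    calc (1 / 2 : ℝ) = √(1 / 2) ^ 2 := by rw [Real.sq_sqrt (by norm_num)]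
      _ ≤ ρ ^ 2 := pow_le_pow_left₀ (Real.sqrt_nonneg _) h2 2
  have hρ2' : ρ ^ 2 ≤ 1 := by nlinarith
  have e1 : ∫ r in Ioc (0 : ℝ) 1, r * S.indicator (fun r => r ^ 2 - 3 / 4) r
      = ∫ r in Ioc (0 : ℝ) ρ, r * (r ^ 2 - 3 / 4) := by
    have : ∀ r ∈ Ioc (0 : ℝ) 1, r * S.indicator (fun r => r ^ 2 - 3 / 4) r
        = (Ioc (0 : ℝ) ρ).indicator (fun r => r * (r ^ 2 - 3 / 4)) r := by
      intro r hr
      by_cases h : r ∈ S
      · rw [indicator_of_mem h, indicator_of_mem (show r ∈ Ioc (0 : ℝ) ρ from ⟨hr.1, hub r h⟩)]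
      · rw [indicator_of_notMem h, indicator_of_notMem, mul_zero]
        rintro ⟨h3, h4⟩
        exact h (hstar ρ hρS r h3.le h4)
    rw [setIntegral_congr_fun measurableSet_Ioc this, setIntegral_indicator measurableSet_Ioc]
    congr 2
    ext r
    simp only [mem_inter_iff, mem_Ioc]
    constructor
    · rintro ⟨_, h⟩; exact h
    · rintro ⟨h1, h2⟩; exact ⟨⟨h1, h2.trans hρ1⟩, h1, h2⟩
  rw [e1, ← intervalIntegral.integral_of_le hρ0]
  have e2 : ∫ r in (0 : ℝ)..ρ, r * (r ^ 2 - 3 / 4) = ρ ^ 4 / 4 - 3 / 8 * ρ ^ 2 := by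
    have hd : ∀ x ∈ uIcc (0 : ℝ) ρ, HasDerivAt (fun r : ℝ => r ^ 4 / 4 - 3 / 8 * r ^ 2)
        (x * (x ^ 2 - 3 / 4)) x := by
      intro x _
      have h := ((hasDerivAt_pow 4 x).div_const 4).sub ((hasDerivAt_pow 2 x).const_mul (3 / 8))
      refine h.congr_deriv ?_
      norm_num
      ring
    rw [intervalIntegral.integral_eq_sub_of_hasDerivAt hd]
    · ring
    · exact (by fun_prop : Continuous fun x : ℝ => x * (x ^ 2 - 3 / 4)).intervalIntegrable _ _
  rw [e2]
  nlinarith [mul_nonneg (sub_nonneg.mpr hρ2) (sub_nonneg.mpr hρ2')]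

end Vale.Agent.P254.Fib.H208

namespace Vale.Agent.P254.Fib

open H208

/-- [R6] polar coordinates: `∫ ρ⁴ / 4 ≤ ∫ (3 ρ² - 1) / 8` -/
theorem disc_mom {K : Set (Fin 2 → ℝ)} (hc : Convex ℝ K) (hK : IsCompact K)
    (h0 : ∀ x : Fin 2 → ℝ, x 0 ^ 2 + x 1 ^ 2 ≤ 1 / 2 → x ∈ K)
    (hle : ∀ x ∈ K, x 0 ^ 2 + x 1 ^ 2 ≤ 1) :
    (∫ x in K, (x 0 ^ 2 + x 1 ^ 2)) ≤ (3 * (volume K).toReal - π) / 4 := by
  classical
  have hcont : Continuous (fun x : Fin 2 → ℝ => x 0 ^ 2 + x 1 ^ 2) := by fun_prop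
  have hi1 : IntegrableOn (fun x : Fin 2 → ℝ => x 0 ^ 2 + x 1 ^ 2) K volume :=
    hcont.continuousOn.integrableOn_compact hK
  have hi2 : IntegrableOn (fun _ : Fin 2 → ℝ => (3 / 4 : ℝ)) K volume :=
    continuousOn_const.integrableOn_compact hK
  have hA : ∫ x in K, (x 0 ^ 2 + x 1 ^ 2 - 3 / 4)
      = (∫ x in K, (x 0 ^ 2 + x 1 ^ 2)) - 3 / 4 * (volume K).toReal := by
    rw [integral_sub hi1 hi2, setIntegral_const, smul_eq_mul, Measure.real]
    ring
  suffices hmain : ∫ x in K, (x 0 ^ 2 + x 1 ^ 2 - 3 / 4) ≤ -(π / 4) by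
    rw [hA] at hmain; linarith
  have t1 : ∫ x in K, (x 0 ^ 2 + x 1 ^ 2 - 3 / 4)
      = ∫ p in prodSet K, (p.1 ^ 2 + p.2 ^ 2 - 3 / 4) :=
    transfer (fun p : ℝ × ℝ => p.1 ^ 2 + p.2 ^ 2 - 3 / 4)
  have hKm : MeasurableSet (prodSet K) := (prodSet_closed hK).measurableSet
  rw [t1, ← integral_indicator hKm, ← integral_comp_polarCoord_symm]
  -- the integrand in polar coordinates
  set S : Set (ℝ × ℝ) := {q | ![q.1 * cos q.2, q.1 * sin q.2] ∈ K} with hS
  have hSclosed : IsClosed S := by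
    refine hK.isClosed.preimage (f := fun q : ℝ × ℝ =>
      (![q.1 * cos q.2, q.1 * sin q.2] : Fin 2 → ℝ)) ?_
    refine continuous_pi fun i => ?_
    fin_cases i
    · exact (by fun_prop : Continuous fun q : ℝ × ℝ => q.1 * cos q.2)
    · exact (by fun_prop : Continuous fun q : ℝ × ℝ => q.1 * sin q.2)
  set G : ℝ × ℝ → ℝ := fun q => q.1 * S.indicator (fun q => q.1 ^ 2 - 3 / 4) q with hG
  have hGeq : ∀ q : ℝ × ℝ, q.1 • (prodSet K).indicator
      (fun p : ℝ × ℝ => p.1 ^ 2 + p.2 ^ 2 - 3 / 4) (polarCoord.symm q) = G q := by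
    intro q
    have hq : polarCoord.symm q = (q.1 * cos q.2, q.1 * sin q.2) := polarCoord_symm_apply q
    simp only [hG, smul_eq_mul]
    congr 1
    by_cases h : q ∈ S
    · have h' : polarCoord.symm q ∈ prodSet K := by rw [hq]; exact h
      rw [indicator_of_mem h, indicator_of_mem h', hq]
      have := Real.sin_sq_add_cos_sq q.2
      simp only
      nlinarith [this]
    · have h' : polarCoord.symm q ∉ prodSet K := by rw [hq]; exact h
      rw [indicator_of_notMem h, indicator_of_notMem h']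
  simp_rw [hGeq]
  -- norm bound
  have hr1 : ∀ q ∈ S, q.1 ^ 2 ≤ 1 := by
    intro q hq
    have h := hle _ hq
    have hs := Real.sin_sq_add_cos_sq q.2
    have h2 : (q.1 * cos q.2) ^ 2 + (q.1 * sin q.2) ^ 2 ≤ 1 := by simpa using h
    nlinarith
  have hGm : Measurable G :=
    measurable_fst.mul ((by fun_prop : Measurable fun q : ℝ × ℝ => q.1 ^ 2 - 3 / 4).indicator
      hSclosed.measurableSet)
  have hGzero : ∀ q : ℝ × ℝ, 1 < q.1 → G q = 0 := by
    intro q hq
    have : q ∉ S := fun h => by have := hr1 q h; nlinarith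
    simp only [hG, indicator_of_notMem this, mul_zero]
  have hGb : ∀ q : ℝ × ℝ, ‖G q‖ ≤ 1 := by
    intro q
    by_cases h : q ∈ S
    · have h1 := hr1 q h
      simp only [hG, indicator_of_mem h, norm_mul, Real.norm_eq_abs]
      have a1 : |q.1| ≤ 1 := by
        rw [← sq_le_sq₀ (abs_nonneg _) zero_le_one, sq_abs]; simpa using h1
      have a2 : |q.1 ^ 2 - 3 / 4| ≤ 1 := by
        rw [abs_le]; constructor <;> nlinarith [sq_nonneg q.1]
      calc |q.1| * |q.1 ^ 2 - 3 / 4| ≤ 1 * 1 :=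
            mul_le_mul a1 a2 (abs_nonneg _) zero_le_one
        _ = 1 := one_mul _
    · simp [hG, indicator_of_notMem h]
  set μ : Measure ℝ := volume.restrict (Ioc (0 : ℝ) 1) with hμ
  set ν : Measure ℝ := volume.restrict (Ioo (-π) π) with hν
  have htar : ∫ q in polarCoord.target, G q = ∫ q, G q ∂(μ.prod ν) := by
    rw [hμ, hν, Measure.prod_restrict, ← Measure.volume_eq_prod, polarCoord_target]
    refine setIntegral_eq_of_subset_of_forall_sdiff_eq_zero
      (measurableSet_Ioi.prod measurableSet_Ioo) ?_ ?_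
    · exact prod_mono (fun r hr => hr.1) le_rfl
    · rintro q ⟨hq1, hq2⟩
      apply hGzero
      by_contra h
      exact hq2 ⟨⟨hq1.1, not_lt.mp h⟩, hq1.2⟩
  rw [htar]
  have : IsFiniteMeasure μ := by rw [hμ]; infer_instance
  have : IsFiniteMeasure ν := by rw [hν]; infer_instance
  have hGint : Integrable G (μ.prod ν) :=
    Integrable.of_bound hGm.aestronglyMeasurable 1 (Filter.Eventually.of_forall hGb)
  rw [integral_prod_symm G hGint]
  -- each ray
  have hray : ∀ θ : ℝ, ∫ r, G (r, θ) ∂μ ≤ -(1 / 8) := by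
    intro θ
    have hcs := Real.sin_sq_add_cos_sq θ
    set Sθ : Set ℝ := {r | 0 ≤ r ∧ (r, θ) ∈ S} with hSθ
    have hcomp : IsCompact Sθ := by
      refine Metric.isCompact_of_isClosed_isBounded ?_ ?_
      · have : IsClosed {r : ℝ | (r, θ) ∈ S} :=
          hSclosed.preimage (by fun_prop : Continuous fun r : ℝ => (r, θ))
        exact (isClosed_le continuous_const continuous_id).inter this
      · refine (Metric.isBounded_Icc (0 : ℝ) 1).subset ?_
        rintro r ⟨h1, h2⟩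
        have := hr1 _ h2
        simp only at this
        exact ⟨h1, by nlinarith⟩
    have h := ray hcomp ?_ ?_ ?_
    · refine le_of_eq_of_le ?_ h
      rw [hμ]
      refine setIntegral_congr_fun measurableSet_Ioc fun r hr => ?_
      simp only [hG]
      congr 1
      by_cases h : (r, θ) ∈ S
      · rw [indicator_of_mem h, indicator_of_mem (show r ∈ Sθ from ⟨hr.1.le, h⟩)]
      · rw [indicator_of_notMem h, indicator_of_notMem (fun h' : r ∈ Sθ => h h'.2)]
    · intro r hr hr2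
      refine ⟨hr, h0 _ ?_⟩
      have : (r * cos θ) ^ 2 + (r * sin θ) ^ 2 ≤ 1 / 2 := by nlinarith
      simpa using this
    · rintro r ⟨h1, h2⟩ t ht htr
      refine ⟨ht, ?_⟩
      rcases eq_or_lt_of_le h1 with h3 | h3
      · have : t = r := le_antisymm htr (h3 ▸ ht)
        rw [this]; exact h2
      · have hz : (![0 * cos θ, 0 * sin θ] : Fin 2 → ℝ) ∈ K := by
          apply h0; simp
        have hcv := hc h2 hz (div_nonneg ht h1) (sub_nonneg.mpr ((div_le_one h3).mpr htr))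
          (by ring : t / r + (1 - t / r) = 1)
        have : (![t * cos θ, t * sin θ] : Fin 2 → ℝ)
            = (t / r) • (![r * cos θ, r * sin θ] : Fin 2 → ℝ)
              + (1 - t / r) • (![0 * cos θ, 0 * sin θ] : Fin 2 → ℝ) := by
          ext i; fin_cases i <;> simp <;> field_simp
        change (![t * cos θ, t * sin θ] : Fin 2 → ℝ) ∈ K
        rw [this]; exact hcv
    · rintro r ⟨h1, h2⟩
      have := hr1 _ h2
      simp only at this
      nlinarith
  calc ∫ θ, ∫ r, G (r, θ) ∂μ ∂ν ≤ ∫ _θ, (-(1 / 8) : ℝ) ∂ν :=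
        integral_mono hGint.integral_prod_right (integrable_const _) hray
    _ = -(π / 4) := by
        rw [integral_const, smul_eq_mul, hν, Measure.real, Measure.restrict_apply_univ,
          Real.volume_Ioo, ENNReal.toReal_ofReal (by linarith [Real.pi_pos])]
        ring

end Vale.Agent.P254.Fib
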