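import Vale.Agent.P254.Fib.Defs

open MeasureTheory Set Real

namespace Vale.Agent.P254.Fib.H408

/-- the ray in direction `θ` -/
theorem ray {K : Set (Fin 2 → ℝ)} (hc : Convex ℝ K) (hK : IsCompact K)
    (h0 : ∀ x : Fin 2 → ℝ, x 0 ^ 2 + x 1 ^ 2 ≤ 1 / 2 → x ∈ K)
    (hle : ∀ x ∈ K, x 0 ^ 2 + x 1 ^ 2 ≤ 1) (θ : ℝ) :
    ∃ ρ : ℝ, 0 < ρ ∧ 1 / 2 ≤ ρ ^ 2 ∧ ρ ^ 2 ≤ 1 ∧
      ∀ r : ℝ, 0 < r → (![r * cos θ, r * sin θ] ∈ K ↔ r ≤ ρ) := by
  set S : Set ℝ := Icc 0 1 ∩ (fun r : ℝ => (![r * cos θ, r * sin θ] : Fin 2 → ℝ)) ⁻¹' K with hS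
  have hcont : Continuous (fun r : ℝ => (![r * cos θ, r * sin θ] : Fin 2 → ℝ)) := by
    refine continuous_pi fun i => ?_
    fin_cases i <;> simp <;> fun_prop
  have hSc : IsCompact S := isCompact_Icc.inter_right (hK.isClosed.preimage hcont)
  have hn : ∀ r : ℝ, (r * cos θ) ^ 2 + (r * sin θ) ^ 2 = r ^ 2 := fun r => by
    have := cos_sq_add_sin_sq θ
    calc (r * cos θ) ^ 2 + (r * sin θ) ^ 2 = r ^ 2 * (cos θ ^ 2 + sin θ ^ 2) := by ring
      _ = r ^ 2 := by rw [this, mul_one]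
  have h2 : (√2)⁻¹ ^ 2 = (1 / 2 : ℝ) := by
    rw [inv_pow, sq_sqrt (by norm_num)]
    norm_num
  have h2p : (0 : ℝ) < (√2)⁻¹ := by positivity
  have hmem : (√2)⁻¹ ∈ S := by
    refine ⟨⟨h2p.le, ?_⟩, h0 _ ?_⟩
    · nlinarith
    · simp only [Matrix.cons_val_zero, Matrix.cons_val_one]
      rw [hn, h2]
  obtain ⟨ρ, hρS, hρ⟩ := hSc.exists_isGreatest ⟨_, hmem⟩
  have hρ1 : (√2)⁻¹ ≤ ρ := hρ hmem
  have hρ0 : 0 < ρ := h2p.trans_le hρ1
  refine ⟨ρ, hρ0, ?_, ?_, fun r hr => ⟨fun h => ?_, fun h => ?_⟩⟩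
  · rw [← h2]
    exact pow_le_pow_left₀ h2p.le hρ1 2
  · have := hρS.1.2
    nlinarith
  · refine hρ ⟨⟨hr.le, ?_⟩, h⟩
    have := hle _ h
    simp only [Matrix.cons_val_zero, Matrix.cons_val_one] at this
    rw [hn] at this
    nlinarith
  · have hz : (0 : Fin 2 → ℝ) ∈ K := h0 _ (by simp)
    have h3 := hc hρS.2 hz (div_nonneg hr.le hρ0.le) (sub_nonneg.2 ((div_le_one hρ0).2 h))
      (by ring)
    have h4 : (r / ρ) • (![ρ * cos θ, ρ * sin θ] : Fin 2 → ℝ) + (1 - r / ρ) • (0 : Fin 2 → ℝ) =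
        ![r * cos θ, r * sin θ] := by
      funext i
      fin_cases i <;> simp <;> field_simp
    rwa [h4] at h3

/-- the function -/
noncomputable def ff (K : Set (Fin 2 → ℝ)) (q : ℝ × ℝ) : ℝ :=
  K.indicator (fun x => x 0 ^ 2 + x 1 ^ 2 - 3 / 4) ![q.1, q.2]

theorem inner {K : Set (Fin 2 → ℝ)} (hc : Convex ℝ K) (hK : IsCompact K)
    (h0 : ∀ x : Fin 2 → ℝ, x 0 ^ 2 + x 1 ^ 2 ≤ 1 / 2 → x ∈ K)
    (hle : ∀ x ∈ K, x 0 ^ 2 + x 1 ^ 2 ≤ 1) (θ : ℝ) :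
    ∫ r in Ioi (0 : ℝ), r * ff K (r * cos θ, r * sin θ) ≤ -(1 / 8) := by
  obtain ⟨ρ, hρ0, hρ1, hρ2, hρ⟩ := ray hc hK h0 hle θ
  have h1 : ∀ r ∈ Ioi (0 : ℝ), r * ff K (r * cos θ, r * sin θ) =
      (Ioc 0 ρ).indicator (fun r => r ^ 3 - 3 / 4 * r) r := by
    intro r hr
    have hn : (r * cos θ) ^ 2 + (r * sin θ) ^ 2 = r ^ 2 := by
      have := cos_sq_add_sin_sq θ
      calc (r * cos θ) ^ 2 + (r * sin θ) ^ 2 = r ^ 2 * (cos θ ^ 2 + sin θ ^ 2) := by ring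
        _ = r ^ 2 := by rw [this, mul_one]
    by_cases h : r ≤ ρ
    · rw [indicator_of_mem (show r ∈ Ioc 0 ρ from ⟨hr, h⟩), ff, indicator_of_mem ((hρ r hr).2 h)]
      simp only [Matrix.cons_val_zero, Matrix.cons_val_one]
      rw [hn]
      ring
    · rw [indicator_of_notMem (show r ∉ Ioc 0 ρ from fun h' => h h'.2), ff,
        indicator_of_notMem (fun h' => h ((hρ r hr).1 h')), mul_zero]
  rw [setIntegral_congr_fun measurableSet_Ioi h1, setIntegral_indicator measurableSet_Ioc,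
    inter_eq_self_of_subset_right (show Ioc 0 ρ ⊆ Ioi 0 from fun x hx => hx.1),
    ← intervalIntegral.integral_of_le hρ0.le]
  have h2 : ∫ r in (0 : ℝ)..ρ, (r ^ 3 - 3 / 4 * r) = ρ ^ 4 / 4 - 3 / 4 * (ρ ^ 2 / 2) := by
    rw [intervalIntegral.integral_sub (Continuous.intervalIntegrable (by fun_prop) _ _)
      (Continuous.intervalIntegrable (by fun_prop) _ _), integral_pow,
      intervalIntegral.integral_const_mul, integral_id]
    norm_num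
  rw [h2]
  nlinarith [mul_nonneg (sub_nonneg.2 hρ1) (sub_nonneg.2 hρ2)]

theorem ff_meas {K : Set (Fin 2 → ℝ)} (hK : IsCompact K) : Measurable (ff K) := by
  have h1 : Measurable (K.indicator (fun x : Fin 2 → ℝ => x 0 ^ 2 + x 1 ^ 2 - 3 / 4)) :=
    Measurable.indicator (by fun_prop) hK.measurableSet
  refine h1.comp ?_
  refine measurable_pi_iff.2 fun i => ?_
  fin_cases i
  · exact measurable_fst
  · exact measurable_snd

theorem polar {K : Set (Fin 2 → ℝ)} (hK : IsCompact K) :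
    ∫ x in K, (x 0 ^ 2 + x 1 ^ 2 - 3 / 4) =
      ∫ p in Ioi (0 : ℝ) ×ˢ Ioo (-π) π, p.1 * ff K (p.1 * cos p.2, p.1 * sin p.2) := by
  rw [← integral_indicator hK.measurableSet,
    ← (volume_preserving_finTwoArrow ℝ).symm.integral_comp',
    ← integral_comp_polarCoord_symm]
  rfl

theorem intble {K : Set (Fin 2 → ℝ)} (hK : IsCompact K)
    (hle : ∀ x ∈ K, x 0 ^ 2 + x 1 ^ 2 ≤ 1) :
    IntegrableOn (fun p : ℝ × ℝ => p.1 * ff K (p.1 * cos p.2, p.1 * sin p.2))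
      (Ioi (0 : ℝ) ×ˢ Ioo (-π) π) := by
  have hm : Measurable (fun p : ℝ × ℝ => p.1 * ff K (p.1 * cos p.2, p.1 * sin p.2)) := by
    refine measurable_fst.mul ((ff_meas hK).comp ?_)
    fun_prop
  have hs : MeasurableSet (Ioi (0 : ℝ) ×ˢ Ioo (-π) π) := measurableSet_Ioi.prod measurableSet_Ioo
  have hb : IntegrableOn (fun p : ℝ × ℝ => p.1 * ff K (p.1 * cos p.2, p.1 * sin p.2))
      (Icc (0 : ℝ) 1 ×ˢ Icc (-π) π) := by
    refine Measure.integrableOn_of_bounded (M := 1)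
      (isCompact_Icc.prod isCompact_Icc).measure_lt_top.ne hm.aestronglyMeasurable ?_
    refine (ae_restrict_iff' (measurableSet_Icc.prod measurableSet_Icc)).2 (ae_of_all _ ?_)
    rintro ⟨r, θ⟩ ⟨hr, -⟩
    have hn : (r * cos θ) ^ 2 + (r * sin θ) ^ 2 = r ^ 2 := by
      have := cos_sq_add_sin_sq θ
      calc (r * cos θ) ^ 2 + (r * sin θ) ^ 2 = r ^ 2 * (cos θ ^ 2 + sin θ ^ 2) := by ring
        _ = r ^ 2 := by rw [this, mul_one]
    simp only at hr ⊢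
    have h1 : |ff K (r * cos θ, r * sin θ)| ≤ 1 := by
      rw [ff]
      by_cases h : (![r * cos θ, r * sin θ] : Fin 2 → ℝ) ∈ K
      · rw [indicator_of_mem h]
        simp only [Matrix.cons_val_zero, Matrix.cons_val_one]
        rw [hn, abs_le]
        constructor <;> nlinarith [hr.1, hr.2]
      · rw [indicator_of_notMem h]
        simp
    rw [Real.norm_eq_abs, abs_mul, abs_of_nonneg hr.1]
    nlinarith [abs_nonneg (ff K (r * cos θ, r * sin θ)), hr.1, hr.2]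
  have h2 : IntegrableOn (fun p : ℝ × ℝ => p.1 * ff K (p.1 * cos p.2, p.1 * sin p.2))
      ((Ioi (0 : ℝ) ×ˢ Ioo (-π) π) ∩ (Icc (0 : ℝ) 1 ×ˢ Icc (-π) π)) :=
    hb.mono_set inter_subset_right
  refine h2.of_forall_sdiff_eq_zero hs ?_
  rintro ⟨r, θ⟩ ⟨⟨hr, hθ⟩, h⟩
  simp only [mem_Ioi] at hr
  have hr1 : 1 < r := by
    by_contra h'
    exact h ⟨⟨hr, hθ⟩, ⟨hr.le, not_lt.1 h'⟩, hθ.1.le, hθ.2.le⟩
  have h3 : (![r * cos θ, r * sin θ] : Fin 2 → ℝ) ∉ K := by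
    intro hmem
    have := hle _ hmem
    simp only [Matrix.cons_val_zero, Matrix.cons_val_one] at this
    have hn : (r * cos θ) ^ 2 + (r * sin θ) ^ 2 = r ^ 2 := by
      have := cos_sq_add_sin_sq θ
      calc (r * cos θ) ^ 2 + (r * sin θ) ^ 2 = r ^ 2 * (cos θ ^ 2 + sin θ ^ 2) := by ring
        _ = r ^ 2 := by rw [this, mul_one]
    rw [hn] at this
    nlinarith
  simp only [ff, indicator_of_notMem h3, mul_zero]

end Vale.Agent.P254.Fib.H408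

namespace Vale.Agent.P254.Fib

open H408 in
/-- [R6] polar coordinates: `∫ ρ⁴ / 4 ≤ ∫ (3 ρ² - 1) / 8` -/
theorem H408.disc_mom {K : Set (Fin 2 → ℝ)} (hc : Convex ℝ K) (hK : IsCompact K)
    (h0 : ∀ x : Fin 2 → ℝ, x 0 ^ 2 + x 1 ^ 2 ≤ 1 / 2 → x ∈ K)
    (hle : ∀ x ∈ K, x 0 ^ 2 + x 1 ^ 2 ≤ 1) :
    (∫ x in K, (x 0 ^ 2 + x 1 ^ 2)) ≤ (3 * (volume K).toReal - π) / 4 := by
  have h1 : ∫ x in K, (x 0 ^ 2 + x 1 ^ 2 - 3 / 4) =
      (∫ x in K, (x 0 ^ 2 + x 1 ^ 2)) - 3 / 4 * (volume K).toReal := by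
    rw [integral_sub]
    · simp [Measure.real, mul_comm]
    · exact ContinuousOn.integrableOn_compact hK (by fun_prop)
    · exact ContinuousOn.integrableOn_compact hK (by fun_prop)
  have h2 : ∫ x in K, (x 0 ^ 2 + x 1 ^ 2 - 3 / 4) ≤ -(π / 4) := by
    rw [polar hK]
    have hi := intble hK hle
    rw [IntegrableOn, Measure.volume_eq_prod, ← Measure.prod_restrict] at hi
    rw [Measure.volume_eq_prod, ← Measure.prod_restrict, integral_prod_symm _ hi]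
    calc ∫ θ in Ioo (-π) π, ∫ r in Ioi (0 : ℝ), r * ff K (r * cos θ, r * sin θ)
        ≤ ∫ θ in Ioo (-π) π, (-(1 / 8) : ℝ) :=
          setIntegral_mono hi.integral_prod_right
            (integrableOn_const (by simp)) fun θ => inner hc hK h0 hle θ
      _ = -(π / 4) := by
          rw [setIntegral_const, Measure.real, Real.volume_Ioo,
            ENNReal.toReal_ofReal (by linarith [pi_pos]), smul_eq_mul]
          ring
  rw [h1] at h2
  linarith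

end Vale.Agent.P254.Fib
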