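import Vale.Agent.P254.Fib.Defs
import Mathlib.Analysis.SpecialFunctions.PolarCoord
import Mathlib.MeasureTheory.Integral.Prod
import Mathlib.Analysis.SpecialFunctions.Integrals.Basic

/-!
P254, planar bodies: the second moment of a body between two discs.
-/

open MeasureTheory Set Real

namespace Vale.Agent.P254.Fib

namespace H504

/-- the integral along a ray -/
lemma ray {ρ : ℝ} (h0 : 0 ≤ ρ) (h1 : 1 / 2 ≤ ρ ^ 2) (h2 : ρ ^ 2 ≤ 1) :
    (1 : ℝ) / 8 ≤ ∫ r in Ioc (0 : ℝ) ρ, r * (3 / 4 - r ^ 2) := by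
  rw [← intervalIntegral.integral_of_le h0]
  have : ∫ r in (0 : ℝ)..ρ, r * (3 / 4 - r ^ 2) = 3 / 8 * ρ ^ 2 - ρ ^ 4 / 4 := by
    have h : (fun r : ℝ => r * (3 / 4 - r ^ 2)) = fun r => 3 / 4 * r - r ^ 3 := by
      funext r; ring
    have c1 : IntervalIntegrable (fun r : ℝ => 3 / 4 * r) volume 0 ρ :=
      Continuous.intervalIntegrable (by fun_prop) _ _
    have c2 : IntervalIntegrable (fun r : ℝ => r ^ 3) volume 0 ρ :=
      Continuous.intervalIntegrable (by fun_prop) _ _
    rw [h, intervalIntegral.integral_sub c1 c2, intervalIntegral.integral_const_mul,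
      integral_id, integral_pow]
    norm_num
    ring
  rw [this]
  nlinarith [mul_nonneg (sub_nonneg.2 h1) (sub_nonneg.2 h2)]

/-- the integral along a ray of the indicator of a body between two discs -/
lemma ray_ind {K : Set (Fin 2 → ℝ)} (hc : Convex ℝ K) (hK : IsCompact K)
    (h0 : ∀ x : Fin 2 → ℝ, x 0 ^ 2 + x 1 ^ 2 ≤ 1 / 2 → x ∈ K)
    (hle : ∀ x ∈ K, x 0 ^ 2 + x 1 ^ 2 ≤ 1) (θ : ℝ) :
    (1 : ℝ) / 8 ≤ ∫ r in Ioi (0 : ℝ), r * K.indicator
      (fun x => 3 / 4 - (x 0 ^ 2 + x 1 ^ 2)) ![r * cos θ, r * sin θ] := by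
  set u : ℝ → (Fin 2 → ℝ) := fun r => ![r * cos θ, r * sin θ] with hu
  have hcont : Continuous u := by
    rw [hu]
    refine continuous_pi fun i => ?_
    fin_cases i
    · exact (continuous_id.mul continuous_const)
    · exact (continuous_id.mul continuous_const)
  have hnorm : ∀ r, u r 0 ^ 2 + u r 1 ^ 2 = r ^ 2 := by
    intro r
    have : u r 0 ^ 2 + u r 1 ^ 2 = r ^ 2 * (sin θ ^ 2 + cos θ ^ 2) := by
      simp only [hu, Matrix.cons_val_zero, Matrix.cons_val_one]
      ring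
    rw [this, sin_sq_add_cos_sq, mul_one]
  -- the last point
  have hS : IsCompact (Icc (0 : ℝ) 1 ∩ u ⁻¹' K) :=
    isCompact_Icc.inter_right (hK.isClosed.preimage hcont)
  have hne : (Icc (0 : ℝ) 1 ∩ u ⁻¹' K).Nonempty := by
    refine ⟨0, ⟨le_refl _, zero_le_one⟩, h0 _ ?_⟩
    rw [hnorm]; norm_num
  obtain ⟨ρ, hρ, hmax⟩ := hS.exists_isGreatest hne
  have hρ0 : 0 ≤ ρ := hρ.1.1
  have hρ1 : ρ ^ 2 ≤ 1 := by
    have := hle _ hρ.2
    rwa [hnorm] at this
  have hρ2 : 1 / 2 ≤ ρ ^ 2 := by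
    have h1 : √(1 / 2) ∈ Icc (0 : ℝ) 1 ∩ u ⁻¹' K := by
      refine ⟨⟨sqrt_nonneg _, ?_⟩, h0 _ ?_⟩
      · rw [Real.sqrt_le_one]
        norm_num
      · rw [hnorm, Real.sq_sqrt (by norm_num)]
    have h2 := hmax h1
    have h3 : √(1 / 2) ^ 2 = (1 / 2 : ℝ) := Real.sq_sqrt (by norm_num)
    rw [← h3]
    exact pow_le_pow_left₀ (sqrt_nonneg _) h2 2
  have hmem : ∀ r, 0 < r → (u r ∈ K ↔ r ≤ ρ) := by
    intro r hr
    constructor
    · intro h
      have h1 := hle _ h
      rw [hnorm] at h1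
      exact hmax ⟨⟨hr.le, by nlinarith⟩, h⟩
    · intro h
      have hρpos : 0 < ρ := hr.trans_le h
      have h00 : (0 : Fin 2 → ℝ) ∈ K := h0 _ (by simp)
      have h1 := hc.smul_mem_of_zero_mem h00 hρ.2 (t := r / ρ)
        ⟨(div_pos hr hρpos).le, (div_le_one hρpos).2 h⟩
      have h2 : (r / ρ) • u ρ = u r := by
        funext i
        fin_cases i <;> simp [hu] <;> field_simp
      rwa [h2] at h1
  have hEq : ∀ r ∈ Ioi (0 : ℝ), r * K.indicator
      (fun x => 3 / 4 - (x 0 ^ 2 + x 1 ^ 2)) (u r) =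
      (Iic ρ).indicator (fun r => r * (3 / 4 - r ^ 2)) r := by
    intro r hr
    by_cases h : r ≤ ρ
    · rw [indicator_of_mem ((hmem r hr).2 h), indicator_of_mem (show r ∈ Iic ρ from h), hnorm]
    · rw [indicator_of_notMem (fun hh => h ((hmem r hr).1 hh)),
        indicator_of_notMem (show r ∉ Iic ρ from h), mul_zero]
  rw [setIntegral_congr_fun measurableSet_Ioi hEq, setIntegral_indicator measurableSet_Iic,
    Ioi_inter_Iic]
  exact ray hρ0 hρ2 hρ1

end H504

open H504

/-- [R6] polar coordinates: `∫ ρ⁴ / 4 ≤ ∫ (3 ρ² - 1) / 8` -/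
theorem disc_mom {K : Set (Fin 2 → ℝ)} (hc : Convex ℝ K) (hK : IsCompact K)
    (h0 : ∀ x : Fin 2 → ℝ, x 0 ^ 2 + x 1 ^ 2 ≤ 1 / 2 → x ∈ K)
    (hle : ∀ x ∈ K, x 0 ^ 2 + x 1 ^ 2 ≤ 1) :
    (∫ x in K, (x 0 ^ 2 + x 1 ^ 2)) ≤ (3 * (volume K).toReal - π) / 4 := by
  have key : π / 4 ≤ ∫ x in K, (3 / 4 - (x 0 ^ 2 + x 1 ^ 2)) := by
    set f : (Fin 2 → ℝ) → ℝ := K.indicator (fun x => 3 / 4 - (x 0 ^ 2 + x 1 ^ 2)) with hf
    have hfm : Measurable f := by
      refine Measurable.indicator ?_ hK.measurableSet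
      fun_prop
    have e1 : ∫ x in K, (3 / 4 - (x 0 ^ 2 + x 1 ^ 2)) = ∫ p : ℝ × ℝ, f ![p.1, p.2] := by
      rw [← integral_indicator hK.measurableSet,
        ← (volume_preserving_finTwoArrow ℝ).integral_comp'
          (fun p : ℝ × ℝ => f ![p.1, p.2])]
      refine integral_congr_ae (Filter.Eventually.of_forall fun x => ?_)
      have : (![(MeasurableEquiv.finTwoArrow x).1, (MeasurableEquiv.finTwoArrow x).2] :
          Fin 2 → ℝ) = x := by
        funext i
        fin_cases i <;> rfl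
      simp only [this, hf]
    rw [e1, ← integral_comp_polarCoord_symm]
    set G : ℝ × ℝ → ℝ := fun p => p.1 * f ![p.1 * cos p.2, p.1 * sin p.2] with hG
    have e2 : ∫ p in polarCoord.target, p.1 • f ![(polarCoord.symm p).1, (polarCoord.symm p).2] =
        ∫ p in Ioi (0 : ℝ) ×ˢ Ioo (-π) π, G p := by
      rw [polarCoord_target]
      refine setIntegral_congr_fun (measurableSet_Ioi.prod measurableSet_Ioo) fun p _ => ?_
      simp only [polarCoord_symm_apply, smul_eq_mul, hG]
    rw [e2]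
    have hGm : Measurable G := by
      rw [hG]
      refine measurable_fst.mul (hfm.comp ?_)
      refine measurable_pi_lambda _ fun i => ?_
      fin_cases i
      · exact measurable_fst.mul (measurable_cos.comp measurable_snd)
      · exact measurable_fst.mul (measurable_sin.comp measurable_snd)
    have hsq : ∀ p : ℝ × ℝ, (![p.1 * cos p.2, p.1 * sin p.2] : Fin 2 → ℝ) 0 ^ 2 +
        (![p.1 * cos p.2, p.1 * sin p.2] : Fin 2 → ℝ) 1 ^ 2 = p.1 ^ 2 := by
      intro p
      have : (![p.1 * cos p.2, p.1 * sin p.2] : Fin 2 → ℝ) 0 ^ 2 +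
        (![p.1 * cos p.2, p.1 * sin p.2] : Fin 2 → ℝ) 1 ^ 2 =
          p.1 ^ 2 * (sin p.2 ^ 2 + cos p.2 ^ 2) := by
        simp only [Matrix.cons_val_zero, Matrix.cons_val_one]
        ring
      rw [this, sin_sq_add_cos_sq, mul_one]
    have hGi : IntegrableOn G (Ioi (0 : ℝ) ×ˢ Ioo (-π) π) := by
      have h1 : IntegrableOn G (Ioc (0 : ℝ) 1 ×ˢ Ioo (-π) π) := by
        refine Measure.integrableOn_of_bounded (M := 1) ?_ hGm.aestronglyMeasurable ?_
        · rw [Measure.volume_eq_prod, Measure.prod_prod]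
          simp only [Real.volume_Ioc, Real.volume_Ioo]
          exact ENNReal.mul_ne_top ENNReal.ofReal_ne_top ENNReal.ofReal_ne_top
        · refine (ae_restrict_iff' (measurableSet_Ioc.prod measurableSet_Ioo)).2
            (Filter.Eventually.of_forall fun p hp => ?_)
          have hp1 : 0 < p.1 := hp.1.1
          have hp2 : p.1 ≤ 1 := hp.1.2
          simp only [hG, norm_mul, Real.norm_eq_abs]
          have h2 : |f ![p.1 * cos p.2, p.1 * sin p.2]| ≤ 1 := by
            by_cases h : (![p.1 * cos p.2, p.1 * sin p.2] : Fin 2 → ℝ) ∈ K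
            · simp only [hf]
              rw [indicator_of_mem h, hsq, abs_le]
              constructor <;> nlinarith
            · simp only [hf]
              rw [indicator_of_notMem h, abs_zero]
              exact zero_le_one
          have h3 : |p.1| ≤ 1 := abs_le.2 ⟨by linarith, hp2⟩
          calc |p.1| * |f ![p.1 * cos p.2, p.1 * sin p.2]| ≤ 1 * 1 :=
                mul_le_mul h3 h2 (abs_nonneg _) zero_le_one
            _ = 1 := one_mul 1
      refine h1.of_forall_sdiff_eq_zero (measurableSet_Ioi.prod measurableSet_Ioo) ?_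
      rintro p ⟨hp, hp'⟩
      have hp1 : 1 < p.1 := by
        by_contra hcon
        exact hp' ⟨⟨hp.1, not_lt.1 hcon⟩, hp.2⟩
      have h4 : (![p.1 * cos p.2, p.1 * sin p.2] : Fin 2 → ℝ) ∉ K := by
        intro h
        have := hle _ h
        rw [hsq] at this
        nlinarith
      simp only [hG, hf]
      rw [indicator_of_notMem h4, mul_zero]
    have hGi' : Integrable G ((volume.restrict (Ioi (0 : ℝ))).prod
        (volume.restrict (Ioo (-π) π))) := by
      rw [Measure.prod_restrict, ← Measure.volume_eq_prod]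
      exact hGi
    have e3 : ∫ p in Ioi (0 : ℝ) ×ˢ Ioo (-π) π, G p =
        ∫ θ in Ioo (-π) π, ∫ r in Ioi (0 : ℝ), G (r, θ) := by
      rw [Measure.volume_eq_prod, ← Measure.prod_restrict]
      exact integral_prod_symm G hGi'
    rw [e3]
    have h5 : ∫ _θ in Ioo (-π) π, (1 / 8 : ℝ) = π / 4 := by
      rw [setIntegral_const]
      simp only [Measure.real, Real.volume_Ioo, smul_eq_mul]
      rw [ENNReal.toReal_ofReal (by linarith [pi_pos])]
      ring
    rw [← h5]
    refine integral_mono ?_ hGi'.integral_prod_right fun θ => ?_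
    · exact integrable_const _
    · exact ray_ind hc hK h0 hle θ
  have hcontsq : ContinuousOn (fun x : Fin 2 → ℝ => x 0 ^ 2 + x 1 ^ 2) K := by
    fun_prop
  have hint : IntegrableOn (fun x : Fin 2 → ℝ => x 0 ^ 2 + x 1 ^ 2) K :=
    hcontsq.integrableOn_compact hK
  have hconst : IntegrableOn (fun _ : Fin 2 → ℝ => (3 / 4 : ℝ)) K :=
    continuousOn_const.integrableOn_compact hK
  rw [integral_sub hconst hint, setIntegral_const] at key
  simp only [Measure.real, smul_eq_mul] at key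
  linarith

end Vale.Agent.P254.Fib
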