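import Vale.Agent.P254.Fib.Defs
import Mathlib.Analysis.SpecialFunctions.PolarCoord
import Mathlib.MeasureTheory.Constructions.Pi

/-!
P254/Fib, leaf R6 (third copy): the polar moment bound.
-/

open MeasureTheory Set Real

namespace Vale.Agent.P254.Fib.H972

/-- the radial section -/
theorem radial {K : Set (Fin 2 → ℝ)} (hc : Convex ℝ K) (hK : IsCompact K)
    (h0 : ∀ x : Fin 2 → ℝ, x 0 ^ 2 + x 1 ^ 2 ≤ 1 / 2 → x ∈ K)
    (hle : ∀ x ∈ K, x 0 ^ 2 + x 1 ^ 2 ≤ 1) (t : ℝ) :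
    ∃ ρ : ℝ, 0 < ρ ∧ 1 / 2 ≤ ρ ^ 2 ∧ ρ ^ 2 ≤ 1 ∧
      ∀ r : ℝ, 0 < r → (![r * cos t, r * sin t] ∈ K ↔ r ≤ ρ) := by
  have hcs := Real.sin_sq_add_cos_sq t
  have hn : ∀ r : ℝ, (r * cos t) ^ 2 + (r * sin t) ^ 2 = r ^ 2 := by
    intro r
    have : (r * cos t) ^ 2 + (r * sin t) ^ 2 = r ^ 2 * (sin t ^ 2 + cos t ^ 2) := by ring
    rw [this, hcs, mul_one]
  set φ : ℝ → (Fin 2 → ℝ) := fun r => ![r * cos t, r * sin t] with hφ
  have hφc : Continuous φ := by
    refine continuous_pi fun i => ?_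
    fin_cases i
    · simp only [hφ]
      exact continuous_id.mul continuous_const
    · simp only [hφ]
      exact continuous_id.mul continuous_const
  set A : Set ℝ := Icc 0 1 ∩ φ ⁻¹' K with hA
  have hAc : IsCompact A := isCompact_Icc.inter_right (hK.isClosed.preimage hφc)
  have h00 : ∀ r : ℝ, r ^ 2 ≤ 1 / 2 → φ r ∈ K := by
    intro r hr
    refine h0 _ ?_
    simp only [hφ, Matrix.cons_val_zero, Matrix.cons_val_one]
    rw [hn]
    exact hr
  have hs2 : (√(1 / 2)) ^ 2 = 1 / 2 := Real.sq_sqrt (by norm_num)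
  have hs0 : 0 < √(1 / 2 : ℝ) := Real.sqrt_pos.mpr (by norm_num)
  have hs1 : √(1 / 2 : ℝ) ≤ 1 := Real.sqrt_le_iff.mpr ⟨by norm_num, by norm_num⟩
  have hmem : √(1 / 2) ∈ A := ⟨⟨hs0.le, hs1⟩, h00 _ hs2.le⟩
  obtain ⟨ρ, hρA, hρmax⟩ := hAc.exists_isGreatest ⟨_, hmem⟩
  have hsρ : √(1 / 2) ≤ ρ := hρmax hmem
  refine ⟨ρ, lt_of_lt_of_le hs0 hsρ, ?_, ?_, ?_⟩
  · rw [← hs2]
    exact pow_le_pow_left₀ hs0.le hsρ 2
  · have h1 : ρ ≤ 1 := hρA.1.2
    have h2 : 0 ≤ ρ := hρA.1.1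
    nlinarith
  · intro r hr
    constructor
    · intro hrK
      have h1 := hle _ hrK
      simp only [Matrix.cons_val_zero, Matrix.cons_val_one] at h1
      rw [hn] at h1
      have h2 : r ≤ 1 := by nlinarith
      exact hρmax ⟨⟨hr.le, h2⟩, hrK⟩
    · intro hrρ
      have hρ0 : 0 < ρ := lt_of_lt_of_le hr hrρ
      have hz : (0 : Fin 2 → ℝ) ∈ K := h0 0 (by norm_num)
      have h3 := hc hz (show φ ρ ∈ K from hρA.2) (a := 1 - r / ρ) (b := r / ρ)
        (by rw [sub_nonneg, div_le_one hρ0]; exact hrρ) (by positivity) (by ring)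
      have h4 : (1 - r / ρ) • (0 : Fin 2 → ℝ) + (r / ρ) • φ ρ = ![r * cos t, r * sin t] := by
        funext i
        fin_cases i
        · simp only [hφ]
          simp
          field_simp
        · simp only [hφ]
          simp
          field_simp
      rw [h4] at h3
      exact h3

/-- the radial integral -/
theorem radial_int {ρ : ℝ} (h0 : 0 < ρ) (h1 : 1 / 2 ≤ ρ ^ 2) (h2 : ρ ^ 2 ≤ 1) :
    1 / 8 ≤ ∫ r in Ioc 0 ρ, r * (3 / 4 - r ^ 2) := by
  rw [← intervalIntegral.integral_of_le h0.le]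
  have h3 : (∫ r in (0 : ℝ)..ρ, r * (3 / 4 - r ^ 2)) = 3 * ρ ^ 2 / 8 - ρ ^ 4 / 4 := by
    have hd : ∀ r ∈ uIcc 0 ρ, HasDerivAt (fun r : ℝ => 3 * r ^ 2 / 8 - r ^ 4 / 4)
        (r * (3 / 4 - r ^ 2)) r := by
      intro r _
      have e1 : HasDerivAt (fun r : ℝ => r ^ 2) (2 * r) r := by
        simpa using hasDerivAt_pow 2 r
      have e2 : HasDerivAt (fun r : ℝ => r ^ 4) (4 * r ^ 3) r := by
        simpa using hasDerivAt_pow 4 r
      exact (HasDerivAt.fun_sub ((e1.const_mul 3).div_const 8) (e2.div_const 4)).congr_deriv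
        (by ring)
    rw [intervalIntegral.integral_eq_sub_of_hasDerivAt hd
      ((Continuous.intervalIntegrable (by fun_prop) _ _))]
    ring
  rw [h3]
  nlinarith [mul_nonneg (sub_nonneg.mpr h1) (sub_nonneg.mpr h2)]

/-- the polar form of the integral over `K` of `3 / 4 - |x| ^ 2` -/
theorem polar {K : Set (Fin 2 → ℝ)} (hK : IsCompact K) :
    ∫ x in K, (3 / 4 - (x 0 ^ 2 + x 1 ^ 2)) =
      ∫ p in Ioi (0 : ℝ) ×ˢ Ioo (-π) π,
        p.1 * (K.indicator (fun x : Fin 2 → ℝ => 3 / 4 - (x 0 ^ 2 + x 1 ^ 2))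
          ![p.1 * cos p.2, p.1 * sin p.2]) := by
  set F : (Fin 2 → ℝ) → ℝ := K.indicator (fun x : Fin 2 → ℝ => 3 / 4 - (x 0 ^ 2 + x 1 ^ 2))
    with hF
  have h1 : ∫ x in K, (3 / 4 - (x 0 ^ 2 + x 1 ^ 2)) = ∫ x, F x :=
    (integral_indicator hK.measurableSet).symm
  have h2 : ∫ x, F x = ∫ p : ℝ × ℝ, F (MeasurableEquiv.finTwoArrow.symm p) := by
    rw [← MeasurePreserving.integral_comp' (volume_preserving_finTwoArrow ℝ)
      (fun p => F (MeasurableEquiv.finTwoArrow.symm p))]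
    refine integral_congr_ae (Filter.Eventually.of_forall fun x => ?_)
    simp only [MeasurableEquiv.symm_apply_apply]
  rw [h1, h2, ← integral_comp_polarCoord_symm]
  rfl

/-- R6 -/
theorem disc_mom {K : Set (Fin 2 → ℝ)} (hc : Convex ℝ K) (hK : IsCompact K)
    (h0 : ∀ x : Fin 2 → ℝ, x 0 ^ 2 + x 1 ^ 2 ≤ 1 / 2 → x ∈ K)
    (hle : ∀ x ∈ K, x 0 ^ 2 + x 1 ^ 2 ≤ 1) :
    (∫ x in K, (x 0 ^ 2 + x 1 ^ 2)) ≤ (3 * (volume K).toReal - π) / 4 := by
  have hcs : ∀ r t : ℝ, (r * cos t) ^ 2 + (r * sin t) ^ 2 = r ^ 2 := by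
    intro r t
    have : (r * cos t) ^ 2 + (r * sin t) ^ 2 = r ^ 2 * (sin t ^ 2 + cos t ^ 2) := by ring
    rw [this, Real.sin_sq_add_cos_sq t, mul_one]
  set G : ℝ × ℝ → ℝ := fun p =>
    p.1 * (K.indicator (fun x : Fin 2 → ℝ => 3 / 4 - (x 0 ^ 2 + x 1 ^ 2))
          ![p.1 * cos p.2, p.1 * sin p.2]) with hG
  have hpol := polar hK
  -- the value of `G`
  have hGin : ∀ p : ℝ × ℝ, ![p.1 * cos p.2, p.1 * sin p.2] ∈ K →
      G p = p.1 * (3 / 4 - p.1 ^ 2) := by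
    intro p hp
    simp only [hG]
    rw [indicator_of_mem hp]
    simp only [Matrix.cons_val_zero, Matrix.cons_val_one]
    rw [hcs]
  have hGout : ∀ p : ℝ × ℝ, ![p.1 * cos p.2, p.1 * sin p.2] ∉ K → G p = 0 := by
    intro p hp
    simp only [hG]
    rw [indicator_of_notMem hp, mul_zero]
  have hG1 : ∀ p : ℝ × ℝ, 0 < p.1 → ![p.1 * cos p.2, p.1 * sin p.2] ∈ K → p.1 ≤ 1 := by
    intro p hp hpK
    have h1 := hle _ hpK
    simp only [Matrix.cons_val_zero, Matrix.cons_val_one] at h1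
    rw [hcs] at h1
    nlinarith
  have hsub : (Ioc (0 : ℝ) 1) ×ˢ (Ioo (-π) π) ⊆ (Ioi (0 : ℝ)) ×ˢ (Ioo (-π) π) :=
    prod_mono (fun x hx => hx.1) le_rfl
  have hcut : ∫ p in Ioi (0 : ℝ) ×ˢ Ioo (-π) π, G p =
      ∫ p in Ioc (0 : ℝ) 1 ×ˢ Ioo (-π) π, G p := by
    refine setIntegral_eq_of_subset_of_forall_sdiff_eq_zero
      (measurableSet_Ioi.prod measurableSet_Ioo) hsub ?_
    intro p hp
    refine hGout p fun hpK => hp.2 ⟨⟨hp.1.1, hG1 p hp.1.1 hpK⟩, hp.1.2⟩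
  have hmeas : Measurable G := by
    refine measurable_fst.mul ?_
    have h1 : Measurable (K.indicator (fun x : Fin 2 → ℝ => 3 / 4 - (x 0 ^ 2 + x 1 ^ 2))) :=
      Measurable.indicator (by fun_prop) hK.measurableSet
    refine h1.comp ?_
    refine measurable_pi_lambda _ fun i => ?_
    fin_cases i
    · exact measurable_fst.mul (Real.measurable_cos.comp measurable_snd)
    · exact measurable_fst.mul (Real.measurable_sin.comp measurable_snd)
  have hint : Integrable G ((volume.restrict (Ioc (0 : ℝ) 1)).prod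
      (volume.restrict (Ioo (-π) π))) := by
    rw [Measure.prod_restrict]
    refine Measure.integrableOn_of_bounded (M := 1) ?_ hmeas.aestronglyMeasurable ?_
    · rw [Measure.prod_prod]
      exact ENNReal.mul_ne_top (by simp) (by simp)
    · refine (ae_restrict_iff' (measurableSet_Ioc.prod measurableSet_Ioo)).mpr
        (Filter.Eventually.of_forall fun p hp => ?_)
      obtain ⟨⟨hp0, hp1⟩, -⟩ := hp
      by_cases hpK : ![p.1 * cos p.2, p.1 * sin p.2] ∈ K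
      · rw [hGin p hpK, Real.norm_eq_abs, abs_le]
        constructor
        · nlinarith
        · nlinarith
      · rw [hGout p hpK, norm_zero]
        exact zero_le_one
  have hfub : ∫ p in Ioc (0 : ℝ) 1 ×ˢ Ioo (-π) π, G p =
      ∫ t in Ioo (-π) π, ∫ r in Ioc (0 : ℝ) 1, G (r, t) := by
    rw [Measure.volume_eq_prod, ← Measure.prod_restrict]
    exact integral_prod_symm G hint
  have hin : ∀ t : ℝ, 1 / 8 ≤ ∫ r in Ioc (0 : ℝ) 1, G (r, t) := by
    intro t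
    obtain ⟨ρ, hρ0, hρ1, hρ2, hρ⟩ := radial hc hK h0 hle t
    have hρle : ρ ≤ 1 := by nlinarith
    have e1 : ∫ r in Ioc (0 : ℝ) 1, G (r, t) =
        ∫ r in Ioc (0 : ℝ) 1, (Iic ρ).indicator (fun r : ℝ => r * (3 / 4 - r ^ 2)) r := by
      refine setIntegral_congr_fun measurableSet_Ioc fun r hr => ?_
      by_cases h : r ≤ ρ
      · have h2 := hGin (r, t) ((hρ r hr.1).mpr h)
        rw [indicator_of_mem (show r ∈ Iic ρ from h)]
        exact h2
      · have h2 := hGout (r, t) (fun hh => h ((hρ r hr.1).mp hh))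
        rw [indicator_of_notMem (show r ∉ Iic ρ from h)]
        exact h2
    rw [e1, setIntegral_indicator measurableSet_Iic]
    have e2 : Ioc (0 : ℝ) 1 ∩ Iic ρ = Ioc 0 ρ := by
      ext r
      simp only [mem_inter_iff, mem_Ioc, mem_Iic]
      constructor
      · rintro ⟨⟨h1, -⟩, h3⟩
        exact ⟨h1, h3⟩
      · rintro ⟨h1, h3⟩
        exact ⟨⟨h1, h3.trans hρle⟩, h3⟩
    rw [e2]
    exact radial_int hρ0 hρ1 hρ2
  have hlow : π / 4 ≤ ∫ t in Ioo (-π) π, ∫ r in Ioc (0 : ℝ) 1, G (r, t) := by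
    have e1 : ∫ t in Ioo (-π) π, (1 / 8 : ℝ) = π / 4 := by
      rw [setIntegral_const, smul_eq_mul, Measure.real, Real.volume_Ioo,
        ENNReal.toReal_ofReal (by linarith [Real.pi_pos])]
      ring
    rw [← e1]
    refine integral_mono (integrable_const _) hint.integral_prod_right fun t => hin t
  have hval : ∫ x in K, (3 / 4 - (x 0 ^ 2 + x 1 ^ 2)) =
      3 / 4 * (volume K).toReal - ∫ x in K, (x 0 ^ 2 + x 1 ^ 2) := by
    have hvol : volume K ≠ ⊤ := hK.measure_lt_top.ne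
    rw [integral_sub]
    · rw [setIntegral_const, smul_eq_mul, Measure.real]
      ring
    · exact integrableOn_const hvol
    · exact (Continuous.continuousOn (by fun_prop)).integrableOn_compact hK
  rw [hval, hcut, hfub] at hpol
  linarith

end Vale.Agent.P254.Fib.H972
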