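import Vale.Agent.P254.Fib.Defs
import Mathlib.Analysis.LocallyConvex.Separation
import Mathlib.Analysis.SpecialFunctions.Complex.Arg

/-! P254/Fib, leaf R5: a planar convex body with a rotation symmetry of order `k ≥ 4` which
contains `(1, 0)` contains the disc of radius `1/√2`. -/

open MeasureTheory Set Real

namespace Vale.Agent.P254.Fib.H102

/-- The orbit of `(1, 0)`. -/
theorem orbit_mem (k : ℕ) {K : Set (Fin 2 → ℝ)} (hinv : ∀ x ∈ K, rot k x ∈ K)
    (h1 : ![1, 0] ∈ K) (j : ℕ) : ![cos (2 * π / k * j), sin (2 * π / k * j)] ∈ K := by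
  induction j with
  | zero => simpa using h1
  | succ j ih =>
    have h := hinv _ ih
    have e : rot k ![cos (2 * π / k * j), sin (2 * π / k * j)] =
        ![cos (2 * π / k * ((j + 1 : ℕ) : ℝ)), sin (2 * π / k * ((j + 1 : ℕ) : ℝ))] := by
      have e1 : 2 * π / k * ((j + 1 : ℕ) : ℝ) = 2 * π / k * j + 2 * π / k := by
        push_cast; ring
      rw [e1, cos_add, sin_add]
      unfold rot
      ext i
      fin_cases i
      · simp; ring
      · simp; ring
    rwa [e] at h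

/-- An angle of the orbit which is close to a given angle. -/
theorem exists_angle (k : ℕ) (hk : 4 ≤ k) (θ : ℝ) (hθ : -π ≤ θ) :
    ∃ j : ℕ, √2 / 2 ≤ cos (2 * π / k * j - θ) := by
  have hk0 : (0 : ℝ) < k := by positivity
  have hk4 : (4 : ℝ) ≤ k := by exact_mod_cast hk
  have hpi := Real.pi_pos
  set t : ℝ := (θ + 2 * π) * k / (2 * π) with ht
  have ht0 : 0 ≤ t := by
    rw [ht]; apply div_nonneg _ (by positivity)
    exact mul_nonneg (by linarith) hk0.le
  refine ⟨⌊t + 1 / 2⌋₊, ?_⟩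
  have hf1 := Nat.floor_le (show 0 ≤ t + 1 / 2 by positivity)
  have hf2 := Nat.lt_floor_add_one (t + 1 / 2)
  set j : ℝ := (⌊t + 1 / 2⌋₊ : ℝ) with hj
  have e1 : 2 * π / k * j - θ = 2 * π / k * (j - t) + 2 * π := by
    rw [ht]; field_simp; ring
  rw [e1, cos_add_two_pi, ← cos_abs, ← cos_pi_div_four]
  have h2 : |2 * π / k * (j - t)| ≤ π / 4 := by
    rw [abs_mul, abs_of_nonneg (show 0 ≤ 2 * π / k by positivity)]
    have h3 : |j - t| ≤ 1 / 2 := by
      rw [abs_le]; constructor <;> linarith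
    calc 2 * π / k * |j - t| ≤ 2 * π / 4 * (1 / 2) := by
          apply mul_le_mul _ h3 (abs_nonneg _) (by positivity)
          exact div_le_div_of_nonneg_left (by positivity) (by norm_num) hk4
      _ = π / 4 := by ring
  exact cos_le_cos_of_nonneg_of_le_pi (abs_nonneg _) (by linarith) h2

theorem disc_sub (k : ℕ) (hk : 4 ≤ k) {K : Set (Fin 2 → ℝ)} (hc : Convex ℝ K) (hK : IsCompact K)
    (hinv : ∀ x ∈ K, rot k x ∈ K) (h1 : ![1, 0] ∈ K) (x : Fin 2 → ℝ)
    (hx : x 0 ^ 2 + x 1 ^ 2 ≤ 1 / 2) : x ∈ K := by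
  by_contra hxK
  obtain ⟨f, u, hf1, hf2⟩ := geometric_hahn_banach_closed_point hc hK.isClosed hxK
  set a := f ![1, 0] with ha
  set b := f ![0, 1] with hb
  have hf : ∀ y : Fin 2 → ℝ, f y = a * y 0 + b * y 1 := by
    intro y
    have : y = y 0 • ![1, 0] + y 1 • ![0, 1] := by
      ext i; fin_cases i <;> simp
    rw [this, map_add, map_smul, map_smul, smul_eq_mul, smul_eq_mul]
    simp
    ring
  set z : ℂ := ⟨a, b⟩ with hz
  have hza : a = ‖z‖ * cos (Complex.arg z) := by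
    have := Complex.norm_mul_cos_arg z
    rw [this]
  have hzb : b = ‖z‖ * sin (Complex.arg z) := by
    have := Complex.norm_mul_sin_arg z
    rw [this]
  obtain ⟨j, hj⟩ := exists_angle k hk (Complex.arg z) (Complex.neg_pi_lt_arg z).le
  have h3 := hf1 _ (orbit_mem k hinv h1 j)
  rw [hf] at h3 hf2
  simp only [Matrix.cons_val_zero, Matrix.cons_val_one] at h3
  have h4 : a * cos (2 * π / k * j) + b * sin (2 * π / k * j) =
      ‖z‖ * cos (2 * π / k * j - Complex.arg z) := by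
    rw [cos_sub]
    nth_rewrite 1 [hza]
    nth_rewrite 1 [hzb]
    ring
  have h5 : ‖z‖ * (√2 / 2) ≤ ‖z‖ * cos (2 * π / k * j - Complex.arg z) :=
    mul_le_mul_of_nonneg_left hj (norm_nonneg _)
  have h6 : a ^ 2 + b ^ 2 = ‖z‖ ^ 2 := by
    rw [Complex.sq_norm, Complex.normSq_apply]; ring
  have h7 : a * x 0 + b * x 1 ≤ ‖z‖ * (√2 / 2) := by
    apply abs_le_of_sq_le_sq' _ (by positivity) |>.2
    have h8 : (‖z‖ * (√2 / 2)) ^ 2 = ‖z‖ ^ 2 * (1 / 2) := by
      rw [mul_pow, div_pow, Real.sq_sqrt (by norm_num)]; norm_num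
    rw [h8, ← h6]
    have h9 : (a ^ 2 + b ^ 2) * (x 0 ^ 2 + x 1 ^ 2) ≤ (a ^ 2 + b ^ 2) * (1 / 2) :=
      mul_le_mul_of_nonneg_left hx (by positivity)
    nlinarith [sq_nonneg (a * x 1 - b * x 0)]
  linarith

end Vale.Agent.P254.Fib.H102
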