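import Vale.Agent.P254.Fib.Four972
import Vale.Agent.P254.Fib.DiscMom972
import Vale.Agent.P254.Fib.DiscSub102

/-!
P254/Fib, leaf R7: planar bodies with a rotation of order at least four.
-/

open MeasureTheory Set Real

namespace Vale.Agent.P254.Fib.H972

/-- R7 -/
theorem four_norm (k : ℕ) (hk : 4 ≤ k) {K : Set (Fin 2 → ℝ)} (hc : Convex ℝ K) (hK : IsCompact K)
    (hinv : ∀ x ∈ K, rot k x ∈ K) (h1 : ![1, 0] ∈ K) (hle : ∀ x ∈ K, x 0 ^ 2 + x 1 ^ 2 ≤ 1) :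
    (∫ x in K, (x 0 ^ 2 + x 1 ^ 2)) < (volume K).toReal ^ 2 / (3 * √3) :=
  four_norm_of (fun k hk _ hc hK hinv h1 x hx => H102.disc_sub k hk hc hK hinv h1 x hx)
    (fun hc hK h0 hle => disc_mom hc hK h0 hle) k hk hc hK hinv h1 hle

end Vale.Agent.P254.Fib.H972
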