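import Vale.Agent.P254.Fib.IrrTop

/-!
P254/Fib: convex bodies in `ℝ^(m+1)` with an irreducible system of `m` (oblique, affine) hyperplane
symmetries.
-/

open MeasureTheory Set Matrix

namespace Vale.Agent.P254.Fib

open Vale.Agent.P254.FV (Good)

/-- Convex bodies in `ℝ^(m+1)` with `m` hyperplane symmetries with linearly independent directions,
if the system is irreducible. -/
theorem free_aff {m : ℕ} (hm : 1 ≤ m) {K : Set (Fin (m + 1) → ℝ)} (hK : IsConvexBody K)
    {a w : Fin m → Fin (m + 1) → ℝ} {c : Fin m → ℝ} (ha : LinearIndependent ℝ a)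
    (hw : ∀ i, w i ⬝ᵥ a i = 2)
    (hcon : ∀ i j, Relation.ReflTransGen (fun i j => w i ⬝ᵥ a j ≠ 0) i j)
    (hR : ∀ i, ∀ x ∈ K, x - (w i ⬝ᵥ x - c i) • a i ∈ K) : Good K :=
  irr_aff (m + 1) (Nat.le_add_left 1 m)
    (Or.inr ⟨congrArg (· + 1) (Fintype.card_fin m), (Fintype.card_fin m).symm ▸ hm⟩)
    a w c ha hw hcon hK hR

end Vale.Agent.P254.Fib
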