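import Vale.Agent.P254.Fib.Defs
import Vale.Agent.P254.Bdl.B2
import Vale.Agent.P254.Bdl.B7
import Vale.Agent.P254.Bdl.B10
import Vale.Agent.P254.Bdl.B17
import Vale.Agent.P254.Bdl.B20

/-!
P254: the slice theorem for sections whose centroids lie on a line follows from the one for centred
sections, by a shear.
-/

open MeasureTheory Set Real Matrix

namespace Vale.Agent.P254.Fib.H261

open Vale.Agent.P254.FV (Good)

variable {m : ℕ}

/-- The matrix of the shear `(x₀, x') ↦ (x₀, x' + x₀ c)`. -/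
def shM (c : Fin m → ℝ) : Matrix (Fin (m + 1)) (Fin (m + 1)) ℝ :=
  Matrix.of fun i j => (Fin.cons (Fin.cons 1 0 : Fin (m + 1) → ℝ)
    (fun i' => Fin.cons (c i') (Pi.single i' 1)) : Fin (m + 1) → Fin (m + 1) → ℝ) i j

theorem shM_mulVec (c : Fin m → ℝ) (x : Fin (m + 1) → ℝ) :
    shM c *ᵥ x = Fin.cons (x 0) (fun i => c i * x 0 + x i.succ) := by
  funext i
  refine Fin.cases ?_ (fun i => ?_) i
  · simp [shM, mulVec, dotProduct, Fin.sum_univ_succ]
  · simp [shM, mulVec, dotProduct, Fin.sum_univ_succ, Pi.single_apply]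

theorem shM_det (c : Fin m → ℝ) : (shM c).det ≠ 0 := by
  have hu : IsUnit (shM c) := by
    rw [← Matrix.mulVec_injective_iff_isUnit]
    intro x y h
    simp only [shM_mulVec] at h
    obtain ⟨h1, h2⟩ := Fin.cons_injective2 h
    funext i
    refine Fin.cases h1 (fun i => ?_) i
    have := congrFun h2 i
    simp only [h1] at this
    linarith
  exact isUnit_iff_ne_zero.1 ((Matrix.isUnit_iff_isUnit_det _).1 hu)

theorem aff_shM_cons (c : Fin m → ℝ) (b : Fin m → ℝ) (s : ℝ) (y : Fin m → ℝ) :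
    aff (shM c) (Fin.cons 0 b) (Fin.cons s y) = (Fin.cons s (y + (b + s • c)) : Fin (m + 1) → ℝ) := by
  rw [aff, shM_mulVec]
  funext i
  refine Fin.cases ?_ (fun i => ?_) i
  · simp
  · simp
    ring

theorem aff_one (d : Fin m → ℝ) (y : Fin m → ℝ) : aff 1 d y = y + d := by
  simp [aff]

theorem aff_shM_image_neg (c b : Fin m → ℝ) (K : Set (Fin (m + 1) → ℝ)) :
    aff (shM c) (Fin.cons 0 b) '' (aff (shM (-c)) (Fin.cons 0 (-b)) '' K) = K := by
  rw [← image_comp]
  have e : (aff (shM c) (Fin.cons 0 b)) ∘ (aff (shM (-c)) (Fin.cons 0 (-b))) = id := by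
    funext x
    obtain ⟨s, y, rfl⟩ : ∃ s y, x = (Fin.cons s y : Fin (m + 1) → ℝ) :=
      ⟨x 0, Fin.tail x, (Fin.cons_self_tail x).symm⟩
    rw [Function.comp_apply, aff_shM_cons, aff_shM_cons]
    congr 1
    funext i
    simp
    ring
  rw [e, image_id]

theorem fib_aff (c b : Fin m → ℝ) (K : Set (Fin (m + 1) → ℝ)) (s : ℝ) :
    fib (aff (shM c) (Fin.cons 0 b) '' K) s = aff 1 (b + s • c) '' fib K s := by
  ext y
  simp only [fib, mem_ofPred_eq, mem_image]
  constructor
  · rintro ⟨x, hx, h⟩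
    obtain ⟨s', y', rfl⟩ : ∃ s y, x = (Fin.cons s y : Fin (m + 1) → ℝ) :=
      ⟨x 0, Fin.tail x, (Fin.cons_self_tail x).symm⟩
    rw [aff_shM_cons] at h
    obtain ⟨h1, h2⟩ := Fin.cons_injective2 h
    subst h1
    exact ⟨y', hx, by rw [aff_one]; exact h2⟩
  · rintro ⟨y', hy', rfl⟩
    exact ⟨Fin.cons s y', hy', by rw [aff_shM_cons, aff_one]⟩

theorem isCompact_fib {K : Set (Fin (m + 1) → ℝ)} (hK : IsCompact K) (s : ℝ) :
    IsCompact (fib K s) := by
  have h1 : fib K s = (fun x : Fin (m + 1) → ℝ => (fun i : Fin m => x i.succ)) ''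
      (K ∩ {x | x 0 = s}) := by
    ext y
    simp only [fib, mem_ofPred_eq, mem_image, mem_inter_iff]
    constructor
    · intro h
      exact ⟨_, ⟨h, by simp⟩, by funext i; simp⟩
    · rintro ⟨x, ⟨hx, h0⟩, rfl⟩
      have : (Fin.cons s (fun i : Fin m => x i.succ) : Fin (m + 1) → ℝ) = x := by
        rw [← h0]
        exact Fin.cons_self_tail x
      rw [this]
      exact hx
  rw [h1]
  refine IsCompact.image (hK.inter_right ?_) (by fun_prop)
  exact isClosed_eq (by fun_prop) continuous_const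

theorem body_aff {n : ℕ} {K : Set (Fin n → ℝ)} (hK : IsConvexBody K)
    {A : Matrix (Fin n) (Fin n) ℝ} (hA : A.det ≠ 0) (b : Fin n → ℝ) :
    IsConvexBody (aff A b '' K) := by
  refine FV.body_of_vol ?_ (isCompact_aff_image A b hK.2.1) ?_
  · rw [← coe_affMap]
    exact hK.1.affine_image _
  · rw [volume_aff_image hA b hK.2.1.measurableSet]
    exact mul_ne_zero (abs_ne_zero.2 hA) (FV.vol_pos hK).ne'

end Vale.Agent.P254.Fib.H261

namespace Vale.Agent.P254.Fib

open Vale.Agent.P254.FV (Good)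

/-- [F4] the general slice theorem (from `good0` by a shear) -/
theorem good_of_good0 {m : ℕ}
    (h0 : ∀ K : Set (Fin (m + 1) → ℝ), IsConvexBody K → ∀ Q : Matrix (Fin m) (Fin m) ℝ,
      (∀ s, 0 < (volume (fib K s)).toReal → Good (fib K s)) →
      (∀ s, 0 < (volume (fib K s)).toReal → centroid (fib K s) = 0) →
      (∀ s, 0 < (volume (fib K s)).toReal → ∃ t : ℝ, covMatrix (fib K s) = t • Q) → Good K)
    {K : Set (Fin (m + 1) → ℝ)} (hK : IsConvexBody K)
    (b₀ b₁ : Fin m → ℝ) (Q : Matrix (Fin m) (Fin m) ℝ)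
    (hG : ∀ s, 0 < (volume (fib K s)).toReal → Good (fib K s))
    (hc : ∀ s, 0 < (volume (fib K s)).toReal → centroid (fib K s) = b₀ + s • b₁)
    (hQ : ∀ s, 0 < (volume (fib K s)).toReal → ∃ t : ℝ, covMatrix (fib K s) = t • Q) :
    Good K := by
  set K₀ : Set (Fin (m + 1) → ℝ) := aff (H261.shM (-b₁)) (Fin.cons 0 (-b₀)) '' K with hK₀
  have hfib : ∀ s, fib K₀ s = aff 1 (-b₀ + s • -b₁) '' fib K s := fun s =>
    H261.fib_aff (-b₁) (-b₀) K s
  have h1 : (1 : Matrix (Fin m) (Fin m) ℝ).det ≠ 0 := by simp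
  have hcomp := H261.isCompact_fib hK.2.1
  have hvol : ∀ s, (volume (fib K₀ s)).toReal = (volume (fib K s)).toReal := by
    intro s
    rw [hfib, volume_aff_image h1 _ (hcomp s).measurableSet]
    simp
  have key : Good K₀ := by
    refine h0 _ (H261.body_aff hK (H261.shM_det _) _) Q ?_ ?_ ?_
    · intro s hs
      rw [hvol] at hs
      rw [hfib]
      exact (hG s hs).aff h1 _
    · intro s hs
      rw [hvol] at hs
      rw [hfib, centroid_aff_image h1 _ (hcomp s) hs.ne', hc s hs, H261.aff_one]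
      funext i
      simp
      ring
    · intro s hs
      rw [hvol] at hs
      rw [hfib, cov_aff_image h1 _ (hcomp s) hs.ne']
      simpa using hQ s hs
  have := key.aff (H261.shM_det b₁) (Fin.cons 0 b₀)
  rwa [hK₀, H261.aff_shM_image_neg] at this

end Vale.Agent.P254.Fib
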