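import Vale.Agent.P254.Fib.Core
import Vale.Agent.P254.Fib.CoreEq
import Vale.Agent.P254.FV.Good
import Vale.Agent.P254.Unc.Near

/-!
P254, convex bodies whose parallel sections are centred and isotropic up to scale.
-/

open MeasureTheory Set Matrix

namespace Vale.Agent.P254.Fib

open Vale.Agent.P254.Perm (kap)
open Vale.Agent.P254.FV (Good Dn simpC)

namespace H449

variable {m : ℕ}

theorem simpC_kap (m : ℕ) : simpC m * kap m = simpC (m + 1) := by
  unfold FV.simpC kap
  rw [Nat.factorial_succ, mul_pow, mul_pow]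
  push_cast
  have e1 : ((m : ℝ) + 1) ^ (m + 3) = ((m : ℝ) + 1) ^ m * ((m : ℝ) + 1) ^ 3 := by rw [← pow_add]
  have e2 : ((m : ℝ) + 1 + 1) ^ (m + 1) = ((m : ℝ) + 2) ^ m * ((m : ℝ) + 2) := by
    rw [← pow_succ]; congr 1; ring
  have e3 : ((m : ℝ) + 1 + 2) ^ (m + 1) = ((m : ℝ) + 3) ^ (m + 1) := by
    congr 1; ring
  have e4 : ((m : ℝ) + 1 + 1) = (m : ℝ) + 2 := by ring
  rw [e1, e2, e3, e4]
  field_simp

/-- `(s, y) ↦ x`. -/
def U (p : ℝ × (Fin m → ℝ)) : Fin (m + 1) → ℝ := Fin.cons p.1 p.2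

/-- The inverse of `U`. -/
def T (x : Fin (m + 1) → ℝ) : ℝ × (Fin m → ℝ) := (x 0, Fin.tail x)

lemma T_U (p : ℝ × (Fin m → ℝ)) : T (U p) = p := by
  simp [T, U]

lemma U_T (x : Fin (m + 1) → ℝ) : U (T x) = x := by
  simp [T, U]

lemma continuous_U : Continuous (U (m := m)) := by
  refine continuous_pi fun i => ?_
  refine Fin.cases ?_ (fun k => ?_) i
  · simp only [U, Fin.cons_zero]
    fun_prop
  · simp only [U, Fin.cons_succ]
    fun_prop

lemma continuous_T : Continuous (T (m := m)) := by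
  unfold T Fin.tail
  fun_prop

/-- `U` as a homeomorphism. -/
def Uh : (ℝ × (Fin m → ℝ)) ≃ₜ (Fin (m + 1) → ℝ) where
  toFun := U
  invFun := T
  left_inv := T_U
  right_inv := U_T
  continuous_toFun := continuous_U
  continuous_invFun := continuous_T

lemma mp_U : MeasurePreserving (U (m := m)) volume volume := by
  have h3 := (volume_preserving_piFinSuccAbove (fun _ : Fin (m + 1) => ℝ) 0).symm
  have e : (⇑(MeasurableEquiv.piFinSuccAbove (fun _ : Fin (m + 1) => ℝ) 0).symm) = U := by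
    funext p
    funext i
    refine Fin.cases ?_ (fun k => ?_) i
    · show (Fin.insertNth (α := fun _ => ℝ) 0 p.1 p.2 : Fin (m + 1) → ℝ) 0 = _
      rw [Fin.insertNth_apply_same]
      simp [U]
    · show (Fin.insertNth (α := fun _ => ℝ) 0 p.1 p.2 : Fin (m + 1) → ℝ) k.succ = _
      rw [← Fin.succAbove_zero_apply, Fin.insertNth_apply_succAbove]
      simp [U]
  rw [← e]
  exact h3

lemma int_U (K : Set (Fin (m + 1) → ℝ)) (f : ℝ × (Fin m → ℝ) → ℝ) :
    ∫ p in U ⁻¹' K, f p = ∫ x in K, f (T x) := by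
  have h := mp_U.setIntegral_preimage_emb (Uh (m := m)).measurableEmbedding (fun x => f (T x)) K
  simp only [T_U] at h
  exact h

lemma vol_U (K : Set (Fin (m + 1) → ℝ)) : volume (U ⁻¹' K) = volume K :=
  mp_U.measure_preimage_emb (Uh (m := m)).measurableEmbedding K

/-- `U` as a linear equivalence. -/
def Ul : (ℝ × (Fin m → ℝ)) ≃ₗ[ℝ] (Fin (m + 1) → ℝ) where
  toFun := U
  invFun := T
  left_inv := T_U
  right_inv := U_T
  map_add' := by
    intro p q
    funext i
    refine Fin.cases ?_ (fun k => ?_) i <;> simp [U]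
  map_smul' := by
    intro c p
    funext i
    refine Fin.cases ?_ (fun k => ?_) i <;> simp [U]

lemma convex_U {K : Set (Fin (m + 1) → ℝ)} (hK : Convex ℝ K) : Convex ℝ (U ⁻¹' K) :=
  hK.linear_preimage (Ul (m := m)).toLinearMap

lemma compact_U {K : Set (Fin (m + 1) → ℝ)} (hK : IsCompact K) : IsCompact (U ⁻¹' K) :=
  (Uh (m := m)).isCompact_preimage.2 hK

/-- A simplex in the coordinates `(s, y)` is a simplex. -/
lemma isSimplex_of {K : Set (Fin (m + 1) → ℝ)}
    (h : ∃ v : Fin (m + 2) → ℝ × (Fin m → ℝ), AffineIndependent ℝ v ∧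
      U ⁻¹' K = convexHull ℝ (range v)) : IsSimplex K := by
  obtain ⟨v, hv, hL⟩ := h
  refine ⟨U ∘ v, ?_, ?_⟩
  · exact hv.map' (Ul (m := m)).toAffineEquiv.toAffineMap (Ul (m := m)).injective
  · have h1 : K = U '' (U ⁻¹' K) := (image_preimage_eq K (Uh (m := m)).surjective).symm
    rw [h1, hL, range_comp]
    exact (Ul (m := m)).toLinearMap.image_convexHull _

/-- The statement of `core_eq`. -/
def CoreEqSt : Prop := ∀ (m : ℕ), 1 ≤ m → ∀ {L : Set (ℝ × (Fin m → ℝ))}, Convex ℝ L →
    IsCompact L → ∀ (i₀ : Fin m) {C : ℝ}, 0 < C →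
    (∀ s i, ∫ y in {y | (s, y) ∈ L}, y i = 0) →
    (∀ s, (∫ y in {y | (s, y) ∈ L}, y i₀ ^ 2) ^ m ≤
      C * (volume {y | (s, y) ∈ L}).toReal ^ (m + 2)) →
    0 < (volume L).toReal →
    C * kap m * (volume L).toReal ^ (m + 4) ≤ (∫ p in L, p.2 i₀ ^ 2) ^ m *
        ((volume L).toReal * (∫ p in L, p.1 ^ 2) - (∫ p in L, p.1) ^ 2) →
    (∀ s, 0 < (volume {y | (s, y) ∈ L}).toReal →
      C * (volume {y | (s, y) ∈ L}).toReal ^ (m + 2) ≤
        (∫ y in {y | (s, y) ∈ L}, y i₀ ^ 2) ^ m → IsSimplex {y | (s, y) ∈ L}) →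
    ∃ v : Fin (m + 2) → ℝ × (Fin m → ℝ), AffineIndependent ℝ v ∧ L = convexHull ℝ (range v)

theorem good0_of (hceq : CoreEqSt) {m : ℕ} (hm : 1 ≤ m) {K : Set (Fin (m + 1) → ℝ)}
    (hK : IsConvexBody K) (Q : Matrix (Fin m) (Fin m) ℝ)
    (hG : ∀ s, 0 < (volume (fib K s)).toReal → Good (fib K s))
    (hc : ∀ s, 0 < (volume (fib K s)).toReal → centroid (fib K s) = 0)
    (hQ : ∀ s, 0 < (volume (fib K s)).toReal → ∃ t : ℝ, covMatrix (fib K s) = t • Q) :
    Good K := by
  have hV : 0 < (volume K).toReal :=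
    ENNReal.toReal_pos ((isOpen_interior.measure_pos volume hK.2.2).trans_le
      (measure_mono interior_subset)).ne' hK.2.1.measure_ne_top
  set V := (volume K).toReal with hVdef
  set L : Set (ℝ × (Fin m → ℝ)) := U ⁻¹' K with hLdef
  have hLc : IsCompact L := compact_U hK.2.1
  have hLv : Convex ℝ L := convex_U hK.1
  have hfib : ∀ s, {y | (s, y) ∈ L} = fib K s := fun s => rfl
  have hvolL : (volume L).toReal = V := by rw [hLdef, vol_U]
  have hzero : ∀ s, ¬ 0 < (volume (fib K s)).toReal → volume (fib K s) = 0 := by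
    intro s hs
    have h1 : (volume (fib K s)).toReal = 0 := le_antisymm (not_lt.1 hs) ENNReal.toReal_nonneg
    rcases (ENNReal.toReal_eq_zero_iff _).1 h1 with h | h
    · exact h
    · exact absurd h (by
        rw [← hfib]
        exact (Perm.isCompact_slice hLc s).measure_lt_top.ne)
  -- a section with positive volume
  obtain ⟨s0, hs0⟩ : ∃ s, 0 < (volume (fib K s)).toReal := by
    by_contra hne
    push Not at hne
    have h1 := Perm.int_slice hLc (f := fun _ => (1 : ℝ)) continuous_const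
    have h2 : ∀ s, ∫ _y in {y | (s, y) ∈ L}, (1 : ℝ) = 0 := by
      intro s
      rw [hfib, Measure.restrict_eq_zero.2 (hzero s (not_lt.2 (hne s))), integral_zero_measure]
    simp_rw [h2] at h1
    rw [setIntegral_const, Measure.real, hvolL] at h1
    simp at h1
    exact hV.ne' h1
  obtain ⟨t0, ht0⟩ := hQ s0 hs0
  set Q' := covMatrix (fib K s0) with hQ'
  have hQpd : Q'.PosDef := covMatrix_posDef (hG s0 hs0).body
  set i₀ : Fin m := ⟨0, hm⟩ with hi₀
  set q := Q' i₀ i₀ with hq
  have hqpos : 0 < q := hQpd.diag_pos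
  have hdpos : 0 < Q'.det := hQpd.det_pos
  have ht0ne : t0 ≠ 0 := by
    rintro rfl
    rw [hq, ht0, Matrix.smul_apply, zero_smul] at hqpos
    exact lt_irrefl _ hqpos
  have hcov : ∀ s, 0 < (volume (fib K s)).toReal → ∃ τ : ℝ, covMatrix (fib K s) = τ • Q' := by
    intro s hs
    obtain ⟨t, ht⟩ := hQ s hs
    refine ⟨t / t0, ?_⟩
    rw [ht, ht0, smul_smul, div_mul_cancel₀ _ ht0ne]
  have hmean : ∀ s i, ∫ y in {y | (s, y) ∈ L}, y i = 0 := by
    intro s i
    rw [hfib]
    by_cases hs : 0 < (volume (fib K s)).toReal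
    · have h1 := congrFun (hc s hs) i
      rw [centroid, Pi.zero_apply] at h1
      exact (mul_eq_zero.1 h1).resolve_left (inv_ne_zero hs.ne')
    · rw [Measure.restrict_eq_zero.2 (hzero s hs), integral_zero_measure]
  -- the second moments of the sections
  have hsec : ∀ s, 0 < (volume (fib K s)).toReal → ∀ i j,
      ∫ y in fib K s, y i * y j = (volume (fib K s)).toReal * covMatrix (fib K s) i j := by
    intro s hs i j
    rw [covMatrix, hc s hs]
    simp only [Pi.zero_apply, sub_zero]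
    field_simp
  have hsq : ∀ s, ∫ y in fib K s, y i₀ ^ 2 = ∫ y in fib K s, y i₀ * y i₀ := fun s =>
    integral_congr_ae (Filter.Eventually.of_forall fun y => sq _)
  have hkey : ∀ s i j, q * ∫ y in fib K s, y i * y j =
      Q' i j * ∫ y in fib K s, y i₀ ^ 2 := by
    intro s i j
    by_cases hs : 0 < (volume (fib K s)).toReal
    · obtain ⟨τ, hτ⟩ := hcov s hs
      rw [hsq s, hsec s hs, hsec s hs, hτ, Matrix.smul_apply, Matrix.smul_apply, smul_eq_mul,
        smul_eq_mul, ← hq]
      ring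
    · rw [Measure.restrict_eq_zero.2 (hzero s hs), integral_zero_measure, integral_zero_measure,
        mul_zero, mul_zero]
  set C := simpC m * q ^ m / Q'.det with hC
  have hsc := FV.simpC_pos m
  have hCpos : 0 < C := by positivity
  have hm0 : m ≠ 0 := by omega
  -- `(∫ y²)^m` of a section
  have hpow : ∀ s, 0 < (volume (fib K s)).toReal →
      (∫ y in fib K s, y i₀ ^ 2) ^ m * Q'.det =
        (volume (fib K s)).toReal ^ m * q ^ m * (covMatrix (fib K s)).det := by
    intro s hs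
    obtain ⟨τ, hτ⟩ := hcov s hs
    rw [hsq s, hsec s hs, hτ, Matrix.smul_apply, smul_eq_mul, ← hq, det_smul, Fintype.card_fin,
      mul_pow, mul_pow]
    ring
  have hB : ∀ s, (∫ y in {y | (s, y) ∈ L}, y i₀ ^ 2) ^ m ≤
      C * (volume {y | (s, y) ∈ L}).toReal ^ (m + 2) := by
    intro s
    rw [hfib]
    by_cases hs : 0 < (volume (fib K s)).toReal
    · have h1 := (hG s hs).le
      unfold FV.Dn at h1
      rw [div_le_iff₀ (by positivity)] at h1
      have h2 := hpow s hs
      rw [hC, div_mul_eq_mul_div, le_div_iff₀ hdpos, h2]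
      calc (volume (fib K s)).toReal ^ m * q ^ m * (covMatrix (fib K s)).det
          ≤ (volume (fib K s)).toReal ^ m * q ^ m * (simpC m * (volume (fib K s)).toReal ^ 2) := by
            gcongr
        _ = _ := by ring
    · rw [Measure.restrict_eq_zero.2 (hzero s hs), integral_zero_measure, zero_pow hm0]
      positivity
  obtain ⟨hy, hsy, hineq⟩ := core m hm hLv hLc i₀ hCpos.le hmean hB
  -- the covariance matrix of `K`
  set Iy := ∫ p in L, p.2 i₀ ^ 2 with hIy
  set Is := ∫ p in L, p.1 with hIs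
  set Iss := ∫ p in L, p.1 ^ 2 with hIss
  rw [hvolL] at hineq
  have hIyy : ∀ i j, q * ∫ p in L, p.2 i * p.2 j = Q' i j * Iy := by
    intro i j
    rw [hIy, Perm.int_slice hLc (f := fun p => p.2 i * p.2 j) (by fun_prop),
      Perm.int_slice hLc (f := fun p => p.2 i₀ ^ 2) (by fun_prop), ← integral_const_mul,
      ← integral_const_mul]
    refine integral_congr_ae (Filter.Eventually.of_forall fun s => ?_)
    exact hkey s i j
  have hcen0 : centroid K 0 = V⁻¹ * Is := by
    rw [centroid, hIs, int_U K (fun p => p.1)]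
    rfl
  have hcens : ∀ i : Fin m, centroid K i.succ = 0 := by
    intro i
    have h1 := hy i
    rw [int_U K (fun p => p.2 i)] at h1
    rw [centroid]
    have h2 : ∫ x in K, x i.succ = 0 := h1
    rw [h2, mul_zero]
  have hM00 : covMatrix K 0 0 = (V * Iss - Is ^ 2) / V ^ 2 := by
    rw [cov_eq hK.2.1 hV.ne', hcen0, hIss, int_U K (fun p => p.1 ^ 2)]
    have e : ∫ x in K, x 0 * x 0 = ∫ x in K, (T x).1 ^ 2 := by
      refine integral_congr_ae (Filter.Eventually.of_forall fun x => ?_)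
      show x 0 * x 0 = x 0 ^ 2
      ring
    rw [e, ← hVdef]
    field_simp
  have hM0s : ∀ j : Fin m, covMatrix K 0 j.succ = 0 := by
    intro j
    rw [cov_eq hK.2.1 hV.ne', hcens, mul_zero, sub_zero]
    have h1 := hsy j
    rw [int_U K (fun p => p.1 * p.2 j)] at h1
    have h2 : ∫ x in K, x 0 * x j.succ = 0 := h1
    rw [h2, mul_zero]
  have hMss : (covMatrix K).submatrix Fin.succ Fin.succ = (V⁻¹ * Iy / q) • Q' := by
    ext i j
    rw [submatrix_apply, cov_eq hK.2.1 hV.ne', hcens, zero_mul, sub_zero, Matrix.smul_apply,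
      smul_eq_mul]
    have h1 := hIyy i j
    rw [int_U K (fun p => p.2 i * p.2 j)] at h1
    have h2 : ∫ x in K, x i.succ * x j.succ = Q' i j * Iy / q := by
      rw [eq_div_iff hqpos.ne', mul_comm]
      exact h1
    rw [h2, ← hVdef]
    field_simp
  have hdet : (covMatrix K).det = (V * Iss - Is ^ 2) / V ^ 2 * ((V⁻¹ * Iy / q) ^ m * Q'.det) := by
    rw [det_succ_row_zero, Fin.sum_univ_succ, Finset.sum_eq_zero, add_zero]
    · rw [Fin.val_zero, pow_zero, one_mul, hM00]
      congr 1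
      have e : (covMatrix K).submatrix Fin.succ (Fin.succAbove 0) =
          (covMatrix K).submatrix Fin.succ Fin.succ := by
        ext i j
        simp
      rw [e, hMss, det_smul, Fintype.card_fin]
    · intro j _
      rw [hM0s, mul_zero, zero_mul]
  have hDn : Dn K = Iy ^ m * (V * Iss - Is ^ 2) * (Q'.det / (q ^ m * V ^ (m + 4))) := by
    unfold FV.Dn
    rw [hdet, ← hVdef, div_pow, mul_pow, inv_pow, pow_add V m 4]
    field_simp
  have hCk : C * kap m * V ^ (m + 4) * (Q'.det / (q ^ m * V ^ (m + 4))) = simpC (m + 1) := by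
    rw [← simpC_kap, hC]
    field_simp
  have hfac : 0 < Q'.det / (q ^ m * V ^ (m + 4)) := by positivity
  refine ⟨by omega, hK, ?_, fun heq => ?_⟩
  · rw [hDn, ← hCk]
    exact mul_le_mul_of_nonneg_right hineq hfac.le
  · rw [hDn, ← hCk] at heq
    have heq' := mul_right_cancel₀ hfac.ne' heq
    refine isSimplex_of (hceq m hm hLv hLc i₀ hCpos hmean hB (by rw [hvolL]; exact hV) ?_ ?_)
    · rw [hvolL]
      exact heq'.ge
    · intro s hs hge
      rw [hfib] at hs hge ⊢
      refine (hG s hs).eq (le_antisymm (hG s hs).le ?_)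
      have h2 := hpow s hs
      rw [hC, div_mul_eq_mul_div, div_le_iff₀ hdpos, h2] at hge
      unfold FV.Dn
      rw [le_div_iff₀ (by positivity)]
      have h3 : (volume (fib K s)).toReal ^ m * q ^ m * (simpC m * (volume (fib K s)).toReal ^ 2) ≤
          (volume (fib K s)).toReal ^ m * q ^ m * (covMatrix (fib K s)).det := by
        refine le_trans (le_of_eq ?_) hge
        ring
      exact le_of_mul_le_mul_left h3 (by positivity)

theorem coreEqSt : CoreEqSt := fun m hm _ hc hL i₀ _ hC h1 h2 h3 h4 h5 =>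
  core_eq m hm hc hL i₀ hC h1 h2 h3 h4 h5

/-- [F3], backup of helper863: all sections centred. -/
theorem good0 {m : ℕ} (hm : 1 ≤ m) {K : Set (Fin (m + 1) → ℝ)} (hK : IsConvexBody K)
    (Q : Matrix (Fin m) (Fin m) ℝ)
    (hG : ∀ s, 0 < (volume (fib K s)).toReal → Good (fib K s))
    (hc : ∀ s, 0 < (volume (fib K s)).toReal → centroid (fib K s) = 0)
    (hQ : ∀ s, 0 < (volume (fib K s)).toReal → ∃ t : ℝ, covMatrix (fib K s) = t • Q) :
    Good K :=
  good0_of coreEqSt hm hK Q hG hc hQ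

end H449

end Vale.Agent.P254.Fib
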