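import Vale.Agent.P254.Defs
import Mathlib.Combinatorics.SimpleGraph.Acyclic

/-!
P254, convex bodies with hyperplane symmetries: definitions.
-/

open MeasureTheory Set Matrix

namespace Vale.Agent.P254.Fib

/-- `K` is invariant under the orthogonal reflection in the hyperplane orthogonal to `a`. -/
def RefInv {n : ℕ} (a : Fin n → ℝ) (K : Set (Fin n → ℝ)) : Prop :=
  ∀ x ∈ K, x - (2 * (a ⬝ᵥ x) / (a ⬝ᵥ a)) • a ∈ K

/-- The graph on the indices: `i ~ j` if `a i` and `a j` are not orthogonal. -/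
def gr {ι : Type} {n : ℕ} (a : ι → (Fin n → ℝ)) : SimpleGraph ι where
  Adj i j := i ≠ j ∧ a i ⬝ᵥ a j ≠ 0
  symm := ⟨fun i j h => ⟨h.1.symm, by rw [dotProduct_comm]; exact h.2⟩⟩
  loopless := ⟨fun i h => h.1 rfl⟩

end Vale.Agent.P254.Fib
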