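import Vale.Agent.P254.Fib.Defs
import Vale.Agent.P254.Fib.IrrDefs

/-!
P254/Fib: the graph step [I3] and the fibres of the rotated body [I4].
-/

open MeasureTheory Set Matrix

namespace Vale.Agent.P254.Fib

/-- [I3] a vertex which is not a cut vertex -/
theorem exists_noncut {ι : Type} [Fintype ι] [Nontrivial ι] (G : SimpleGraph ι)
    (h : G.Connected) : ∃ i : ι, (G.induce {j | j ≠ i}).Connected :=
  h.exists_connected_induce_compl_singleton_of_finite_nontrivial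

namespace H972

/-- orthogonal matrices preserve the scalar product -/
theorem dot_orth {n : ℕ} {O : Matrix (Fin n) (Fin n) ℝ} (h2 : Oᵀ * O = 1) (u v : Fin n → ℝ) :
    (O *ᵥ u) ⬝ᵥ (O *ᵥ v) = u ⬝ᵥ v := by
  rw [dotProduct_mulVec, vecMul_mulVec, h2, vecMul_one]

/-- scalar products with a vector whose first coordinate is zero -/
theorem dot_tail {m : ℕ} (b z : Fin (m + 1) → ℝ) (h0 : b 0 = 0) :
    Fin.tail b ⬝ᵥ Fin.tail z = b ⬝ᵥ z := by
  simp only [dotProduct]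
  rw [Fin.sum_univ_succ, h0, zero_mul, zero_add]
  rfl

end H972

/-- [I4] the fibres of the rotated body -/
theorem fib_inv {m : ℕ} {ι : Type} (a : ι → (Fin (m + 1) → ℝ))
    {O : Matrix (Fin (m + 1)) (Fin (m + 1)) ℝ} (h1 : O * Oᵀ = 1) (h2 : Oᵀ * O = 1)
    {K : Set (Fin (m + 1) → ℝ)} (i : ι) (h0 : (O *ᵥ a i) 0 = 0) (hinv : RefInv (a i) K) (s : ℝ) :
    RefInv (Fin.tail (O *ᵥ a i)) (fib ((fun x => O *ᵥ x + 0) '' K) s) := by
  intro y hy
  obtain ⟨x, hx, hxy⟩ := hy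
  simp only [add_zero] at hxy
  have hyt : y = Fin.tail (O *ᵥ x) := by rw [hxy, Fin.tail_cons]
  have hs : (O *ᵥ x) 0 = s := by rw [hxy, Fin.cons_zero]
  have e1 : Fin.tail (O *ᵥ a i) ⬝ᵥ y = a i ⬝ᵥ x := by
    rw [hyt, H972.dot_tail _ _ h0, H972.dot_orth h2]
  have e2 : Fin.tail (O *ᵥ a i) ⬝ᵥ Fin.tail (O *ᵥ a i) = a i ⬝ᵥ a i := by
    rw [H972.dot_tail _ _ h0, H972.dot_orth h2]
  refine ⟨_, hinv x hx, ?_⟩
  simp only [add_zero]
  rw [e1, e2, mulVec_sub, mulVec_smul]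
  funext k
  refine Fin.cases ?_ (fun k => ?_) k
  · simp only [Pi.sub_apply, Pi.smul_apply, smul_eq_mul, h0, mul_zero, sub_zero, Fin.cons_zero]
    exact hs
  · simp only [Pi.sub_apply, Pi.smul_apply, smul_eq_mul, Fin.cons_succ]
    rw [hyt]
    rfl

end Vale.Agent.P254.Fib
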