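import Vale.Agent.P254.Fib.IrrDefs
import Vale.Agent.P254.Perm.SymInt

/-! The moments up to order two of a body with a connected system of hyperplane symmetries. -/

open MeasureTheory Set Matrix

namespace Vale.Agent.P254.Fib

namespace IM490

/-- The orthogonal reflection as a linear map. -/
noncomputable def R {m : ℕ} (a : Fin m → ℝ) : (Fin m → ℝ) →ₗ[ℝ] (Fin m → ℝ) where
  toFun x := x - (2 * (a ⬝ᵥ x) / (a ⬝ᵥ a)) • a
  map_add' x y := by
    rw [dotProduct_add]
    ext k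
    simp only [Pi.sub_apply, Pi.add_apply, Pi.smul_apply, smul_eq_mul]
    ring
  map_smul' c x := by
    rw [dotProduct_smul]
    ext k
    simp only [Pi.sub_apply, Pi.smul_apply, smul_eq_mul, RingHom.id_apply]
    ring

theorem R_apply {m : ℕ} (a x : Fin m → ℝ) : R a x = x - (2 * (a ⬝ᵥ x) / (a ⬝ᵥ a)) • a := rfl

theorem dot_R {m : ℕ} (a v x : Fin m → ℝ) :
    v ⬝ᵥ (R a x) = v ⬝ᵥ x - (2 * (a ⬝ᵥ x) / (a ⬝ᵥ a)) * (v ⬝ᵥ a) := by
  rw [R_apply, dotProduct_sub, dotProduct_smul, smul_eq_mul]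

theorem dot_R_self {m : ℕ} {a : Fin m → ℝ} (ha : a ≠ 0) (x : Fin m → ℝ) :
    a ⬝ᵥ (R a x) = -(a ⬝ᵥ x) := by
  have h : a ⬝ᵥ a ≠ 0 := fun h => ha (dotProduct_self_eq_zero.1 h)
  rw [dot_R]
  field_simp
  ring

theorem R_inv {m : ℕ} {a : Fin m → ℝ} (ha : a ≠ 0) (x : Fin m → ℝ) : R a (R a x) = x := by
  rw [R_apply a (R a x), dot_R_self ha, R_apply]
  ext k
  simp only [Pi.sub_apply, Pi.smul_apply, smul_eq_mul]
  ring

theorem cont_dot {m : ℕ} (v : Fin m → ℝ) : Continuous fun x : Fin m → ℝ => v ⬝ᵥ x := by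
  unfold dotProduct
  fun_prop

/-- `∫ (v·x) = 0` for the normals, and the eigenvector equation. -/
theorem first {m : ℕ} {a : Fin m → ℝ} (ha : a ≠ 0) {K : Set (Fin m → ℝ)}
    (hinv : RefInv a K) : ∫ x in K, a ⬝ᵥ x = 0 := by
  have h := Perm.SymInt.int_inv (R a) (R_inv ha) (K := K) (fun x hx => hinv x hx)
    (fun x => a ⬝ᵥ x)
  simp only [dot_R_self ha] at h
  rw [integral_neg] at h
  linarith

theorem second {m : ℕ} {a : Fin m → ℝ} (ha : a ≠ 0) {K : Set (Fin m → ℝ)} (hK : IsCompact K)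
    (hinv : RefInv a K) (v : Fin m → ℝ) :
    ∫ x in K, (a ⬝ᵥ x) * (v ⬝ᵥ x) =
      ((∫ x in K, (a ⬝ᵥ x) * (a ⬝ᵥ x)) / (a ⬝ᵥ a)) * (v ⬝ᵥ a) := by
  have hne : a ⬝ᵥ a ≠ 0 := fun h => ha (dotProduct_self_eq_zero.1 h)
  have h := Perm.SymInt.int_inv (R a) (R_inv ha) (K := K) (fun x hx => hinv x hx)
    (fun x => (a ⬝ᵥ x) * (v ⬝ᵥ x))
  simp only [dot_R_self ha, dot_R a v] at h
  have i1 : Integrable (fun x : Fin m → ℝ => (a ⬝ᵥ x) * (v ⬝ᵥ x)) (volume.restrict K) :=
    ((cont_dot a).mul (cont_dot v)).continuousOn.integrableOn_compact hK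
  have i2 : Integrable (fun x : Fin m → ℝ => (a ⬝ᵥ x) * (a ⬝ᵥ x)) (volume.restrict K) :=
    ((cont_dot a).mul (cont_dot a)).continuousOn.integrableOn_compact hK
  have e : ∀ x : Fin m → ℝ, -(a ⬝ᵥ x) * (v ⬝ᵥ x - 2 * (a ⬝ᵥ x) / (a ⬝ᵥ a) * (v ⬝ᵥ a)) =
      (2 * (v ⬝ᵥ a) / (a ⬝ᵥ a)) * ((a ⬝ᵥ x) * (a ⬝ᵥ x)) - (a ⬝ᵥ x) * (v ⬝ᵥ x) := by
    intro x
    field_simp
    ring
  simp only [e] at h
  rw [integral_sub (i2.const_mul _) i1, integral_const_mul] at h
  have h2 : ∫ x in K, (a ⬝ᵥ x) * (v ⬝ᵥ x) =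
      (1 / 2) * ((2 * (v ⬝ᵥ a) / (a ⬝ᵥ a)) * ∫ x in K, (a ⬝ᵥ x) * (a ⬝ᵥ x)) := by
    linarith
  rw [h2]
  field_simp

end IM490

open IM490 in
/-- [I1] the moments up to order two -/
theorem irr_mom {m : ℕ} {ι : Type} [Fintype ι] (hcard : Fintype.card ι = m)
    (a : ι → (Fin m → ℝ)) (hli : LinearIndependent ℝ a) (hcon : (gr a).Connected)
    {K : Set (Fin m → ℝ)} (hK : IsCompact K) (hinv : ∀ i, RefInv (a i) K) :
    (∀ i, ∫ x in K, x i = 0) ∧ ∃ J : ℝ, ∀ i j, ∫ x in K, x i * x j = if i = j then J else 0 := by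
  classical
  have hne : ∀ i, a i ≠ 0 := fun i => hli.ne_zero i
  have : Nonempty ι := hcon.nonempty
  have hspan : Submodule.span ℝ (range a) = ⊤ :=
    hli.span_eq_top_of_card_eq_finrank (by rw [hcard, Module.finrank_fin_fun])
  have hint1 : ∀ j : Fin m, Integrable (fun x : Fin m → ℝ => x j) (volume.restrict K) :=
    fun j => (continuous_apply j).continuousOn.integrableOn_compact hK
  have hint2 : ∀ j k : Fin m, Integrable (fun x : Fin m → ℝ => x j * x k)
      (volume.restrict K) :=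
    fun j k => ((continuous_apply j).mul (continuous_apply k)).continuousOn.integrableOn_compact hK
  -- the moments as a matrix
  set S : Matrix (Fin m) (Fin m) ℝ := fun j k => ∫ x in K, x j * x k with hS
  set lam : ι → ℝ := fun i => (∫ x in K, (a i ⬝ᵥ x) * (a i ⬝ᵥ x)) / (a i ⬝ᵥ a i) with hlam
  have hSa : ∀ i, S *ᵥ a i = lam i • a i := by
    intro i
    ext k
    have h := second (hne i) hK (hinv i) (Pi.single k 1)
    simp only [single_dotProduct, one_mul] at h
    have h2 : ∫ x in K, (a i ⬝ᵥ x) * x k = (S *ᵥ a i) k := by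
      simp only [mulVec, dotProduct, hS]
      have h3 : ∀ x : Fin m → ℝ, (∑ j, a i j * x j) * x k = ∑ j, a i j * (x k * x j) := by
        intro x
        rw [Finset.sum_mul]
        refine Finset.sum_congr rfl fun j _ => ?_
        ring
      simp only [h3]
      rw [integral_finsetSum _ fun j _ => (hint2 k j).const_mul _]
      refine Finset.sum_congr rfl fun j _ => ?_
      rw [integral_const_mul]
      ring
    rw [← h2, h]
    simp only [Pi.smul_apply, smul_eq_mul, hlam]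
  have hadj : ∀ i j, (gr a).Adj i j → lam i = lam j := by
    intro i j hij
    have hsym : a j ⬝ᵥ (S *ᵥ a i) = a i ⬝ᵥ (S *ᵥ a j) := by
      rw [dotProduct_mulVec, dotProduct_comm]
      congr 1
      have hST : Sᵀ = S := by
        ext p q
        simp only [hS]
        exact integral_congr_ae (Filter.Eventually.of_forall fun x => mul_comm _ _)
      rw [← mulVec_transpose, hST]
    rw [hSa, hSa, dotProduct_smul, dotProduct_smul, smul_eq_mul, smul_eq_mul,
      dotProduct_comm (a j) (a i)] at hsym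
    exact mul_right_cancel₀ hij.2 hsym
  have hconst : ∀ i j, lam i = lam j := by
    intro i j
    obtain ⟨w⟩ := hcon.preconnected i j
    induction w with
    | nil => rfl
    | cons h p ih => exact (hadj _ _ h).trans ih
  obtain ⟨i₀⟩ := ‹Nonempty ι›
  have hSJ : S = lam i₀ • (1 : Matrix (Fin m) (Fin m) ℝ) := by
    have h1 : S.mulVecLin = (lam i₀ • (1 : Matrix (Fin m) (Fin m) ℝ)).mulVecLin := by
      refine LinearMap.ext_on hspan ?_
      rintro _ ⟨i, rfl⟩
      rw [mulVecLin_apply, mulVecLin_apply, hSa, smul_mulVec, one_mulVec, hconst i i₀]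
    have h2 : toLin' S = toLin' (lam i₀ • (1 : Matrix (Fin m) (Fin m) ℝ)) := by
      rw [toLin'_apply', toLin'_apply', h1]
    exact toLin'.injective h2
  refine ⟨?_, lam i₀, ?_⟩
  · -- first moments
    set M : Fin m → ℝ := fun j => ∫ x in K, x j with hM
    have h1 : ∀ v : Fin m → ℝ, ∫ x in K, v ⬝ᵥ x = v ⬝ᵥ M := by
      intro v
      simp only [dotProduct, hM]
      rw [integral_finsetSum _ fun j _ => (hint1 j).const_mul _]
      refine Finset.sum_congr rfl fun j _ => ?_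
      rw [integral_const_mul]
    have h2 : ∀ i, a i ⬝ᵥ M = 0 := fun i => by rw [← h1]; exact first (hne i) (hinv i)
    have h3 : ∀ v : Fin m → ℝ, v ⬝ᵥ M = 0 := by
      intro v
      have hv : v ∈ Submodule.span ℝ (range a) := by rw [hspan]; trivial
      induction hv using Submodule.span_induction with
      | mem x hx => obtain ⟨i, rfl⟩ := hx; exact h2 i
      | zero => exact zero_dotProduct _
      | add x y _ _ hx hy => rw [add_dotProduct, hx, hy, add_zero]
      | smul c x _ hx => rw [smul_dotProduct, hx, smul_zero]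
    intro i
    have h4 := h3 (Pi.single i 1)
    rw [single_dotProduct, one_mul] at h4
    exact h4
  · intro i j
    have h1 : S i j = (lam i₀ • (1 : Matrix (Fin m) (Fin m) ℝ)) i j := by rw [← hSJ]
    rw [Matrix.smul_apply, one_apply, smul_eq_mul, mul_ite, mul_one, mul_zero] at h1
    exact h1

end Vale.Agent.P254.Fib
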