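import Vale.Agent.P254.Fib.IrrDefs
import Mathlib.Analysis.InnerProductSpace.PiL2
import Mathlib.LinearAlgebra.Matrix.NonsingularInverse

/-! P254/Fib, leaf I2: an orthogonal matrix which moves `m` vectors of `ℝ^(m+1)` into the
hyperplane `x 0 = 0`. -/

open MeasureTheory Set Matrix

namespace Vale.Agent.P254.Fib

namespace HOrth102

theorem exists_perp {m : ℕ} {ι : Type} [Fintype ι] (hcard : Fintype.card ι = m)
    (a : ι → (Fin (m + 1) → ℝ)) : ∃ x : Fin (m + 1) → ℝ, x ≠ 0 ∧ ∀ i, a i ⬝ᵥ x = 0 := by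
  have h : LinearMap.ker (Matrix.mulVecLin (Matrix.of a)) ≠ ⊥ := by
    apply LinearMap.ker_ne_bot_of_finrank_lt
    simp [hcard]
  obtain ⟨x, hx, hx0⟩ := (Submodule.ne_bot_iff _).1 h
  refine ⟨x, hx0, fun i => ?_⟩
  have h1 : Matrix.of a *ᵥ x = 0 := by simpa using hx
  exact congrFun h1 i

end HOrth102

/-- [I2] -/
theorem exists_orth {m : ℕ} {ι : Type} [Fintype ι] (hcard : Fintype.card ι = m)
    (a : ι → (Fin (m + 1) → ℝ)) :
    ∃ O : Matrix (Fin (m + 1)) (Fin (m + 1)) ℝ, O * Oᵀ = 1 ∧ Oᵀ * O = 1 ∧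
      ∀ i, (O *ᵥ a i) 0 = 0 := by
  obtain ⟨x, hx0, hx⟩ := HOrth102.exists_perp hcard a
  set y : EuclideanSpace ℝ (Fin (m + 1)) := WithLp.toLp 2 x with hy
  have hy0 : y ≠ 0 := by
    intro h
    apply hx0
    have : y.ofLp = 0 := by rw [h]; rfl
    simpa [hy] using this
  have hyn : ‖y‖ ≠ 0 := norm_ne_zero_iff.2 hy0
  set u : EuclideanSpace ℝ (Fin (m + 1)) := ‖y‖⁻¹ • y with hu
  have hun : ‖u‖ = 1 := by
    rw [hu, norm_smul, norm_inv, norm_norm, inv_mul_cancel₀ hyn]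
  have hon : Orthonormal ℝ (({0} : Set (Fin (m + 1))).domRestrict
      (fun _ : Fin (m + 1) => u)) := by
    constructor
    · intro i; exact hun
    · intro i j hij
      exact absurd (Subtype.ext (i.2.trans j.2.symm)) hij
  obtain ⟨b, hb⟩ := hon.exists_orthonormalBasis_extension_of_card_eq (by simp)
  have hb0 : b 0 = u := hb 0 rfl
  have h1 : (Matrix.of fun i j => b i j) * (Matrix.of fun i j => b i j)ᵀ =
      (1 : Matrix (Fin (m + 1)) (Fin (m + 1)) ℝ) := by
    ext i j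
    rw [Matrix.mul_apply, Matrix.one_apply]
    have h2 := orthonormal_iff_ite.1 b.orthonormal j i
    rw [PiLp.inner_apply] at h2
    simp only [Matrix.of_apply, Matrix.transpose_apply]
    rw [show (if i = j then (1 : ℝ) else 0) = if j = i then 1 else 0 by
      simp only [eq_comm]]
    rw [← h2]
    apply Finset.sum_congr rfl
    intro k _
    simp
  refine ⟨Matrix.of fun i j => b i j, h1, _root_.mul_eq_one_comm.1 h1, fun i => ?_⟩
  have h3 : ((Matrix.of fun i j => b i j) *ᵥ a i) 0 = ∑ k, b 0 k * a i k := rfl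
  rw [h3, hb0]
  have h4 : ∑ k, u k * a i k = ‖y‖⁻¹ * (a i ⬝ᵥ x) := by
    rw [dotProduct, Finset.mul_sum]
    apply Finset.sum_congr rfl
    intro k _
    simp [hu, hy]
    ring
  rw [h4, hx i, mul_zero]

end Vale.Agent.P254.Fib
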