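import Vale.Agent.P254.Fib.Irr598
import Vale.Agent.P254.Fib.IrrMom
import Vale.Agent.P254.Fib.IrrOrth
import Vale.Agent.P254.Fib.IrrFib
import Vale.Agent.P254.Fib.Good0

/-!
P254: the conjecture for convex bodies with the symmetries of an irreducible system of hyperplanes.
-/

open MeasureTheory Set Matrix

namespace Vale.Agent.P254.Fib

open Vale.Agent.P254.FV (Good Dn simpC)

/-- [I5] the irreducible case, from `good0`, [I1]-[I4] by induction on `m` -/
theorem irr (m : ℕ) (hm : 1 ≤ m) {ι : Type} [Fintype ι] (hcard : Fintype.card ι = m)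
    (a : ι → (Fin m → ℝ)) (hli : LinearIndependent ℝ a) (hcon : (gr a).Connected)
    {K : Set (Fin m → ℝ)} (hK : IsConvexBody K) (hinv : ∀ i, RefInv (a i) K) : Good K :=
  H598.irr_of (fun {_} hm {_} hK Q h1 h2 h3 => good0 hm hK Q h1 h2 h3)
    (fun {_} {_} _ hcard a hli hcon {_} hK hinv => irr_mom hcard a hli hcon hK hinv)
    (fun {_} {_} _ hcard a => exists_orth hcard a) (fun {_} _ _ G h => exists_noncut G h)
    (fun {_} {_} a {_} h1 h2 {_} i h0 hinv s => fib_inv a h1 h2 i h0 hinv s) m hm hcard a hli hcon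
    hK hinv

end Vale.Agent.P254.Fib
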