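import Vale.Agent.P254.Fib.Space
import Vale.Agent.P254.Fib.IrrDefs
import Vale.Agent.P254.Perm.EqOne

/-!
P254: bodies with the symmetries of an irreducible system of hyperplanes, by induction.
-/

open MeasureTheory Set Matrix

namespace Vale.Agent.P254.Fib.H598

open Vale.Agent.P254.FV (Good Dn simpC)

theorem good_one {K : Set (Fin 1 → ℝ)} (hK : IsConvexBody K) : Good K := by
  have hS : IsSimplex K := Perm.simplex_of_one hK.1 hK.2.1 (FV.vol_pos hK)
  refine FV.good_of le_rfl hK fun S hS' => ?_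
  have e : isoConst K = isoConst S := by rw [isoConst_simplex hS, isoConst_simplex hS']
  exact ⟨e.le, fun _ => hS, fun _ => e⟩

theorem body_aff {n : ℕ} {K : Set (Fin n → ℝ)} (hK : IsConvexBody K)
    {A : Matrix (Fin n) (Fin n) ℝ} (hA : A.det ≠ 0) (b : Fin n → ℝ) :
    IsConvexBody (P254.aff A b '' K) := by
  have hV := (FV.vol_pos hK).ne'
  refine FV.body_of_vol ?_ (isCompact_aff_image A b hK.2.1) ?_
  · rw [← coe_affMap]
    exact hK.1.affine_image _
  · rw [volume_aff_image hA b hK.2.1.measurableSet]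
    exact mul_ne_zero (abs_ne_zero.2 hA) hV

theorem dot_tail {m : ℕ} {x y : Fin (m + 1) → ℝ} (hx : x 0 = 0) :
    Fin.tail x ⬝ᵥ Fin.tail y = x ⬝ᵥ y := by
  simp only [dotProduct, Fin.sum_univ_succ, hx, zero_mul, zero_add, Fin.tail]

theorem dot_orth {n : ℕ} {O : Matrix (Fin n) (Fin n) ℝ} (h2 : Oᵀ * O = 1) (x y : Fin n → ℝ) :
    (O *ᵥ x) ⬝ᵥ (O *ᵥ y) = x ⬝ᵥ y := by
  rw [dotProduct_mulVec, vecMul_mulVec, h2, vecMul_one]

theorem irr_of
    (good0 : ∀ {m : ℕ}, 1 ≤ m → ∀ {K : Set (Fin (m + 1) → ℝ)}, IsConvexBody K →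
      ∀ Q : Matrix (Fin m) (Fin m) ℝ,
      (∀ s, 0 < (volume (fib K s)).toReal → Good (fib K s)) →
      (∀ s, 0 < (volume (fib K s)).toReal → centroid (fib K s) = 0) →
      (∀ s, 0 < (volume (fib K s)).toReal → ∃ t : ℝ, covMatrix (fib K s) = t • Q) → Good K)
    (irr_mom : ∀ {m : ℕ} {ι : Type} [Fintype ι], Fintype.card ι = m →
      ∀ a : ι → (Fin m → ℝ), LinearIndependent ℝ a → (gr a).Connected →
      ∀ {K : Set (Fin m → ℝ)}, IsCompact K → (∀ i, RefInv (a i) K) →
      (∀ i, ∫ x in K, x i = 0) ∧ ∃ J : ℝ, ∀ i j, ∫ x in K, x i * x j = if i = j then J else 0)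
    (exists_orth : ∀ {m : ℕ} {ι : Type} [Fintype ι], Fintype.card ι = m →
      ∀ a : ι → (Fin (m + 1) → ℝ),
      ∃ O : Matrix (Fin (m + 1)) (Fin (m + 1)) ℝ, O * Oᵀ = 1 ∧ Oᵀ * O = 1 ∧
        ∀ i, (O *ᵥ a i) 0 = 0)
    (exists_noncut : ∀ {ι : Type} [Fintype ι] [Nontrivial ι] (G : SimpleGraph ι),
      G.Connected → ∃ i : ι, (G.induce {j | j ≠ i}).Connected)
    (fib_inv : ∀ {m : ℕ} {ι : Type} (a : ι → (Fin (m + 1) → ℝ))
      {O : Matrix (Fin (m + 1)) (Fin (m + 1)) ℝ}, O * Oᵀ = 1 → Oᵀ * O = 1 →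
      ∀ {K : Set (Fin (m + 1) → ℝ)} (i : ι), (O *ᵥ a i) 0 = 0 → RefInv (a i) K → ∀ s : ℝ,
      RefInv (Fin.tail (O *ᵥ a i)) (fib ((fun x => O *ᵥ x + 0) '' K) s))
    (m : ℕ) (hm : 1 ≤ m) : ∀ {ι : Type} [Fintype ι], Fintype.card ι = m →
      ∀ a : ι → (Fin m → ℝ), LinearIndependent ℝ a → (gr a).Connected →
      ∀ {K : Set (Fin m → ℝ)}, IsConvexBody K → (∀ i, RefInv (a i) K) → Good K := by
  induction m, hm using Nat.le_induction with
  | base =>
    intro ι _ _ a _ _ K hK _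
    exact good_one hK
  | succ m hm ih =>
    intro ι _ hcard a hli hcon K hK hinv
    classical
    have : Nontrivial ι := Fintype.one_lt_card_iff_nontrivial.1 (by omega)
    obtain ⟨i₀, hi₀⟩ := exists_noncut (gr a) hcon
    have hcard' : Fintype.card {j // j ∈ {j : ι | j ≠ i₀}} = m := by
      have h := Fintype.card_subtype_compl (fun j : ι => j = i₀)
      rw [Fintype.card_subtype_eq, hcard] at h
      have h' : Fintype.card {j // j ∈ {j : ι | j ≠ i₀}} = Fintype.card {j : ι // ¬ j = i₀} :=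
        Fintype.card_congr (Equiv.refl _)
      omega
    let a' : {j // j ∈ {j : ι | j ≠ i₀}} → (Fin (m + 1) → ℝ) := fun i => a i.1
    obtain ⟨O, h1, h2, h3⟩ := exists_orth hcard' a'
    have hdet : O.det * Oᵀ.det = 1 := by rw [← det_mul, h1, det_one]
    have hO : O.det ≠ 0 := left_ne_zero_of_mul_eq_one hdet
    have hOt : Oᵀ.det ≠ 0 := right_ne_zero_of_mul_eq_one hdet
    have hK' : IsConvexBody ((fun x => O *ᵥ x + 0) '' K) := body_aff hK hO 0
    have hback : P254.aff Oᵀ 0 '' ((fun x => O *ᵥ x + 0) '' K) = K := by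
      rw [image_image]
      have e : ∀ x, P254.aff Oᵀ 0 (O *ᵥ x + 0) = x := by
        intro x
        simp [P254.aff, mulVec_mulVec, h2]
      simp only [e, image_id']
    -- the projected normals
    set b : {j // j ∈ {j : ι | j ≠ i₀}} → (Fin m → ℝ) := fun i => Fin.tail (O *ᵥ a' i) with hb
    have hli' : LinearIndependent ℝ b := by
      let c0 : (Fin m → ℝ) →ₗ[ℝ] (Fin (m + 1) → ℝ) :=
        { toFun := fun y => Fin.cons 0 y
          map_add' := fun y z => by
            ext i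
            refine Fin.cases ?_ (fun j => ?_) i
            · simp
            · simp
          map_smul' := fun t y => by
            ext i
            refine Fin.cases ?_ (fun j => ?_) i
            · simp
            · simp }
      have e : (((Oᵀ).mulVecLin).comp c0) ∘ b = a' := by
        ext i : 1
        have e1 : (Fin.cons 0 (Fin.tail (O *ᵥ a' i)) : Fin (m + 1) → ℝ) = O *ᵥ a' i := by
          rw [← h3 i]
          exact Fin.cons_self_tail _
        show Oᵀ *ᵥ (Fin.cons 0 (Fin.tail (O *ᵥ a' i)) : Fin (m + 1) → ℝ) = a' i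
        rw [e1, mulVec_mulVec, h2, one_mulVec]
      apply LinearIndependent.of_comp (((Oᵀ).mulVecLin).comp c0)
      rw [e]
      exact hli.comp _ Subtype.val_injective
    have hcon' : (gr b).Connected := by
      have e : gr b = (gr a).induce {j : ι | j ≠ i₀} := by
        ext i j
        have e1 : b i ⬝ᵥ b j = a i.1 ⬝ᵥ a j.1 := by
          rw [hb]
          show Fin.tail (O *ᵥ a' i) ⬝ᵥ Fin.tail (O *ᵥ a' j) = _
          rw [dot_tail (h3 i), dot_orth h2]
        show (i ≠ j ∧ b i ⬝ᵥ b j ≠ 0) ↔ (i.1 ≠ j.1 ∧ a i.1 ⬝ᵥ a j.1 ≠ 0)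
        rw [e1, Ne, Ne, Subtype.ext_iff]
      rw [e]
      exact hi₀
    have hF : ∀ s, IsCompact (fib ((fun x => O *ᵥ x + 0) '' K) s) := fun s =>
      compact_fib hK'.2.1 s
    have hI : ∀ s i, RefInv (b i) (fib ((fun x => O *ᵥ x + 0) '' K) s) := fun s i =>
      fib_inv a' h1 h2 i (h3 i) (hinv i.1) s
    have hG : Good ((fun x => O *ᵥ x + 0) '' K) := by
      refine good0 hm hK' 1 (fun s hs => ?_) (fun s hs => ?_) (fun s hs => ?_)
      · exact ih hcard' b hli' hcon' (FV.body_of_vol (convex_fib hK'.1 s) (hF s) hs.ne') (hI s)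
      · obtain ⟨hm0, _⟩ := irr_mom hcard' b hli' hcon' (hF s) (hI s)
        ext i
        simp only [centroid, hm0 i, mul_zero, Pi.zero_apply]
      · obtain ⟨hm0, J, hJ⟩ := irr_mom hcard' b hli' hcon' (hF s) (hI s)
        refine ⟨(volume (fib ((fun x => O *ᵥ x + 0) '' K) s)).toReal⁻¹ * J, ?_⟩
        ext i j
        simp only [covMatrix, centroid, hm0, mul_zero, sub_zero, hJ, Matrix.smul_apply, smul_eq_mul,
          Matrix.one_apply]
        split_ifs <;> ring
    have h4 := hG.aff hOt 0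
    rwa [hback] at h4

end Vale.Agent.P254.Fib.H598
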