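import Vale.Agent.P254.Fib.IrrDefs
import Mathlib.Analysis.Convex.Measure

/-!
P254/Fib, leaf I6, core: from the bound for the determinant of the covariance matrix to the bound
for the second moments; compact convex sets, possibly of volume zero.
-/

open MeasureTheory Set Matrix

namespace Vale.Agent.P254.Fib.H945

theorem body_of_pos {m : ℕ} {K : Set (Fin m → ℝ)} (hc : Convex ℝ K) (hK : IsCompact K)
    (hV : 0 < (volume K).toReal) : IsConvexBody K := by
  refine ⟨hc, hK, ?_⟩
  by_contra h
  rw [not_nonempty_iff_eq_empty] at h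
  have h1 : frontier K = K := by rw [hK.isClosed.frontier_eq, h, sdiff_empty]
  have h2 := hc.addHaar_frontier (volume : Measure (Fin m → ℝ))
  rw [h1] at h2
  rw [h2] at hV
  simp at hV

/-- the bound for the second moments from the bound for the determinant -/
theorem bd_of_det {m : ℕ} (hm : 1 ≤ m) {K : Set (Fin m → ℝ)} (hc : Convex ℝ K) (hK : IsCompact K)
    {C : ℝ} (hmom : (∀ i, ∫ x in K, x i = 0) ∧
      ∃ J : ℝ, ∀ i j, ∫ x in K, x i * x j = if i = j then J else 0)
    (hD : IsConvexBody K → (covMatrix K).det / (volume K).toReal ^ 2 ≤ C) (i : Fin m) :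
    (∫ x in K, x i ^ 2) ^ m ≤ C * (volume K).toReal ^ (m + 2) := by
  obtain ⟨h0, J, hJ⟩ := hmom
  have hJi : ∫ x in K, x i ^ 2 = J := by
    have := hJ i i
    rw [if_pos rfl] at this
    rw [← this]
    congr 1
    ext x
    ring
  rcases (ENNReal.toReal_nonneg (a := volume K)).eq_or_lt with hV | hV
  · have hfin : volume K ≠ ⊤ := hK.measure_lt_top.ne
    have hV0 : volume K = 0 := by
      rcases (ENNReal.toReal_eq_zero_iff _).1 hV.symm with h | h
      · exact h
      · exact absurd h hfin
    have h2 : ∫ x in K, x i ^ 2 = 0 := by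
      rw [Measure.restrict_eq_zero.2 hV0, integral_zero_measure]
    rw [h2, ← hV, zero_pow (by omega), zero_pow (by omega), mul_zero]
  · have hb := body_of_pos hc hK hV
    have hcen : centroid K = 0 := by
      ext j
      simp only [centroid, h0 j, mul_zero, Pi.zero_apply]
    have hcov : covMatrix K = ((volume K).toReal⁻¹ * J) • (1 : Matrix (Fin m) (Fin m) ℝ) := by
      ext p q
      simp only [covMatrix, hcen, Pi.zero_apply, sub_zero, hJ p q, Matrix.smul_apply,
        Matrix.one_apply, smul_eq_mul]
      split_ifs <;> ring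
    have h3 := hD hb
    rw [hcov, det_smul, det_one, mul_one, Fintype.card_fin, div_le_iff₀ (by positivity)] at h3
    rw [hJi]
    have h4 : J ^ m = ((volume K).toReal⁻¹ * J) ^ m * (volume K).toReal ^ m := by
      rw [← mul_pow]
      congr 1
      field_simp
    rw [h4, pow_add, ← mul_assoc, mul_right_comm]
    exact mul_le_mul_of_nonneg_right h3 (by positivity)

end Vale.Agent.P254.Fib.H945
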