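import Vale.Agent.P254.Fib.Irr598
import Vale.Agent.P254.Fib.Good0
import Vale.Agent.P254.Fib.IrrMom
import Vale.Agent.P254.Fib.IrrOrth
import Vale.Agent.P254.Fib.IrrFib
import Vale.Agent.P254.Fib.IrrBd945

/-!
P254/Fib, leaf I6: the bound for the second moments of compact convex sets which are invariant
under an irreducible system of reflections.
-/

open MeasureTheory Set Matrix

namespace Vale.Agent.P254.Fib

open Vale.Agent.P254.FV (Good Dn simpC)

/-- the irreducible case -/
theorem H945.irr (m : ℕ) (hm : 1 ≤ m) {ι : Type} [Fintype ι] (hcard : Fintype.card ι = m)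
    (a : ι → (Fin m → ℝ)) (hli : LinearIndependent ℝ a) (hcon : (gr a).Connected)
    {K : Set (Fin m → ℝ)} (hK : IsConvexBody K) (hinv : ∀ i, RefInv (a i) K) : Good K :=
  H598.irr_of (fun {_} hm {_} hK Q => good0 hm hK Q)
    (fun {_ _} _ hcard a hli hcon {_} hK hinv => irr_mom hcard a hli hcon hK hinv)
    (fun {_ _} _ hcard a => exists_orth hcard a)
    (fun {_} _ _ G h => exists_noncut G h)
    (fun {_ _} a {_} h1 h2 {_} i h0 hinv s => fib_inv a h1 h2 i h0 hinv s)
    m hm hcard a hli hcon hK hinv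

/-- [I6] compact convex sets, possibly of volume zero -/
theorem irr_bd (m : ℕ) (hm : 1 ≤ m) {ι : Type} [Fintype ι] (hcard : Fintype.card ι = m)
    (a : ι → (Fin m → ℝ)) (hli : LinearIndependent ℝ a) (hcon : (gr a).Connected)
    {K : Set (Fin m → ℝ)} (hc : Convex ℝ K) (hK : IsCompact K) (hinv : ∀ i, RefInv (a i) K)
    (i : Fin m) : (∫ x in K, x i ^ 2) ^ m ≤ simpC m * (volume K).toReal ^ (m + 2) :=
  H945.bd_of_det hm hc hK (irr_mom hcard a hli hcon hK hinv)
    (fun hb => (H945.irr m hm hcard a hli hcon hb hinv).le) i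

end Vale.Agent.P254.Fib
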