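import Vale.Agent.P254.FV.Pyr3
import Vale.Agent.P254.Fib.IrrDefs

/-!
P254/Fib: [I6] compact convex sets invariant under an irreducible system of reflections
(possibly of volume zero), from the statements [I5] `irr` and [I1] `irr_mom`.
-/

open MeasureTheory Set Matrix

namespace Vale.Agent.P254.Fib.H637

open Vale.Agent.P254.FV (Dn simpC)

/-- the covariance matrix of a centred set whose second moments are diagonal -/
theorem cov_scalar {m : ℕ} {K : Set (Fin m → ℝ)} (h0 : ∀ i, ∫ x in K, x i = 0) {J : ℝ}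
    (hJ : ∀ i j, ∫ x in K, x i * x j = if i = j then J else 0) :
    covMatrix K = (J / (volume K).toReal) • (1 : Matrix (Fin m) (Fin m) ℝ) := by
  have hc : ∀ i, centroid K i = 0 := fun i => by simp [centroid, h0 i]
  ext i j
  have h1 : covMatrix K i j = (volume K).toReal⁻¹ * ∫ x in K, x i * x j := by
    simp [covMatrix, hc]
  rw [h1, hJ i j, Matrix.smul_apply, Matrix.one_apply, smul_eq_mul]
  by_cases hij : i = j
  · simp [hij]; ring
  · simp [hij]

theorem Dn_scalar {m : ℕ} {K : Set (Fin m → ℝ)} (h0 : ∀ i, ∫ x in K, x i = 0) {J : ℝ}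
    (hJ : ∀ i j, ∫ x in K, x i * x j = if i = j then J else 0) :
    Dn K = J ^ m / (volume K).toReal ^ (m + 2) := by
  rw [Dn, cov_scalar h0 hJ, Matrix.det_smul, Matrix.det_one, mul_one, Fintype.card_fin, div_pow,
    div_div, ← pow_add]

/-- from a bound for the normalised determinant to a bound for the second moment; sets of volume
zero included -/
theorem bd_of {m : ℕ} (hm : 1 ≤ m) {K : Set (Fin m → ℝ)}
    (hmom : (∀ i, ∫ x in K, x i = 0) ∧
      ∃ J : ℝ, ∀ i j, ∫ x in K, x i * x j = if i = j then J else 0)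
    (hD : 0 < (volume K).toReal → Dn K ≤ simpC m)
    (hfin : volume K ≠ ⊤) (i : Fin m) :
    (∫ x in K, x i ^ 2) ^ m ≤ simpC m * (volume K).toReal ^ (m + 2) := by
  obtain ⟨h0, J, hJ⟩ := hmom
  have hi : (∫ x in K, x i ^ 2) = J := by
    have := hJ i i
    simpa [sq] using this
  rw [hi]
  rcases (ENNReal.toReal_nonneg (a := volume K)).eq_or_lt' with h | h
  · have hv : volume K = 0 := by
      rcases (ENNReal.toReal_eq_zero_iff _).1 h with h1 | h1
      · exact h1
      · exact absurd h1 hfin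
    have hJ0 : J = 0 := by
      rw [← hi, Measure.restrict_eq_zero.2 hv]
      simp
    rw [hJ0, h, zero_pow (by omega), zero_pow (by omega), mul_zero]
  · have h1 := hD h
    rw [Dn_scalar h0 hJ, div_le_iff₀ (by positivity)] at h1
    exact h1

/-- [I6] from [I5] and [I1] -/
theorem irr_bd_of (m : ℕ) (hm : 1 ≤ m) {ι : Type} [Fintype ι] (_hcard : Fintype.card ι = m)
    (a : ι → (Fin m → ℝ)) (_hli : LinearIndependent ℝ a) (_hcon : (gr a).Connected)
    {K : Set (Fin m → ℝ)} (hc : Convex ℝ K) (hK : IsCompact K) (_hinv : ∀ i, RefInv (a i) K)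
    (hirr : IsConvexBody K → Dn K ≤ simpC m)
    (hmom : (∀ i, ∫ x in K, x i = 0) ∧
      ∃ J : ℝ, ∀ i j, ∫ x in K, x i * x j = if i = j then J else 0)
    (i : Fin m) : (∫ x in K, x i ^ 2) ^ m ≤ simpC m * (volume K).toReal ^ (m + 2) :=
  bd_of hm hmom (fun h => hirr (FV.body_of_vol hc hK h.ne')) hK.measure_lt_top.ne i

end Vale.Agent.P254.Fib.H637
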