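import Vale.Agent.P254.Fib.Defs
import Vale.Agent.P254.Fib.IrrDefs

/-! P254: [I4], the fibres of the rotated body are invariant under the projected reflection. -/

open MeasureTheory Set Matrix

namespace Vale.Agent.P254.Fib.H408i

open Vale.Agent.P254.Fib

lemma dot_mul {n : ℕ} {O : Matrix (Fin n) (Fin n) ℝ} (h2 : Oᵀ * O = 1) (u v : Fin n → ℝ) :
    (O *ᵥ u) ⬝ᵥ (O *ᵥ v) = u ⬝ᵥ v := by
  rw [Matrix.dotProduct_mulVec, Matrix.vecMul_mulVec, ← Matrix.dotProduct_mulVec, h2, Matrix.one_mulVec]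

lemma dot_tail {m : ℕ} {b w : Fin (m + 1) → ℝ} (h0 : b 0 = 0) :
    Fin.tail b ⬝ᵥ Fin.tail w = b ⬝ᵥ w := by
  simp only [dotProduct, Fin.sum_univ_succ, h0, zero_mul, zero_add, Fin.tail]

/-- [I4] the fibres of the rotated body -/
theorem fib_inv {m : ℕ} {ι : Type} (a : ι → (Fin (m + 1) → ℝ))
    {O : Matrix (Fin (m + 1)) (Fin (m + 1)) ℝ} (h1 : O * Oᵀ = 1) (h2 : Oᵀ * O = 1)
    {K : Set (Fin (m + 1) → ℝ)} (i : ι) (h0 : (O *ᵥ a i) 0 = 0) (hinv : RefInv (a i) K) (s : ℝ) :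
    RefInv (Fin.tail (O *ᵥ a i)) (fib ((fun x => O *ᵥ x + 0) '' K) s) := by
  intro y hy
  obtain ⟨x, hx, hxy⟩ := hy
  simp only [add_zero] at hxy
  refine ⟨x - (2 * (a i ⬝ᵥ x) / (a i ⬝ᵥ a i)) • a i, hinv x hx, ?_⟩
  have hy' : y = Fin.tail (O *ᵥ x) := by rw [hxy, Fin.tail_cons]
  have hs : (O *ᵥ x) 0 = s := by rw [hxy, Fin.cons_zero]
  have e1 : Fin.tail (O *ᵥ a i) ⬝ᵥ y = a i ⬝ᵥ x := by
    rw [hy', dot_tail h0, dot_mul h2]
  have e2 : Fin.tail (O *ᵥ a i) ⬝ᵥ Fin.tail (O *ᵥ a i) = a i ⬝ᵥ a i := by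
    rw [dot_tail h0, dot_mul h2]
  rw [e1, e2]
  simp only [add_zero]
  rw [Matrix.mulVec_sub, Matrix.mulVec_smul]
  funext j
  refine Fin.cases ?_ (fun k => ?_) j
  · simp only [Pi.sub_apply, Pi.smul_apply, smul_eq_mul, h0, mul_zero, sub_zero, Fin.cons_zero]
    exact hs
  · simp only [Pi.sub_apply, Pi.smul_apply, smul_eq_mul, Fin.cons_succ, hy', Fin.tail]

end Vale.Agent.P254.Fib.H408i
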