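import Vale.Agent.P254.Fib.Irr

/-!
P254: the conjecture for convex bodies in `ℝ^(m+1)` with the symmetries of an irreducible system of
`m` hyperplanes.
-/

open MeasureTheory Set Matrix

namespace Vale.Agent.P254.Fib

open Vale.Agent.P254.FV (Good)

/-- [I7] `m` connected reflections in `ℝ^(m+1)` -/
theorem irr_free (m : ℕ) (hm : 1 ≤ m) {ι : Type} [Fintype ι] (hcard : Fintype.card ι = m)
    (a : ι → (Fin (m + 1) → ℝ)) (hli : LinearIndependent ℝ a) (hcon : (gr a).Connected)
    {K : Set (Fin (m + 1) → ℝ)} (hK : IsConvexBody K) (hinv : ∀ i, RefInv (a i) K) : Good K := by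
  obtain ⟨O, h1, h2, h3⟩ := exists_orth hcard a
  have hdet : O.det * Oᵀ.det = 1 := by rw [← det_mul, h1, det_one]
  have hO : O.det ≠ 0 := left_ne_zero_of_mul_eq_one hdet
  have hOt : Oᵀ.det ≠ 0 := right_ne_zero_of_mul_eq_one hdet
  have hK' : IsConvexBody ((fun x => O *ᵥ x + 0) '' K) := H598.body_aff hK hO 0
  have hback : P254.aff Oᵀ 0 '' ((fun x => O *ᵥ x + 0) '' K) = K := by
    rw [image_image]
    have e : ∀ x, P254.aff Oᵀ 0 (O *ᵥ x + 0) = x := by
      intro x
      simp [P254.aff, mulVec_mulVec, h2]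
    simp only [e, image_id']
  set b : ι → (Fin m → ℝ) := fun i => Fin.tail (O *ᵥ a i) with hb
  have hli' : LinearIndependent ℝ b := by
    let c0 : (Fin m → ℝ) →ₗ[ℝ] (Fin (m + 1) → ℝ) :=
      { toFun := fun y => Fin.cons 0 y
        map_add' := fun y z => by
          ext i
          refine Fin.cases ?_ (fun j => ?_) i
          · simp
          · simp
        map_smul' := fun t y => by
          ext i
          refine Fin.cases ?_ (fun j => ?_) i
          · simp
          · simp }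
    have e : (((Oᵀ).mulVecLin).comp c0) ∘ b = a := by
      ext i : 1
      have e1 : (Fin.cons 0 (Fin.tail (O *ᵥ a i)) : Fin (m + 1) → ℝ) = O *ᵥ a i := by
        rw [← h3 i]
        exact Fin.cons_self_tail _
      show Oᵀ *ᵥ (Fin.cons 0 (Fin.tail (O *ᵥ a i)) : Fin (m + 1) → ℝ) = a i
      rw [e1, mulVec_mulVec, h2, one_mulVec]
    apply LinearIndependent.of_comp (((Oᵀ).mulVecLin).comp c0)
    rw [e]
    exact hli
  have hcon' : (gr b).Connected := by
    have e : gr b = gr a := by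
      ext i j
      have e1 : b i ⬝ᵥ b j = a i ⬝ᵥ a j := by
        rw [hb]
        show Fin.tail (O *ᵥ a i) ⬝ᵥ Fin.tail (O *ᵥ a j) = _
        rw [H598.dot_tail (h3 i), H598.dot_orth h2]
      show (i ≠ j ∧ b i ⬝ᵥ b j ≠ 0) ↔ (i ≠ j ∧ a i ⬝ᵥ a j ≠ 0)
      rw [e1]
    rw [e]
    exact hcon
  have hF : ∀ s, IsCompact (fib ((fun x => O *ᵥ x + 0) '' K) s) := fun s =>
    H598.compact_fib hK'.2.1 s
  have hI : ∀ s i, RefInv (b i) (fib ((fun x => O *ᵥ x + 0) '' K) s) := fun s i =>
    fib_inv a h1 h2 i (h3 i) (hinv i) s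
  have hG : Good ((fun x => O *ᵥ x + 0) '' K) := by
    refine good0 hm hK' 1 (fun s hs => ?_) (fun s hs => ?_) (fun s hs => ?_)
    · exact irr m hm hcard b hli' hcon'
        (FV.body_of_vol (H598.convex_fib hK'.1 s) (hF s) hs.ne') (hI s)
    · obtain ⟨hm0, _⟩ := irr_mom hcard b hli' hcon' (hF s) (hI s)
      ext i
      simp only [centroid, hm0 i, mul_zero, Pi.zero_apply]
    · obtain ⟨hm0, J, hJ⟩ := irr_mom hcard b hli' hcon' (hF s) (hI s)
      refine ⟨(volume (fib ((fun x => O *ᵥ x + 0) '' K) s)).toReal⁻¹ * J, ?_⟩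
      ext i j
      simp only [covMatrix, centroid, hm0, mul_zero, sub_zero, hJ, Matrix.smul_apply, smul_eq_mul,
        Matrix.one_apply]
      split_ifs <;> ring
  have h4 := hG.aff hOt 0
  rwa [hback] at h4

end Vale.Agent.P254.Fib
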