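import Vale.Agent.P254.Fib.Good0
import Vale.Agent.P254.Fib.IrrMom
import Vale.Agent.P254.Fib.IrrFib
import Vale.Agent.P254.Fib.IrrOrth
import Vale.Agent.P254.Unc.DimOne

/-!
P254, [I7]: a convex body in `ℝ^(m+1)` with a connected system of `m` hyperplane symmetries with
linearly independent normals satisfies the isotropic constant conjecture (with its equality case).
The irreducible case `H504.irr` (`m` reflections in `ℝ^m`) is proved by the same step.
-/

open MeasureTheory Set Matrix

namespace Vale.Agent.P254.Fib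

open Vale.Agent.P254.FV (Good Dn simpC)

namespace H504

/-- A compact convex set of positive volume is a convex body. -/
theorem body_of_vol' {n : ℕ} {K : Set (Fin n → ℝ)} (hc : Convex ℝ K) (hK : IsCompact K)
    (hV : 0 < (volume K).toReal) : IsConvexBody K := by
  refine ⟨hc, hK, ?_⟩
  by_contra hne
  rw [not_nonempty_iff_eq_empty] at hne
  have : volume K = 0 := by
    have h8 := hc.addHaar_frontier (volume : Measure (Fin n → ℝ))
    have h9 : K ⊆ frontier K := by
      rw [hK.isClosed.frontier_eq, hne, sdiff_empty]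
    exact measure_mono_null h9 h8
  rw [this] at hV
  simp at hV

/-- dimension one -/
theorem good_dim_one {K : Set (Fin 1 → ℝ)} (hK : IsConvexBody K) : Good K := by
  have hs := isSimplex_of_dim_one hK
  refine FV.good_of le_rfl hK fun S hS => ?_
  have e : isoConst K = isoConst S := by rw [isoConst_simplex hS, isoConst_simplex hs]
  exact ⟨e.le, fun _ => hs, fun _ => e⟩

theorem fib_convex {m : ℕ} {K : Set (Fin (m + 1) → ℝ)} (hc : Convex ℝ K) (s : ℝ) :
    Convex ℝ (fib K s) := by
  intro x hx y hy a b ha hb hab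
  have h := hc hx hy ha hb hab
  have e : a • (Fin.cons s x : Fin (m + 1) → ℝ) + b • (Fin.cons s y : Fin (m + 1) → ℝ) =
      Fin.cons s (a • x + b • y) := by
    funext i
    refine Fin.cases ?_ (fun j => ?_) i
    · simp only [Pi.add_apply, Pi.smul_apply, Fin.cons_zero, smul_eq_mul]
      rw [← add_mul, hab, one_mul]
    · simp
  rw [e] at h
  exact h

theorem fib_compact {m : ℕ} {K : Set (Fin (m + 1) → ℝ)} (hK : IsCompact K) (s : ℝ) :
    IsCompact (fib K s) := by
  have e : fib K s = Fin.tail '' (K ∩ {x | x 0 = s}) := by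
    ext y
    constructor
    · intro hy
      exact ⟨Fin.cons s y, ⟨hy, by simp⟩, by simp⟩
    · rintro ⟨x, ⟨hx, hx0⟩, rfl⟩
      have : (Fin.cons s (Fin.tail x) : Fin (m + 1) → ℝ) = x := by
        rw [← (show x 0 = s from hx0), Fin.cons_self_tail]
      show (Fin.cons s (Fin.tail x) : Fin (m + 1) → ℝ) ∈ K
      rw [this]
      exact hx
  rw [e]
  refine (hK.inter_right (isClosed_eq (continuous_apply 0) continuous_const)).image ?_
  exact continuous_pi fun j => continuous_apply _

/-- orthogonal images of convex bodies -/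
theorem body_orth {n : ℕ} {O : Matrix (Fin n) (Fin n) ℝ} (h1 : O * Oᵀ = 1) (h2 : Oᵀ * O = 1)
    {K : Set (Fin n → ℝ)} (hK : IsConvexBody K) : IsConvexBody ((fun x => O *ᵥ x + 0) '' K) := by
  let e : (Fin n → ℝ) ≃ₜ (Fin n → ℝ) :=
    { toFun := fun x => O *ᵥ x
      invFun := fun x => Oᵀ *ᵥ x
      left_inv := fun x => by
        show Oᵀ *ᵥ (O *ᵥ x) = x
        rw [mulVec_mulVec, h2, one_mulVec]
      right_inv := fun x => by
        show O *ᵥ (Oᵀ *ᵥ x) = x
        rw [mulVec_mulVec, h1, one_mulVec]
      continuous_toFun := continuous_const.matrix_mulVec continuous_id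
      continuous_invFun := continuous_const.matrix_mulVec continuous_id }
  have he : (fun x => O *ᵥ x + 0) '' K = e '' K := by
    simp only [add_zero]
    rfl
  rw [he]
  refine ⟨?_, hK.2.1.image e.continuous, ?_⟩
  · have : (e '' K) = (Matrix.mulVecLin O) '' K := rfl
    rw [this]
    exact hK.1.linear_image _
  · rw [← e.image_interior]
    exact hK.2.2.image e

/-- the matrix of second moments of a section -/
theorem cov_of_mom {m : ℕ} {K : Set (Fin m → ℝ)} {J : ℝ} (h1 : ∀ i, ∫ x in K, x i = 0)
    (h2 : ∀ i j, ∫ x in K, x i * x j = if i = j then J else 0) :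
    centroid K = 0 ∧ covMatrix K = ((volume K).toReal⁻¹ * J) • (1 : Matrix (Fin m) (Fin m) ℝ) := by
  have hc : centroid K = 0 := by
    funext i
    simp only [centroid, h1, mul_zero, Pi.zero_apply]
  refine ⟨hc, ?_⟩
  ext i j
  simp only [covMatrix, hc, Pi.zero_apply, sub_zero, h2, Matrix.smul_apply, smul_eq_mul,
    Matrix.one_apply]
  split_ifs <;> simp

/-- The conjecture holds for all bodies in `ℝ^m` with a connected system of `m` reflections. -/
def IrrGood (m : ℕ) : Prop :=
  ∀ {ι : Type} [Fintype ι], Fintype.card ι = m →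
    ∀ a : ι → (Fin m → ℝ), LinearIndependent ℝ a → (gr a).Connected →
    ∀ {K : Set (Fin m → ℝ)}, IsConvexBody K → (∀ i, RefInv (a i) K) → Good K

/-- the step: `m` connected reflections in `ℝ^(m+1)` -/
theorem step {m : ℕ} (hm : 1 ≤ m) (ih : IrrGood m) {ι : Type} [Fintype ι]
    (hcard : Fintype.card ι = m) (a : ι → (Fin (m + 1) → ℝ)) (hli : LinearIndependent ℝ a)
    (hcon : (gr a).Connected) {K : Set (Fin (m + 1) → ℝ)} (hK : IsConvexBody K)
    (hinv : ∀ i, RefInv (a i) K) : Good K := by
  obtain ⟨O, h1, h2, h0⟩ := exists_orth hcard a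
  set b : ι → (Fin m → ℝ) := fun j => Fin.tail (O *ᵥ a j) with hb
  have hcons : ∀ j, (Fin.cons 0 (b j) : Fin (m + 1) → ℝ) = O *ᵥ a j := by
    intro j
    simp only [hb]
    rw [← h0 j, Fin.cons_self_tail]
  have hlib : LinearIndependent ℝ b := by
    have hker : LinearMap.ker (Matrix.mulVecLin O) = ⊥ := by
      rw [LinearMap.ker_eq_bot]
      intro x y hxy
      have : Oᵀ *ᵥ (O *ᵥ x) = Oᵀ *ᵥ (O *ᵥ y) := congrArg _ hxy
      rwa [mulVec_mulVec, mulVec_mulVec, h2, one_mulVec, one_mulVec] at this
    have l2 := hli.map' _ hker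
    let φ : (Fin m → ℝ) →ₗ[ℝ] (Fin (m + 1) → ℝ) :=
      { toFun := fun y => Fin.cons 0 y
        map_add' := fun x y => by
          funext i
          refine Fin.cases ?_ (fun j => ?_) i <;> simp
        map_smul' := fun c x => by
          funext i
          refine Fin.cases ?_ (fun j => ?_) i <;> simp }
    have l3 : LinearIndependent ℝ (φ ∘ b) := by
      have e : (φ ∘ b) = (Matrix.mulVecLin O) ∘ a := by
        funext j
        exact hcons j
      rw [e]
      exact l2
    exact LinearIndependent.of_comp φ l3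
  have hdot : ∀ i j, b i ⬝ᵥ b j = a i ⬝ᵥ a j := by
    intro i j
    show Fin.tail (O *ᵥ a i) ⬝ᵥ Fin.tail (O *ᵥ a j) = _
    rw [H972.dot_tail _ _ (h0 i), H972.dot_orth h2]
  have hconb : (gr b).Connected := by
    have hgr : gr b = gr a := by
      ext i j
      simp only [gr, hdot]
    rw [hgr]
    exact hcon
  set K' : Set (Fin (m + 1) → ℝ) := (fun x => O *ᵥ x + 0) '' K with hK'
  have hbody : IsConvexBody K' := body_orth h1 h2 hK
  have hbs : ∀ s, 0 < (volume (fib K' s)).toReal → IsConvexBody (fib K' s) := fun s hs =>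
    body_of_vol' (fib_convex hbody.1 s) (fib_compact hbody.2.1 s) hs
  have hinvb : ∀ s j, RefInv (b j) (fib K' s) := fun s j =>
    fib_inv a h1 h2 j (h0 j) (hinv j) s
  have hG : Good K' := by
    refine good0 hm hbody 1 (fun s hs => ih hcard b hlib hconb (hbs s hs) (hinvb s))
      (fun s hs => ?_) (fun s hs => ?_)
    · obtain ⟨q1, J, q2⟩ := irr_mom hcard b hlib hconb (hbs s hs).2.1 (hinvb s)
      exact (cov_of_mom q1 q2).1
    · obtain ⟨q1, J, q2⟩ := irr_mom hcard b hlib hconb (hbs s hs).2.1 (hinvb s)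
      exact ⟨_, (cov_of_mom q1 q2).2⟩
  have hdet : Oᵀ.det ≠ 0 := by
    intro h
    have := congrArg Matrix.det h2
    rw [det_mul, h, zero_mul, det_one] at this
    exact zero_ne_one this
  have hback := hG.aff hdet 0
  have e : P254.aff Oᵀ 0 '' K' = K := by
    rw [hK', ← image_comp]
    have : (P254.aff Oᵀ 0 ∘ fun x => O *ᵥ x + 0) = id := by
      funext x
      simp only [P254.aff, Function.comp_apply, add_zero, mulVec_mulVec, h2, one_mulVec, id]
    rw [this, image_id]
  rwa [e] at hback

/-- the irreducible case, by induction -/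
theorem irrGood (m : ℕ) (hm : 1 ≤ m) : IrrGood m := by
  induction m, hm using Nat.le_induction with
  | base =>
    intro ι _ _ a _ _ K hK _
    exact good_dim_one hK
  | succ m hm ih =>
    intro ι _ hcard a hli hcon K hK hinv
    classical
    have : Nontrivial ι := Fintype.one_lt_card_iff_nontrivial.1 (by omega)
    obtain ⟨i₀, hi₀⟩ := exists_noncut (gr a) hcon
    have hcard' : Fintype.card {j : ι | j ≠ i₀} = m := by
      rw [Set.card_ne_eq, hcard]; rfl
    have hgr : gr (fun j : {j : ι | j ≠ i₀} => a j) = (gr a).induce {j | j ≠ i₀} := by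
      ext i j
      simp only [gr, SimpleGraph.comap_adj, Function.Embedding.subtype_apply, ne_eq,
        Subtype.ext_iff]
    refine step hm ih hcard' (fun j : {j : ι | j ≠ i₀} => a j)
      (hli.comp _ Subtype.val_injective) ?_ hK fun j => hinv j
    rw [hgr]
    exact hi₀

/-- [I5] the irreducible case -/
theorem irr (m : ℕ) (hm : 1 ≤ m) {ι : Type} [Fintype ι] (hcard : Fintype.card ι = m)
    (a : ι → (Fin m → ℝ)) (hli : LinearIndependent ℝ a) (hcon : (gr a).Connected)
    {K : Set (Fin m → ℝ)} (hK : IsConvexBody K) (hinv : ∀ i, RefInv (a i) K) : Good K :=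
  irrGood m hm hcard a hli hcon hK hinv

/-- [I7] `m` connected reflections in `ℝ^(m+1)` -/
theorem irr_free (m : ℕ) (hm : 1 ≤ m) {ι : Type} [Fintype ι] (hcard : Fintype.card ι = m)
    (a : ι → (Fin (m + 1) → ℝ)) (hli : LinearIndependent ℝ a) (hcon : (gr a).Connected)
    {K : Set (Fin (m + 1) → ℝ)} (hK : IsConvexBody K) (hinv : ∀ i, RefInv (a i) K) : Good K :=
  step hm (irrGood m hm) hcard a hli hcon hK hinv

end H504

end Vale.Agent.P254.Fib
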