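import Vale.Agent.P254.Fib.IrrDefs

/-! P254, Fib, leaf I1 (hedge of helper208). -/

open MeasureTheory Set Matrix

namespace Vale.Agent.P254.Fib.H208I

variable {m : ℕ}

/-- the reflection as a linear map -/
noncomputable def refl (a : Fin m → ℝ) : (Fin m → ℝ) →ₗ[ℝ] (Fin m → ℝ) where
  toFun x := x - (2 * (a ⬝ᵥ x) / (a ⬝ᵥ a)) • a
  map_add' x y := by
    rw [dotProduct_add]; ext i
    simp only [Pi.sub_apply, Pi.add_apply, Pi.smul_apply, smul_eq_mul]; ring
  map_smul' c x := by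
    rw [dotProduct_smul]; ext i
    simp only [Pi.sub_apply, Pi.smul_apply, smul_eq_mul, RingHom.id_apply]; ring

private lemma refl_apply (a x : Fin m → ℝ) : refl a x = x - (2 * (a ⬝ᵥ x) / (a ⬝ᵥ a)) • a := rfl

private lemma dot_refl (a v x : Fin m → ℝ) :
    v ⬝ᵥ refl a x = v ⬝ᵥ x - 2 * (a ⬝ᵥ x) / (a ⬝ᵥ a) * (v ⬝ᵥ a) := by
  rw [refl_apply, dotProduct_sub, dotProduct_smul, smul_eq_mul]

private lemma refl_invol {a : Fin m → ℝ} (ha : a ⬝ᵥ a ≠ 0) (x : Fin m → ℝ) :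
    refl a (refl a x) = x := by
  rw [refl_apply a (refl a x), dot_refl, refl_apply]
  ext i
  simp only [Pi.sub_apply, Pi.smul_apply, smul_eq_mul]
  field_simp
  ring

private lemma abs_det_refl {a : Fin m → ℝ} (ha : a ⬝ᵥ a ≠ 0) :
    |LinearMap.det (refl a)| = 1 := by
  have h : (refl a).comp (refl a) = LinearMap.id := LinearMap.ext fun x => refl_invol ha x
  have h2 := congrArg LinearMap.det h
  rw [LinearMap.det_comp, LinearMap.det_id] at h2
  have h3 : |LinearMap.det (refl a)| * |LinearMap.det (refl a)| = 1 := by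
    rw [← abs_mul, h2, abs_one]
  nlinarith [abs_nonneg (LinearMap.det (refl a))]

private lemma refl_mp {a : Fin m → ℝ} (ha : a ⬝ᵥ a ≠ 0) :
    MeasurePreserving (refl a) (volume : Measure (Fin m → ℝ)) volume := by
  have hdet := abs_det_refl ha
  have hne : LinearMap.det (refl a) ≠ 0 := by
    intro h; rw [h, abs_zero] at hdet; exact zero_ne_one hdet
  refine ⟨(LinearMap.continuous_of_finiteDimensional (refl a)).measurable, ?_⟩
  rw [Real.map_linearMap_volume_pi_eq_smul_volume_pi hne, abs_inv, hdet]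
  simp

private lemma refl_emb {a : Fin m → ℝ} (ha : a ⬝ᵥ a ≠ 0) : MeasurableEmbedding (refl a) := by
  have hc : Continuous (refl a) := LinearMap.continuous_of_finiteDimensional (refl a)
  exact (Homeomorph.mk ⟨refl a, refl a, refl_invol ha, refl_invol ha⟩ hc hc).measurableEmbedding

private lemma integral_refl {a : Fin m → ℝ} (ha : a ⬝ᵥ a ≠ 0) {K : Set (Fin m → ℝ)}
    (hinv : RefInv a K) (f : (Fin m → ℝ) → ℝ) :
    ∫ x in K, f (refl a x) = ∫ x in K, f x := by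
  have h := (refl_mp ha).setIntegral_preimage_emb (refl_emb ha) f K
  have h2 : (refl a) ⁻¹' K = K := by
    ext x
    constructor
    · intro hx
      have := hinv _ hx
      rw [← refl_apply, refl_invol ha] at this
      exact this
    · intro hx
      exact hinv x hx
  rw [h2] at h
  exact h

private lemma int_dot {K : Set (Fin m → ℝ)} (hK : IsCompact K) (u : Fin m → ℝ) :
    IntegrableOn (fun x : Fin m → ℝ => u ⬝ᵥ x) K volume :=
  (by unfold dotProduct; fun_prop : Continuous fun x : Fin m → ℝ => u ⬝ᵥ x).continuousOn.integrableOn_compact hK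

private lemma int_dot2 {K : Set (Fin m → ℝ)} (hK : IsCompact K) (u v : Fin m → ℝ) :
    IntegrableOn (fun x : Fin m → ℝ => (u ⬝ᵥ x) * (v ⬝ᵥ x)) K volume :=
  (by unfold dotProduct; fun_prop :
    Continuous fun x : Fin m → ℝ => (u ⬝ᵥ x) * (v ⬝ᵥ x)).continuousOn.integrableOn_compact hK

private lemma first {a : Fin m → ℝ} (ha : a ⬝ᵥ a ≠ 0) {K : Set (Fin m → ℝ)}
    (hinv : RefInv a K) : ∫ x in K, a ⬝ᵥ x = 0 := by
  have h := integral_refl ha hinv (fun x => a ⬝ᵥ x)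
  have e : ∀ x, a ⬝ᵥ refl a x = -(a ⬝ᵥ x) := by
    intro x; rw [dot_refl]; field_simp; ring
  simp only [e, integral_neg] at h
  linarith

private lemma second {a : Fin m → ℝ} (ha : a ⬝ᵥ a ≠ 0) {K : Set (Fin m → ℝ)} (hK : IsCompact K)
    (hinv : RefInv a K) (v : Fin m → ℝ) :
    ∫ x in K, (a ⬝ᵥ x) * (v ⬝ᵥ x)
      = (∫ x in K, (a ⬝ᵥ x) * (a ⬝ᵥ x)) / (a ⬝ᵥ a) * (a ⬝ᵥ v) := by
  have h := integral_refl ha hinv (fun x => (a ⬝ᵥ x) * (v ⬝ᵥ x))
  have e : ∀ x, (a ⬝ᵥ refl a x) * (v ⬝ᵥ refl a x)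
      = (2 * (v ⬝ᵥ a) / (a ⬝ᵥ a)) * ((a ⬝ᵥ x) * (a ⬝ᵥ x)) - (a ⬝ᵥ x) * (v ⬝ᵥ x) := by
    intro x; rw [dot_refl, dot_refl]; field_simp; ring
  simp only [e] at h
  rw [integral_sub ((int_dot2 hK a a).const_mul _) (int_dot2 hK a v), integral_const_mul] at h
  rw [dotProduct_comm a v]
  have : 2 * ∫ x in K, (a ⬝ᵥ x) * (v ⬝ᵥ x)
      = 2 * (v ⬝ᵥ a) / (a ⬝ᵥ a) * ∫ x in K, (a ⬝ᵥ x) * (a ⬝ᵥ x) := by linarith
  have h3 : ∫ x in K, (a ⬝ᵥ x) * (v ⬝ᵥ x)
      = (v ⬝ᵥ a) / (a ⬝ᵥ a) * ∫ x in K, (a ⬝ᵥ x) * (a ⬝ᵥ x) := by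
    have h4 : 2 * (v ⬝ᵥ a) / (a ⬝ᵥ a) = 2 * ((v ⬝ᵥ a) / (a ⬝ᵥ a)) := by ring
    rw [h4] at this
    linarith
  rw [h3]; ring

/-- [I1] the moments up to order two -/
theorem irr_mom {m : ℕ} {ι : Type} [Fintype ι] (hcard : Fintype.card ι = m)
    (a : ι → (Fin m → ℝ)) (hli : LinearIndependent ℝ a) (hcon : (gr a).Connected)
    {K : Set (Fin m → ℝ)} (hK : IsCompact K) (hinv : ∀ i, RefInv (a i) K) :
    (∀ i, ∫ x in K, x i = 0) ∧ ∃ J : ℝ, ∀ i j, ∫ x in K, x i * x j = if i = j then J else 0 := by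
  have hne : Nonempty ι := hcon.nonempty
  have ha : ∀ i, a i ⬝ᵥ a i ≠ 0 := fun i h => hli.ne_zero i (dotProduct_self_eq_zero.mp h)
  have hspan : Submodule.span ℝ (range a) = ⊤ :=
    hli.span_eq_top_of_card_eq_finrank (by rw [hcard]; simp)
  have hsingle : ∀ (i : Fin m) (x : Fin m → ℝ), (Pi.single i (1 : ℝ) : Fin m → ℝ) ⬝ᵥ x = x i := by
    intro i x; simp
  constructor
  · -- first moments
    let L : (Fin m → ℝ) →ₗ[ℝ] ℝ :=
      { toFun := fun u => ∫ x in K, u ⬝ᵥ x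
        map_add' := fun u v => by
          simp only [add_dotProduct]
          exact integral_add (int_dot hK u) (int_dot hK v)
        map_smul' := fun c u => by
          simp only [smul_dotProduct, smul_eq_mul, RingHom.id_apply]
          exact integral_const_mul _ _ }
    have hL : L = 0 := by
      refine LinearMap.ext_on hspan ?_
      rintro _ ⟨i, rfl⟩
      exact first (ha i) (hinv i)
    intro i
    have := congrArg (fun M : (Fin m → ℝ) →ₗ[ℝ] ℝ => M (Pi.single i 1)) hL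
    simpa [L, hsingle] using this
  · set lam : ι → ℝ := fun i => (∫ x in K, (a i ⬝ᵥ x) * (a i ⬝ᵥ x)) / (a i ⬝ᵥ a i) with hlam
    have hsec : ∀ i v, ∫ x in K, (a i ⬝ᵥ x) * (v ⬝ᵥ x) = lam i * (a i ⬝ᵥ v) :=
      fun i v => second (ha i) hK (hinv i) v
    have hadj : ∀ i j, (gr a).Adj i j → lam i = lam j := by
      intro i j hij
      have h1 := hsec i (a j)
      have h2 := hsec j (a i)
      have h3 : ∫ x in K, (a i ⬝ᵥ x) * (a j ⬝ᵥ x) = ∫ x in K, (a j ⬝ᵥ x) * (a i ⬝ᵥ x) := by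
        simp only [mul_comm]
      rw [h1, h2, dotProduct_comm (a j) (a i)] at h3
      exact mul_right_cancel₀ hij.2 h3
    have hreach : ∀ i j, (gr a).Reachable i j → lam i = lam j := by
      rintro i j ⟨w⟩
      induction w with
      | nil => rfl
      | cons h _ ih => exact (hadj _ _ h).trans ih
    obtain ⟨i₀⟩ := hne
    have hall : ∀ i, lam i = lam i₀ := fun i => hreach i i₀ (hcon.preconnected i i₀)
    refine ⟨lam i₀, fun i j => ?_⟩
    let B : (Fin m → ℝ) →ₗ[ℝ] ℝ :=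
      { toFun := fun u => ∫ x in K, (u ⬝ᵥ x) * ((Pi.single j (1 : ℝ) : Fin m → ℝ) ⬝ᵥ x)
        map_add' := fun u v => by
          simp only [add_dotProduct, add_mul]
          exact integral_add (int_dot2 hK u _) (int_dot2 hK v _)
        map_smul' := fun c u => by
          simp only [smul_dotProduct, smul_eq_mul, RingHom.id_apply, mul_assoc]
          exact integral_const_mul _ _ }
    let C : (Fin m → ℝ) →ₗ[ℝ] ℝ :=
      { toFun := fun u => lam i₀ * (u ⬝ᵥ (Pi.single j (1 : ℝ) : Fin m → ℝ))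
        map_add' := fun u v => by rw [add_dotProduct]; ring
        map_smul' := fun c u => by
          rw [smul_dotProduct]; simp only [smul_eq_mul, RingHom.id_apply]; ring }
    have hBC : B = C := by
      refine LinearMap.ext_on hspan ?_
      rintro _ ⟨k, rfl⟩
      change ∫ x in K, (a k ⬝ᵥ x) * ((Pi.single j (1 : ℝ) : Fin m → ℝ) ⬝ᵥ x)
        = lam i₀ * (a k ⬝ᵥ (Pi.single j (1 : ℝ) : Fin m → ℝ))
      rw [hsec, hall k]
    have h := congrArg (fun M : (Fin m → ℝ) →ₗ[ℝ] ℝ => M (Pi.single i 1)) hBC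
    have h' : ∫ x in K, ((Pi.single i (1 : ℝ) : Fin m → ℝ) ⬝ᵥ x) *
        ((Pi.single j (1 : ℝ) : Fin m → ℝ) ⬝ᵥ x)
        = lam i₀ * ((Pi.single i (1 : ℝ) : Fin m → ℝ) ⬝ᵥ (Pi.single j (1 : ℝ) : Fin m → ℝ)) := h
    simp only [hsingle] at h'
    rw [h']
    by_cases hij : i = j
    · subst hij; simp
    · rw [if_neg hij, Pi.single_eq_of_ne hij, mul_zero]

end Vale.Agent.P254.Fib.H208I
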