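import Vale.Agent.P254.Refl.C8
import Vale.Agent.P254.Fib.IrrDefs

/-!
P254/Fib: reduction of oblique affine reflections to orthogonal ones, any finite family.
-/

open MeasureTheory Set Matrix

namespace Vale.Agent.P254.Fib

open Vale.Agent.P254.Refl.C8

/-- [I8] affine, oblique symmetries: after an affine map they are orthogonal reflections. -/
theorem exists_pos {n : ℕ} {ι : Type} [Fintype ι] (a w : ι → (Fin n → ℝ)) (c : ι → ℝ)
    (hli : LinearIndependent ℝ a) (hw : ∀ i, w i ⬝ᵥ a i = 2)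
    {K : Set (Fin n → ℝ)} (hK : IsConvexBody K)
    (hinv : ∀ i, ∀ x ∈ K, x - (w i ⬝ᵥ x - c i) • a i ∈ K) :
    ∃ (A : Matrix (Fin n) (Fin n) ℝ) (b : Fin n → ℝ) (a' : ι → (Fin n → ℝ)), A.det ≠ 0 ∧
      LinearIndependent ℝ a' ∧ (∀ i, RefInv (a' i) ((fun x => A *ᵥ x + b) '' K)) ∧
      (∀ i j, a' i ⬝ᵥ a' j ≠ 0 ↔ w i ⬝ᵥ a j ≠ 0) := by
  have hV : (volume K).toReal ≠ 0 := by
    have h1 : 0 < volume K :=
      (isOpen_interior.measure_pos volume hK.2.2).trans_le (measure_mono interior_subset)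
    exact (ENNReal.toReal_pos h1.ne' hK.2.1.measure_lt_top.ne).ne'
  have hpd := Fib.H863.cov_posDef hK
  obtain ⟨B, hB⟩ := exists_sqrt hpd
  set S := covMatrix K with hS
  have hBdet : B.det ≠ 0 := by
    intro h0
    have h1 := hpd.det_pos
    rw [hB, det_mul, h0, mul_zero] at h1
    exact lt_irrefl _ h1
  have hBu : IsUnit B.det := isUnit_iff_ne_zero.2 hBdet
  have hBTu : IsUnit Bᵀ.det := by rw [det_transpose]; exact hBu
  set A := (Bᵀ)⁻¹ with hA
  have hAdet : A.det ≠ 0 := by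
    rw [hA, det_nonsing_inv, Ring.inverse_eq_inv']
    exact inv_ne_zero (by rw [det_transpose]; exact hBdet)
  have hATA : Aᵀ * A * S = 1 := by
    rw [hB, hA, Matrix.mul_assoc, ← Matrix.mul_assoc (Bᵀ)⁻¹, nonsing_inv_mul _ hBTu,
      Matrix.one_mul, transpose_nonsing_inv, transpose_transpose, nonsing_inv_mul _ hBu]
  have hq : ∀ i, 0 < w i ⬝ᵥ (S *ᵥ w i) := by
    intro i
    have hwne : w i ≠ 0 := by
      intro h0
      have := hw i
      rw [h0, zero_dotProduct] at this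
      norm_num at this
    have := (posDef_iff_dotProduct_mulVec.1 hpd).2 hwne
    simpa using this
  have hform : ∀ i, ∀ y : Fin n → ℝ,
      (A *ᵥ a i) ⬝ᵥ (A *ᵥ y) = 2 / (w i ⬝ᵥ (S *ᵥ w i)) * (w i ⬝ᵥ y) := by
    intro i y
    have hcw := cov_w hK hV (hw i) (hinv i)
    rw [← hS] at hcw
    have hq0 := hq i
    set q := w i ⬝ᵥ (S *ᵥ w i) with hq
    have e1 : (A *ᵥ a i) ⬝ᵥ (A *ᵥ y) = ((Aᵀ * A) *ᵥ a i) ⬝ᵥ y := by
      rw [← mulVec_mulVec, mulVec_transpose, dotProduct_mulVec]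
    have e2 : a i = (2 / q) • (S *ᵥ w i) := by
      have e3 : (q : ℝ)⁻¹ • ((2 : ℝ) • (S *ᵥ w i)) = a i := by
        rw [hcw, smul_smul, inv_mul_cancel₀ hq0.ne', one_smul]
      rw [← e3, smul_smul]
      congr 1
      ring
    rw [e1]
    conv_lhs => rw [e2]
    rw [mulVec_smul, mulVec_mulVec, hATA, one_mulVec, smul_dotProduct, smul_eq_mul]
  refine ⟨A, -(A *ᵥ centroid K), fun i => A *ᵥ a i, hAdet, ?_, ?_, ?_⟩
  · have hinj : LinearMap.ker A.mulVecLin = ⊥ := by
      rw [LinearMap.ker_eq_bot]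
      exact mulVec_injective_iff_isUnit.2 ((isUnit_iff_isUnit_det A).2 (isUnit_iff_ne_zero.2 hAdet))
    exact hli.map' A.mulVecLin hinj
  · rintro i _ ⟨x, hx, rfl⟩
    refine ⟨x - (w i ⬝ᵥ x - c i) • a i, hinv i x hx, ?_⟩
    simp only
    have hq0 := hq i
    have hcen : centroid K = aff (R (a i) (w i)) (c i • a i) (centroid K) := by
      have h1 := centroid_aff_image (R_det (hw i)) (c i • a i) hK.2.1 hV
      rw [image_eq (hw i) (hinv i)] at h1
      exact h1
    rw [aff_R] at hcen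
    have hcen2 : w i ⬝ᵥ centroid K = c i := by
      have h1 := congrArg (fun z => w i ⬝ᵥ z) hcen
      simp only [dotProduct_sub, dotProduct_smul, hw i, smul_eq_mul] at h1
      linarith
    have hy : A *ᵥ x + -(A *ᵥ centroid K) = A *ᵥ (x - centroid K) := by
      rw [mulVec_sub, sub_eq_add_neg]
    rw [hy, hform, hform, hw i, dotProduct_sub, hcen2]
    have hk : 2 * (2 / (w i ⬝ᵥ (S *ᵥ w i)) * (w i ⬝ᵥ x - c i)) /
        (2 / (w i ⬝ᵥ (S *ᵥ w i)) * 2) = w i ⬝ᵥ x - c i := by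
      field_simp
    rw [hk, mulVec_sub, mulVec_sub, mulVec_smul]
    abel
  · intro i j
    rw [hform]
    have hq0 := hq i
    constructor
    · intro h h0
      exact h (by rw [h0, mul_zero])
    · intro h
      exact mul_ne_zero (by positivity) h

end Vale.Agent.P254.Fib
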