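import Vale.Agent.P254.Fib.IrrDefs
import Vale.Agent.P254.Affine
import Vale.Agent.P254.Unc.Near

/-!
P254/Fib, leaf I8: oblique affine reflections become orthogonal in the covariance coordinates.
-/

open MeasureTheory Set Matrix

namespace Vale.Agent.P254.Fib

namespace H504P

/-- a positive definite matrix is `C Cᵀ` -/
lemma exists_sqrt {n : ℕ} {A : Matrix (Fin n) (Fin n) ℝ} (hA : A.PosDef) :
    ∃ C : Matrix (Fin n) (Fin n) ℝ, C.det ≠ 0 ∧ A = C * Cᵀ := by
  have hH : A.IsHermitian := hA.isHermitian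
  set U : Matrix (Fin n) (Fin n) ℝ := (hH.eigenvectorUnitary : Matrix (Fin n) (Fin n) ℝ) with hU
  have hspec : A = U * diagonal hH.eigenvalues * Uᵀ := by
    have h := hH.spectral_theorem
    rw [Unitary.conjStarAlgAut_apply] at h
    simpa [star_eq_conjTranspose, Function.comp_def] using h
  have hpos : ∀ i, 0 < hH.eigenvalues i := fun i => hA.eigenvalues_pos i
  have hA2 : A = (U * diagonal fun i => √(hH.eigenvalues i)) *
      (U * diagonal fun i => √(hH.eigenvalues i))ᵀ := by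
    rw [transpose_mul, diagonal_transpose, Matrix.mul_assoc, ← Matrix.mul_assoc (diagonal _),
      diagonal_mul_diagonal, ← Matrix.mul_assoc]
    conv_lhs => rw [hspec]
    congr 3
    funext i
    exact (Real.mul_self_sqrt (hpos i).le).symm
  refine ⟨_, ?_, hA2⟩
  intro h0
  have h1 : A.det ≠ 0 := hA.det_pos.ne'
  rw [hA2, det_mul, det_transpose, h0, zero_mul] at h1
  exact h1 rfl

lemma refl_mulVec {n : ℕ} (a w x : Fin n → ℝ) :
    (1 - vecMulVec a w) *ᵥ x = x - (w ⬝ᵥ x) • a := by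
  rw [sub_mulVec, one_mulVec]
  congr 1
  funext i
  simp only [mulVec, dotProduct, vecMulVec_apply, Pi.smul_apply, smul_eq_mul, Finset.sum_mul]
  exact Finset.sum_congr rfl fun j _ => by ring

lemma refl_transpose {n : ℕ} (a w : Fin n → ℝ) :
    (1 - vecMulVec a w)ᵀ = 1 - vecMulVec w a := by
  rw [transpose_sub, transpose_one]
  congr 1
  ext i j
  simp only [transpose_apply, vecMulVec_apply]
  ring

lemma refl_refl {n : ℕ} {a w : Fin n → ℝ} (hw : w ⬝ᵥ a = 2) :
    (1 - vecMulVec a w) * (1 - vecMulVec a w) = (1 : Matrix (Fin n) (Fin n) ℝ) := by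
  have h : ∀ x : Fin n → ℝ, ((1 - vecMulVec a w) * (1 - vecMulVec a w)) *ᵥ x =
      (1 : Matrix (Fin n) (Fin n) ℝ) *ᵥ x := by
    intro x
    rw [← mulVec_mulVec, refl_mulVec, refl_mulVec, one_mulVec, dotProduct_sub, dotProduct_smul, hw]
    funext i
    simp only [Pi.sub_apply, Pi.smul_apply, smul_eq_mul]
    ring
  ext i j
  have := congrFun (h (Pi.single j 1)) i
  simpa using this

/-- a body with an affine reflection: the centroid and the covariance -/
lemma key {n : ℕ} {K : Set (Fin n → ℝ)} (hK : IsConvexBody K) {a w : Fin n → ℝ} {c : ℝ}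
    (hw : w ⬝ᵥ a = 2) (hR : ∀ x ∈ K, x - (w ⬝ᵥ x - c) • a ∈ K) :
    w ⬝ᵥ centroid K = c ∧
      covMatrix K *ᵥ w = ((w ⬝ᵥ (covMatrix K *ᵥ w)) / 2) • a := by
  set P : Matrix (Fin n) (Fin n) ℝ := 1 - vecMulVec a w with hP
  have hPP : P * P = 1 := refl_refl hw
  have hdet : P.det ≠ 0 := by
    intro h
    have h1 := congrArg Matrix.det hPP
    rw [det_mul, h, zero_mul, det_one] at h1
    exact zero_ne_one h1
  have hV : (volume K).toReal ≠ 0 := by
    refine (ENNReal.toReal_pos ?_ hK.2.1.measure_lt_top.ne).ne'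
    exact (lt_of_lt_of_le (isOpen_interior.measure_pos volume hK.2.2)
      (measure_mono interior_subset)).ne'
  have haff : ∀ x, P254.aff P (c • a) x = x - (w ⬝ᵥ x - c) • a := by
    intro x
    unfold P254.aff
    rw [hP, refl_mulVec, sub_smul]
    abel
  have hinvol : ∀ x, P254.aff P (c • a) (P254.aff P (c • a) x) = x := by
    intro x
    rw [haff, haff, dotProduct_sub, dotProduct_smul, hw]
    funext i
    simp only [Pi.sub_apply, Pi.smul_apply, smul_eq_mul]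
    ring
  have himg : P254.aff P (c • a) '' K = K := by
    refine Subset.antisymm ?_ fun x hx => ⟨P254.aff P (c • a) x, ?_, hinvol x⟩
    · rintro _ ⟨x, hx, rfl⟩
      rw [haff]
      exact hR x hx
    · rw [haff]
      exact hR x hx
  have ha0 : a ≠ 0 := by
    rintro rfl
    rw [dotProduct_zero] at hw
    norm_num at hw
  constructor
  · have hcen := centroid_aff_image hdet (c • a) hK.2.1 hV
    rw [himg, haff] at hcen
    have h1 : (w ⬝ᵥ centroid K - c) • a = 0 := by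
      have := sub_eq_self.1 hcen.symm
      exact this
    have h2 := (smul_eq_zero.1 h1).resolve_right ha0
    linarith
  · have hcov := cov_aff_image hdet (c • a) hK.2.1 hV
    rw [himg] at hcov
    have h1 : P * covMatrix K = covMatrix K * Pᵀ := by
      conv_lhs => rw [hcov]
      rw [← Matrix.mul_assoc, ← Matrix.mul_assoc, hPP, Matrix.one_mul]
    have h2 := congrArg (fun M : Matrix (Fin n) (Fin n) ℝ => M *ᵥ w) h1
    simp only [← mulVec_mulVec] at h2
    rw [hP, refl_mulVec, refl_transpose, refl_mulVec, dotProduct_comm a w, hw] at h2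
    have h3 : w - (2 : ℝ) • w = -w := by
      rw [two_smul]; abel
    rw [h3, mulVec_neg] at h2
    funext i
    have h4 := congrFun h2 i
    simp only [Pi.sub_apply, Pi.smul_apply, Pi.neg_apply, smul_eq_mul] at h4 ⊢
    linarith

/-- [I8] affine, oblique symmetries: after an affine map they are orthogonal reflections. -/
theorem exists_pos {n : ℕ} {ι : Type} [Fintype ι] (a w : ι → (Fin n → ℝ)) (c : ι → ℝ)
    (hli : LinearIndependent ℝ a) (hw : ∀ i, w i ⬝ᵥ a i = 2)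
    {K : Set (Fin n → ℝ)} (hK : IsConvexBody K)
    (hinv : ∀ i, ∀ x ∈ K, x - (w i ⬝ᵥ x - c i) • a i ∈ K) :
    ∃ (A : Matrix (Fin n) (Fin n) ℝ) (b : Fin n → ℝ) (a' : ι → (Fin n → ℝ)), A.det ≠ 0 ∧
      LinearIndependent ℝ a' ∧ (∀ i, RefInv (a' i) ((fun x => A *ᵥ x + b) '' K)) ∧
      (∀ i j, a' i ⬝ᵥ a' j ≠ 0 ↔ w i ⬝ᵥ a j ≠ 0) := by
  obtain ⟨C, hC, hSC⟩ := exists_sqrt (covMatrix_posDef hK)
  have hCu : IsUnit C.det := isUnit_iff_ne_zero.2 hC
  obtain ⟨D, hCD, hDC⟩ : ∃ D : Matrix (Fin n) (Fin n) ℝ, C * D = 1 ∧ D * C = 1 :=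
    ⟨C⁻¹, mul_nonsing_inv C hCu, nonsing_inv_mul C hCu⟩
  have hdet : D.det ≠ 0 := by
    intro h
    have h1 := congrArg Matrix.det hCD
    rw [det_mul, h, mul_zero, det_one] at h1
    exact zero_ne_one h1
  -- `Aᵀ A Σ = 1`
  have hiso : ∀ u v : Fin n → ℝ, (D *ᵥ (covMatrix K *ᵥ u)) ⬝ᵥ (D *ᵥ v) = u ⬝ᵥ v := by
    intro u v
    have e1 : D *ᵥ (covMatrix K *ᵥ u) = Cᵀ *ᵥ u := by
      rw [mulVec_mulVec]
      conv_lhs => rw [hSC]
      rw [← Matrix.mul_assoc, hDC, Matrix.one_mul]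
    rw [e1, mulVec_transpose, ← dotProduct_mulVec, mulVec_mulVec, hCD,
      one_mulVec]
  have q : ∀ i v, ((w i ⬝ᵥ (covMatrix K *ᵥ w i)) / 2) *
      ((D *ᵥ a i) ⬝ᵥ (D *ᵥ v)) = w i ⬝ᵥ v := by
    intro i v
    rw [← hiso (w i) v]
    conv_rhs => rw [(key hK (hw i) (hinv i)).2]
    rw [mulVec_smul, smul_dotProduct, smul_eq_mul]
  refine ⟨D, -(D *ᵥ centroid K), fun i => D *ᵥ a i, hdet, ?_, ?_, ?_⟩
  · have hker : LinearMap.ker (Matrix.mulVecLin D) = ⊥ := by
      rw [LinearMap.ker_eq_bot]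
      intro x y hxy
      rw [Matrix.mulVecLin_apply, Matrix.mulVecLin_apply] at hxy
      have : C *ᵥ (D *ᵥ x) = C *ᵥ (D *ᵥ y) := by rw [hxy]
      rwa [mulVec_mulVec, mulVec_mulVec, hCD, one_mulVec, one_mulVec] at this
    have e : (fun i => D *ᵥ a i) = (Matrix.mulVecLin D) ∘ a := by
      funext i
      rw [Function.comp_apply, Matrix.mulVecLin_apply]
    rw [e]
    exact hli.map' _ hker
  · rintro i _ ⟨x, hx, rfl⟩
    have k1 := (key hK (hw i) (hinv i)).1
    refine ⟨_, hinv i x hx, ?_⟩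
    set t : ℝ := (w i ⬝ᵥ (covMatrix K *ᵥ w i)) / 2 with ht
    set z : Fin n → ℝ := x - centroid K with hz
    have hy : D *ᵥ x + -(D *ᵥ centroid K) = D *ᵥ z := by
      rw [hz, mulVec_sub, sub_eq_add_neg]
    have q1 := q i (a i)
    rw [hw i] at q1
    have q2 := q i z
    have hne : (D *ᵥ a i) ⬝ᵥ (D *ᵥ a i) ≠ 0 := by
      intro h
      rw [h, mul_zero] at q1
      norm_num at q1
    have hcoef : 2 * ((D *ᵥ a i) ⬝ᵥ (D *ᵥ z)) / ((D *ᵥ a i) ⬝ᵥ (D *ᵥ a i)) =
        w i ⬝ᵥ x - c i := by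
      rw [div_eq_iff hne]
      have : w i ⬝ᵥ z = w i ⬝ᵥ x - c i := by rw [hz, dotProduct_sub, k1]
      rw [← this, ← q2]
      linear_combination (-((D *ᵥ a i) ⬝ᵥ (D *ᵥ z))) * q1
    show D *ᵥ (x - (w i ⬝ᵥ x - c i) • a i) + -(D *ᵥ centroid K) =
      (D *ᵥ x + -(D *ᵥ centroid K)) -
        (2 * ((D *ᵥ a i) ⬝ᵥ (D *ᵥ x + -(D *ᵥ centroid K))) /
          ((D *ᵥ a i) ⬝ᵥ (D *ᵥ a i))) • (D *ᵥ a i)
    rw [hy, hcoef, ← hy, mulVec_sub, mulVec_smul]
    abel
  · intro i j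
    have q1 := q i (a i)
    rw [hw i] at q1
    have ht : (w i ⬝ᵥ (covMatrix K *ᵥ w i)) / 2 ≠ 0 := by
      intro h
      rw [h, zero_mul] at q1
      norm_num at q1
    rw [← q i (a j)]
    exact ⟨fun h => mul_ne_zero ht h, fun h h' => h (by rw [h', mul_zero])⟩

end H504P

end Vale.Agent.P254.Fib
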