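import Vale.Agent.P254.Fib.Skel
import Vale.Agent.P254.Fib.IrrDefs

/-! Skeleton; never import it in a final file. -/

open MeasureTheory Set Matrix

namespace Vale.Agent.P254.Fib

open Vale.Agent.P254.FV (Good Dn simpC)

/-- [I1] the moments up to order two -/
theorem irr_mom {m : ℕ} {ι : Type} [Fintype ι] (hcard : Fintype.card ι = m)
    (a : ι → (Fin m → ℝ)) (hli : LinearIndependent ℝ a) (hcon : (gr a).Connected)
    {K : Set (Fin m → ℝ)} (hK : IsCompact K) (hinv : ∀ i, RefInv (a i) K) :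
    (∀ i, ∫ x in K, x i = 0) ∧ ∃ J : ℝ, ∀ i j, ∫ x in K, x i * x j = if i = j then J else 0 := by
  sorry

/-- [I2] -/
theorem exists_orth {m : ℕ} {ι : Type} [Fintype ι] (hcard : Fintype.card ι = m)
    (a : ι → (Fin (m + 1) → ℝ)) :
    ∃ O : Matrix (Fin (m + 1)) (Fin (m + 1)) ℝ, O * Oᵀ = 1 ∧ Oᵀ * O = 1 ∧
      ∀ i, (O *ᵥ a i) 0 = 0 := by
  sorry

/-- [I3] a vertex which is not a cut vertex -/
theorem exists_noncut {ι : Type} [Fintype ι] [Nontrivial ι] (G : SimpleGraph ι)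
    (h : G.Connected) : ∃ i : ι, (G.induce {j | j ≠ i}).Connected := by
  sorry

/-- [I4] the fibres of the rotated body -/
theorem fib_inv {m : ℕ} {ι : Type} (a : ι → (Fin (m + 1) → ℝ))
    {O : Matrix (Fin (m + 1)) (Fin (m + 1)) ℝ} (h1 : O * Oᵀ = 1) (h2 : Oᵀ * O = 1)
    {K : Set (Fin (m + 1) → ℝ)} (i : ι) (h0 : (O *ᵥ a i) 0 = 0) (hinv : RefInv (a i) K) (s : ℝ) :
    RefInv (Fin.tail (O *ᵥ a i)) (fib ((fun x => O *ᵥ x + 0) '' K) s) := by
  sorry

/-- [I5] the irreducible case, from `good0`, [I1]-[I4] by induction on `m` -/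
theorem irr (m : ℕ) (hm : 1 ≤ m) {ι : Type} [Fintype ι] (hcard : Fintype.card ι = m)
    (a : ι → (Fin m → ℝ)) (hli : LinearIndependent ℝ a) (hcon : (gr a).Connected)
    {K : Set (Fin m → ℝ)} (hK : IsConvexBody K) (hinv : ∀ i, RefInv (a i) K) : Good K := by
  sorry

/-- [I6] compact convex sets, possibly of volume zero; from `irr`, `irr_mom` -/
theorem irr_bd (m : ℕ) (hm : 1 ≤ m) {ι : Type} [Fintype ι] (hcard : Fintype.card ι = m)
    (a : ι → (Fin m → ℝ)) (hli : LinearIndependent ℝ a) (hcon : (gr a).Connected)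
    {K : Set (Fin m → ℝ)} (hc : Convex ℝ K) (hK : IsCompact K) (hinv : ∀ i, RefInv (a i) K)
    (i : Fin m) : (∫ x in K, x i ^ 2) ^ m ≤ simpC m * (volume K).toReal ^ (m + 2) := by
  sorry

end Vale.Agent.P254.Fib
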