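import Vale.Agent.P254.Fib.IrrSkel

/-! Skeleton; never import it in a final file. -/

open MeasureTheory Set Matrix

namespace Vale.Agent.P254.Fib

open Vale.Agent.P254.FV (Good)

/-- [I7] `m` connected reflections in `ℝ^(m+1)` (from `good0`, `exists_orth`, `fib_inv`, `irr`,
`irr_mom`, as in `irr`; the section of zero volume are not used) -/
theorem irr_free (m : ℕ) (hm : 1 ≤ m) {ι : Type} [Fintype ι] (hcard : Fintype.card ι = m)
    (a : ι → (Fin (m + 1) → ℝ)) (hli : LinearIndependent ℝ a) (hcon : (gr a).Connected)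
    {K : Set (Fin (m + 1) → ℝ)} (hK : IsConvexBody K) (hinv : ∀ i, RefInv (a i) K) : Good K := by
  sorry

/-- [I8] affine, oblique symmetries: after an affine map they are orthogonal reflections.
(as `Refl.exists_pos` [C8] but for any finite family of normals) -/
theorem exists_pos {n : ℕ} {ι : Type} [Fintype ι] (a w : ι → (Fin n → ℝ)) (c : ι → ℝ)
    (hli : LinearIndependent ℝ a) (hw : ∀ i, w i ⬝ᵥ a i = 2)
    {K : Set (Fin n → ℝ)} (hK : IsConvexBody K)
    (hinv : ∀ i, ∀ x ∈ K, x - (w i ⬝ᵥ x - c i) • a i ∈ K) :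
    ∃ (A : Matrix (Fin n) (Fin n) ℝ) (b : Fin n → ℝ) (a' : ι → (Fin n → ℝ)), A.det ≠ 0 ∧
      LinearIndependent ℝ a' ∧ (∀ i, RefInv (a' i) ((fun x => A *ᵥ x + b) '' K)) ∧
      (∀ i j, a' i ⬝ᵥ a' j ≠ 0 ↔ w i ⬝ᵥ a j ≠ 0) := by
  sorry

end Vale.Agent.P254.Fib
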