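import Vale.Agent.P254.Fib.Irr
import Vale.Agent.P254.Fib.IrrFree
import Vale.Agent.P254.Fib.IrrPos

/-!
P254/Fib: convex bodies with an irreducible system of `n` or `n - 1` (oblique, affine) hyperplane
symmetries.
-/

open MeasureTheory Set Matrix

namespace Vale.Agent.P254.Fib

open Vale.Agent.P254.FV (Good)

namespace H945

/-- the graph of the orthogonal form is connected -/
theorem gr_conn {n : ℕ} {ι : Type} [Nonempty ι] (a w a' : ι → (Fin n → ℝ))
    (h : ∀ i j, a' i ⬝ᵥ a' j ≠ 0 ↔ w i ⬝ᵥ a j ≠ 0)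
    (hcon : ∀ i j, Relation.ReflTransGen (fun i j => w i ⬝ᵥ a j ≠ 0) i j) :
    (gr a').Connected := by
  have h1 : ∀ i j, (gr a').Reachable i j := by
    intro i j
    induction hcon i j with
    | refl => exact SimpleGraph.Reachable.refl _
    | @tail x y _ hxy ih =>
      by_cases hne : x = y
      · rw [← hne]; exact ih
      · exact ih.trans (SimpleGraph.Adj.reachable ⟨hne, (h x y).2 hxy⟩)
  exact SimpleGraph.Connected.mk h1

end H945

/-- Convex bodies with `n` or `n - 1` hyperplane symmetries `x ↦ x - (w i · x - c i) a i` with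
linearly independent directions, if the system is irreducible. -/
theorem irr_aff (n : ℕ) (hn : 1 ≤ n) {ι : Type} [Fintype ι]
    (hcard : Fintype.card ι = n ∨ (Fintype.card ι + 1 = n ∧ 1 ≤ Fintype.card ι))
    (a w : ι → (Fin n → ℝ)) (c : ι → ℝ) (hli : LinearIndependent ℝ a)
    (hw : ∀ i, w i ⬝ᵥ a i = 2)
    (hcon : ∀ i j, Relation.ReflTransGen (fun i j => w i ⬝ᵥ a j ≠ 0) i j)
    {K : Set (Fin n → ℝ)} (hK : IsConvexBody K)
    (hinv : ∀ i, ∀ x ∈ K, x - (w i ⬝ᵥ x - c i) • a i ∈ K) : Good K := by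
  obtain ⟨A, b, a', hA, hli', hinv', hiff⟩ := exists_pos a w c hli hw hK hinv
  have hne : Nonempty ι := Fintype.card_pos_iff.1 (by omega)
  have hcon' := H945.gr_conn a w a' hiff hcon
  have hK' : IsConvexBody ((fun x => A *ᵥ x + b) '' K) := H598.body_aff hK hA b
  have hG : Good ((fun x => A *ᵥ x + b) '' K) := by
    rcases hcard with h | ⟨h, h1⟩
    · exact irr n hn h a' hli' hcon' hK' hinv'
    · subst h
      exact irr_free (Fintype.card ι) h1 rfl a' hli' hcon' hK' hinv'
  have hAu : IsUnit A.det := isUnit_iff_ne_zero.2 hA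
  have hAi : (A⁻¹).det ≠ 0 := by
    rw [det_nonsing_inv, Ring.inverse_eq_inv']
    exact inv_ne_zero hA
  have h4 := hG.aff hAi (-(A⁻¹ *ᵥ b))
  have hback : P254.aff A⁻¹ (-(A⁻¹ *ᵥ b)) '' ((fun x => A *ᵥ x + b) '' K) = K := by
    rw [image_image]
    have e : ∀ x, P254.aff A⁻¹ (-(A⁻¹ *ᵥ b)) (A *ᵥ x + b) = x := by
      intro x
      simp only [P254.aff]
      rw [mulVec_add, mulVec_mulVec, nonsing_inv_mul _ hAu, one_mulVec, add_neg_cancel_right]
    simp only [e, image_id']
  rwa [hback] at h4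

end Vale.Agent.P254.Fib
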