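import Vale.Agent.P254.Fib.Defs
import Vale.Agent.P254.FV.Cls

/-! Skeleton; never import it in a final file. -/

open MeasureTheory Set Real Matrix

namespace Vale.Agent.P254.Fib

open Vale.Agent.P254.Perm (kap)
open Vale.Agent.P254.FV (Good Dn simpC)

/-- [F0] -/
theorem simpC_kap (m : ℕ) (hm : 1 ≤ m) : simpC m * kap m = simpC (m + 1) := by
  sorry

/-- [F1] (`Perm.slices_core` with a general constant) -/
theorem core (m : ℕ) (hm : 1 ≤ m) {L : Set (ℝ × (Fin m → ℝ))} (hc : Convex ℝ L)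
    (hL : IsCompact L) (i₀ : Fin m) {C : ℝ} (hC : 0 ≤ C)
    (hmean : ∀ s i, ∫ y in {y | (s, y) ∈ L}, y i = 0)
    (hB : ∀ s, (∫ y in {y | (s, y) ∈ L}, y i₀ ^ 2) ^ m ≤
      C * (volume {y | (s, y) ∈ L}).toReal ^ (m + 2)) :
    (∀ i, (∫ p in L, p.2 i) = 0) ∧ (∀ i, (∫ p in L, p.1 * p.2 i) = 0) ∧
      (∫ p in L, p.2 i₀ ^ 2) ^ m *
        ((volume L).toReal * (∫ p in L, p.1 ^ 2) - (∫ p in L, p.1) ^ 2) ≤
        C * kap m * (volume L).toReal ^ (m + 4) := by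
  sorry

/-- [F2] equality case (`Perm.slices_eq` with a general constant) -/
theorem core_eq (m : ℕ) (hm : 1 ≤ m) {L : Set (ℝ × (Fin m → ℝ))} (hc : Convex ℝ L)
    (hL : IsCompact L) (i₀ : Fin m) {C : ℝ} (hC : 0 < C)
    (hmean : ∀ s i, ∫ y in {y | (s, y) ∈ L}, y i = 0)
    (hB : ∀ s, (∫ y in {y | (s, y) ∈ L}, y i₀ ^ 2) ^ m ≤
      C * (volume {y | (s, y) ∈ L}).toReal ^ (m + 2))
    (hvol : 0 < (volume L).toReal)
    (heq : C * kap m * (volume L).toReal ^ (m + 4) ≤ (∫ p in L, p.2 i₀ ^ 2) ^ m *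
        ((volume L).toReal * (∫ p in L, p.1 ^ 2) - (∫ p in L, p.1) ^ 2))
    (hsimp : ∀ s, 0 < (volume {y | (s, y) ∈ L}).toReal →
      C * (volume {y | (s, y) ∈ L}).toReal ^ (m + 2) ≤
        (∫ y in {y | (s, y) ∈ L}, y i₀ ^ 2) ^ m → IsSimplex {y | (s, y) ∈ L}) :
    ∃ v : Fin (m + 2) → ℝ × (Fin m → ℝ), AffineIndependent ℝ v ∧ L = convexHull ℝ (range v) := by
  sorry

/-- [F3] all sections centred -/
theorem good0 {m : ℕ} (hm : 1 ≤ m) {K : Set (Fin (m + 1) → ℝ)} (hK : IsConvexBody K)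
    (Q : Matrix (Fin m) (Fin m) ℝ)
    (hG : ∀ s, 0 < (volume (fib K s)).toReal → Good (fib K s))
    (hc : ∀ s, 0 < (volume (fib K s)).toReal → centroid (fib K s) = 0)
    (hQ : ∀ s, 0 < (volume (fib K s)).toReal → ∃ t : ℝ, covMatrix (fib K s) = t • Q) :
    Good K := by
  sorry

/-- [F4] the general slice theorem (from `good0` by a shear) -/
theorem good {m : ℕ} (hm : 1 ≤ m) {K : Set (Fin (m + 1) → ℝ)} (hK : IsConvexBody K)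
    (b₀ b₁ : Fin m → ℝ) (Q : Matrix (Fin m) (Fin m) ℝ)
    (hG : ∀ s, 0 < (volume (fib K s)).toReal → Good (fib K s))
    (hc : ∀ s, 0 < (volume (fib K s)).toReal → centroid (fib K s) = b₀ + s • b₁)
    (hQ : ∀ s, 0 < (volume (fib K s)).toReal → ∃ t : ℝ, covMatrix (fib K s) = t • Q) :
    Good K := by
  sorry

/-! ## Planar bodies with a rotational symmetry -/

/-- [R1] -/
theorem cap_mom {c : ℝ} (hc : 0 < c) {h : ℝ → ℝ} (hconc : ConcaveOn ℝ (Icc (-c) c) h)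
    (hpos : ∀ s ∈ Icc (-c) c, 0 ≤ h s) : ∫ s in (-c)..c, (s ^ 2 - c ^ 2 / 3) * h s ≤ 0 := by
  sorry

/-- [R2] -/
theorem cap_sq {a b : ℝ} (hab : a < b) {h : ℝ → ℝ} (hconc : ConcaveOn ℝ (Icc a b) h)
    (hpos : ∀ s ∈ Icc a b, 0 ≤ h s) :
    (b - a) * ∫ s in a..b, h s ^ 2 ≤ 4 / 3 * (∫ s in a..b, h s) ^ 2 := by
  sorry

/-- [R3] the body is the triangle and three congruent caps -/
theorem tri_cap {K : Set (Fin 2 → ℝ)} (hc : Convex ℝ K) (hK : IsCompact K)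
    (hinv : ∀ x ∈ K, rot 3 x ∈ K) (h1 : ![1, 0] ∈ K) (hle : ∀ x ∈ K, x 0 ^ 2 + x 1 ^ 2 ≤ 1) :
    ∃ h : ℝ → ℝ, ConcaveOn ℝ (Icc (-(√3 / 2)) (√3 / 2)) h ∧
      (∀ s ∈ Icc (-(√3 / 2)) (√3 / 2), 0 ≤ h s ∧ h s ≤ 1 / 2) ∧
      (volume K).toReal = 3 * √3 / 4 + 3 * ∫ s in (-(√3 / 2))..(√3 / 2), h s ∧
      (∫ x in K, (x 0 ^ 2 + x 1 ^ 2)) = 3 * √3 / 16 + 3 * ∫ s in (-(√3 / 2))..(√3 / 2),
        ((s ^ 2 + 1 / 4) * h s + h s ^ 2 / 2 + h s ^ 3 / 3) := by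
  sorry

/-- [R4] from [R1], [R2], [R3]; the equality case -/
theorem three_norm {K : Set (Fin 2 → ℝ)} (hc : Convex ℝ K) (hK : IsCompact K)
    (hinv : ∀ x ∈ K, rot 3 x ∈ K) (h1 : ![1, 0] ∈ K) (hle : ∀ x ∈ K, x 0 ^ 2 + x 1 ^ 2 ≤ 1) :
    (∫ x in K, (x 0 ^ 2 + x 1 ^ 2)) ≤ (volume K).toReal ^ 2 / (3 * √3) ∧
      ((∫ x in K, (x 0 ^ 2 + x 1 ^ 2)) = (volume K).toReal ^ 2 / (3 * √3) → IsSimplex K) := by
  sorry

/-- [R5] the inscribed disc -/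
theorem disc_sub (k : ℕ) (hk : 4 ≤ k) {K : Set (Fin 2 → ℝ)} (hc : Convex ℝ K) (hK : IsCompact K)
    (hinv : ∀ x ∈ K, rot k x ∈ K) (h1 : ![1, 0] ∈ K) (x : Fin 2 → ℝ)
    (hx : x 0 ^ 2 + x 1 ^ 2 ≤ 1 / 2) : x ∈ K := by
  sorry

/-- [R6] polar coordinates: `∫ ρ⁴ / 4 ≤ ∫ (3 ρ² - 1) / 8` -/
theorem disc_mom {K : Set (Fin 2 → ℝ)} (hc : Convex ℝ K) (hK : IsCompact K)
    (h0 : ∀ x : Fin 2 → ℝ, x 0 ^ 2 + x 1 ^ 2 ≤ 1 / 2 → x ∈ K)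
    (hle : ∀ x ∈ K, x 0 ^ 2 + x 1 ^ 2 ≤ 1) :
    (∫ x in K, (x 0 ^ 2 + x 1 ^ 2)) ≤ (3 * (volume K).toReal - π) / 4 := by
  sorry

/-- [R7] from [R5], [R6]: strict inequality, `27 √3 < 16 π` -/
theorem four_norm (k : ℕ) (hk : 4 ≤ k) {K : Set (Fin 2 → ℝ)} (hc : Convex ℝ K) (hK : IsCompact K)
    (hinv : ∀ x ∈ K, rot k x ∈ K) (h1 : ![1, 0] ∈ K) (hle : ∀ x ∈ K, x 0 ^ 2 + x 1 ^ 2 ≤ 1) :
    (∫ x in K, (x 0 ^ 2 + x 1 ^ 2)) < (volume K).toReal ^ 2 / (3 * √3) := by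
  sorry

/-- [R8] from [R4], [R7]: rotate and scale the farthest point of `K` to `(1, 0)` -/
theorem plane_mom (k : ℕ) (hk : 3 ≤ k) {K : Set (Fin 2 → ℝ)} (hK : IsConvexBody K)
    (hinv : ∀ x ∈ K, rot k x ∈ K) :
    (∫ x in K, (x 0 ^ 2 + x 1 ^ 2)) ≤ (volume K).toReal ^ 2 / (3 * √3) ∧
      ((∫ x in K, (x 0 ^ 2 + x 1 ^ 2)) = (volume K).toReal ^ 2 / (3 * √3) → IsSimplex K) := by
  sorry

/-- [R9] centroid and covariance of a planar body with a rotational symmetry -/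
theorem plane_cov (k : ℕ) (hk : 3 ≤ k) {K : Set (Fin 2 → ℝ)} (hK : IsConvexBody K)
    (hinv : ∀ x ∈ K, rot k x ∈ K) :
    centroid K = 0 ∧ covMatrix K =
      ((∫ x in K, (x 0 ^ 2 + x 1 ^ 2)) / (2 * (volume K).toReal)) • (1 : Matrix _ _ ℝ) := by
  sorry

/-- [R10] from [R8], [R9]; `simpC 2 = 1 / 108` -/
theorem plane_good (k : ℕ) (hk : 3 ≤ k) {K : Set (Fin 2 → ℝ)} (hK : IsConvexBody K)
    (hinv : ∀ x ∈ K, rot k x ∈ K) : Good K := by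
  sorry

/-- [R11] from `good0`, `plane_cov`, `plane_good` -/
theorem space_good (k : ℕ) (hk : 3 ≤ k) {K : Set (Fin 3 → ℝ)} (hK : IsConvexBody K)
    (hinv : ∀ x ∈ K, ![x 0, cos (2 * π / k) * x 1 - sin (2 * π / k) * x 2,
      sin (2 * π / k) * x 1 + cos (2 * π / k) * x 2] ∈ K) : Good K := by
  sorry

end Vale.Agent.P254.Fib
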