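import Vale.Agent.P254.Fib.Defs
import Vale.Agent.P254.Bdl.B2
import Vale.Agent.P254.Bdl.B7
import Vale.Agent.P254.Bdl.B10
import Vale.Agent.P254.Bdl.B17
import Vale.Agent.P254.Bdl.B20

/-!
P254: planar bodies with a rotational symmetry, and the bodies of three-space with an axis of
rotational symmetry, from the slice theorem and the planar moment inequality.
-/

open MeasureTheory Set Real Matrix

namespace Vale.Agent.P254.Fib

open Vale.Agent.P254.FV (Good Dn simpC)

namespace H598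

theorem simpC_two : simpC 2 = 1 / 108 := by
  unfold simpC
  norm_num [Nat.factorial]

/-- [R10] with the planar facts as hypotheses -/
theorem plane_good_of {K : Set (Fin 2 → ℝ)} (hK : IsConvexBody K)
    (hmom : (∫ x in K, (x 0 ^ 2 + x 1 ^ 2)) ≤ (volume K).toReal ^ 2 / (3 * √3) ∧
      ((∫ x in K, (x 0 ^ 2 + x 1 ^ 2)) = (volume K).toReal ^ 2 / (3 * √3) → IsSimplex K))
    (hcov : covMatrix K =
      ((∫ x in K, (x 0 ^ 2 + x 1 ^ 2)) / (2 * (volume K).toReal)) • (1 : Matrix _ _ ℝ)) :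
    Good K := by
  have hV0 : (volume K).toReal ≠ 0 := (FV.vol_pos hK).ne'
  have hV : 0 < (volume K).toReal := lt_of_le_of_ne ENNReal.toReal_nonneg hV0.symm
  have hI : 0 ≤ ∫ x in K, (x 0 ^ 2 + x 1 ^ 2) :=
    setIntegral_nonneg hK.2.1.measurableSet fun x _ => by positivity
  obtain ⟨h1, h2⟩ := hmom
  set I := ∫ x in K, (x 0 ^ 2 + x 1 ^ 2) with hIdef
  set V := (volume K).toReal with hVdef
  have hD : Dn K = I ^ 2 / (4 * V ^ 4) := by
    unfold Dn
    rw [hcov, det_smul, det_one, Fintype.card_fin, ← hVdef]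
    field_simp
    ring
  have h3 : √3 ^ 2 = 3 := Real.sq_sqrt (by norm_num)
  have h30 : 0 < √3 := Real.sqrt_pos.2 (by norm_num)
  have hB : (V ^ 2 / (3 * √3)) ^ 2 = V ^ 4 / 27 := by
    rw [div_pow, mul_pow, h3]
    ring
  refine ⟨by norm_num, hK, ?_, fun h => ?_⟩
  · rw [hD, simpC_two, div_le_div_iff₀ (by positivity) (by norm_num)]
    have h4 := pow_le_pow_left₀ hI h1 2
    rw [hB] at h4
    linarith
  · rw [hD, simpC_two, div_eq_div_iff (by positivity) (by norm_num)] at h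
    apply h2
    have h4 : I ^ 2 = (V ^ 2 / (3 * √3)) ^ 2 := by
      rw [hB]; linarith
    exact (pow_left_inj₀ hI (by positivity) two_ne_zero).1 h4

theorem fib_eq {m : ℕ} (K : Set (Fin (m + 1) → ℝ)) (s : ℝ) :
    fib K s = Fin.tail '' (K ∩ {x | x 0 = s}) := by
  ext y
  constructor
  · intro h
    exact ⟨Fin.cons s y, ⟨h, by simp⟩, by simp⟩
  · rintro ⟨x, ⟨hx, hs⟩, rfl⟩
    have e : (Fin.cons s (Fin.tail x) : Fin (m + 1) → ℝ) = x := by
      rw [← show x 0 = s from hs]
      exact Fin.cons_self_tail x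
    show (Fin.cons s (Fin.tail x) : Fin (m + 1) → ℝ) ∈ K
    rw [e]
    exact hx

theorem compact_fib {m : ℕ} {K : Set (Fin (m + 1) → ℝ)} (hK : IsCompact K) (s : ℝ) :
    IsCompact (fib K s) := by
  rw [fib_eq]
  refine (hK.inter_right (isClosed_eq (continuous_apply 0) continuous_const)).image ?_
  exact continuous_pi fun i => continuous_apply i.succ

theorem convex_fib {m : ℕ} {K : Set (Fin (m + 1) → ℝ)} (hK : Convex ℝ K) (s : ℝ) :
    Convex ℝ (fib K s) := by
  intro y hy z hz a b ha hb hab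
  have h := hK hy hz ha hb hab
  show (Fin.cons s (a • y + b • z) : Fin (m + 1) → ℝ) ∈ K
  convert h using 1
  ext i
  refine Fin.cases ?_ (fun j => ?_) i
  · simp [← add_mul, hab]
  · simp

/-- [R11] from the slice theorem and the planar facts -/
theorem space_good_of (k : ℕ)
    (good0 : ∀ {K : Set (Fin (2 + 1) → ℝ)}, IsConvexBody K → ∀ Q : Matrix (Fin 2) (Fin 2) ℝ,
      (∀ s, 0 < (volume (fib K s)).toReal → Good (fib K s)) →
      (∀ s, 0 < (volume (fib K s)).toReal → centroid (fib K s) = 0) →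
      (∀ s, 0 < (volume (fib K s)).toReal → ∃ t : ℝ, covMatrix (fib K s) = t • Q) → Good K)
    (plane_good : ∀ {K : Set (Fin 2 → ℝ)}, IsConvexBody K → (∀ x ∈ K, rot k x ∈ K) → Good K)
    (plane_cov : ∀ {K : Set (Fin 2 → ℝ)}, IsConvexBody K → (∀ x ∈ K, rot k x ∈ K) →
      centroid K = 0 ∧ covMatrix K =
        ((∫ x in K, (x 0 ^ 2 + x 1 ^ 2)) / (2 * (volume K).toReal)) • (1 : Matrix _ _ ℝ))
    {K : Set (Fin 3 → ℝ)} (hK : IsConvexBody K)
    (hinv : ∀ x ∈ K, ![x 0, cos (2 * π / k) * x 1 - sin (2 * π / k) * x 2,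
      sin (2 * π / k) * x 1 + cos (2 * π / k) * x 2] ∈ K) : Good K := by
  have hb : ∀ s, 0 < (volume (fib (m := 2) K s)).toReal → IsConvexBody (fib (m := 2) K s) := by
    intro s hs
    exact FV.body_of_vol (convex_fib hK.1 s) (compact_fib hK.2.1 s) hs.ne'
  have hi : ∀ s, ∀ y ∈ fib (m := 2) K s, rot k y ∈ fib (m := 2) K s := by
    intro s y hy
    have h := hinv _ hy
    show (Fin.cons s (rot k y) : Fin (2 + 1) → ℝ) ∈ K
    convert h using 1
    ext i
    fin_cases i <;> rfl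
  exact good0 hK 1 (fun s hs => plane_good (hb s hs) (hi s))
    (fun s hs => (plane_cov (hb s hs) (hi s)).1)
    (fun s hs => ⟨_, (plane_cov (hb s hs) (hi s)).2⟩)

end H598

end Vale.Agent.P254.Fib
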