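import Vale.Agent.P254.Fib.Defs
import Vale.Agent.P254.FV.Good

/-!
P254/Fib: [R10] and [R11], planar and spatial bodies with a rotational symmetry are good, from
[R8] (the second moment), [R9] (the covariance) and [F3] (the slice theorem).
-/

open MeasureTheory Set Real Matrix

namespace Vale.Agent.P254.Fib

open Vale.Agent.P254.FV (Good Dn simpC)

namespace H169

theorem simpC_two : simpC 2 = 1 / 108 := by
  unfold simpC
  norm_num [Nat.factorial]

/-- [R10] from [R8], [R9] -/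
theorem plane_good_of
    (PM : ∀ (k : ℕ), 3 ≤ k → ∀ {K : Set (Fin 2 → ℝ)}, IsConvexBody K → (∀ x ∈ K, rot k x ∈ K) →
      (∫ x in K, (x 0 ^ 2 + x 1 ^ 2)) ≤ (volume K).toReal ^ 2 / (3 * √3) ∧
        ((∫ x in K, (x 0 ^ 2 + x 1 ^ 2)) = (volume K).toReal ^ 2 / (3 * √3) → IsSimplex K))
    (PC : ∀ (k : ℕ), 3 ≤ k → ∀ {K : Set (Fin 2 → ℝ)}, IsConvexBody K → (∀ x ∈ K, rot k x ∈ K) →
      centroid K = 0 ∧ covMatrix K =
        ((∫ x in K, (x 0 ^ 2 + x 1 ^ 2)) / (2 * (volume K).toReal)) • (1 : Matrix _ _ ℝ))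
    (k : ℕ) (hk : 3 ≤ k) {K : Set (Fin 2 → ℝ)} (hK : IsConvexBody K)
    (hinv : ∀ x ∈ K, rot k x ∈ K) : Good K := by
  have hV := FV.vol_pos hK
  obtain ⟨m1, m2⟩ := PM k hk hK hinv
  obtain ⟨_, c2⟩ := PC k hk hK hinv
  set I := ∫ x in K, (x 0 ^ 2 + x 1 ^ 2) with hI
  set V := (volume K).toReal with hVd
  have hI0 : 0 ≤ I := integral_nonneg fun x => by positivity
  have hD : Dn K = I ^ 2 / (4 * V ^ 4) := by
    unfold Dn
    rw [c2, det_smul, det_one, Fintype.card_fin, ← hVd]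
    field_simp
    ring
  have h3 : (√3 : ℝ) ^ 2 = 3 := Real.sq_sqrt (by norm_num)
  have h30 : (0 : ℝ) < √3 := Real.sqrt_pos.2 (by norm_num)
  have e27 : (V ^ 2 / (3 * √3)) ^ 2 = V ^ 4 / 27 := by
    rw [div_pow, mul_pow, h3]
    ring
  refine ⟨by norm_num, hK, ?_, fun h => m2 ?_⟩
  · rw [hD, simpC_two, div_le_div_iff₀ (by positivity) (by norm_num)]
    have h1 : I ^ 2 ≤ V ^ 4 / 27 := by
      rw [← e27]
      exact pow_le_pow_left₀ hI0 m1 2
    linarith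
  · rw [hD, simpC_two, div_eq_div_iff (by positivity) (by norm_num)] at h
    have h1 : I ^ 2 = (V ^ 2 / (3 * √3)) ^ 2 := by
      rw [e27]
      linarith
    exact (pow_left_inj₀ hI0 (by positivity) (by norm_num)).1 h1

theorem fib_mem {m : ℕ} {K : Set (Fin (m + 1) → ℝ)} {s : ℝ} {y : Fin m → ℝ} :
    y ∈ fib K s ↔ (Fin.cons s y : Fin (m + 1) → ℝ) ∈ K := Iff.rfl

theorem convex_fib {m : ℕ} {K : Set (Fin (m + 1) → ℝ)} (hK : Convex ℝ K) (s : ℝ) :
    Convex ℝ (fib K s) := by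
  intro x hx y hy a b ha hb hab
  have h := hK hx hy ha hb hab
  rw [fib_mem]
  convert h using 1
  funext i
  refine Fin.cases ?_ (fun j => ?_) i
  · simp only [Fin.cons_zero, Pi.add_apply, Pi.smul_apply, smul_eq_mul]
    rw [← add_mul, hab, one_mul]
  · simp only [Fin.cons_succ, Pi.add_apply, Pi.smul_apply, smul_eq_mul]

theorem continuous_cons {m : ℕ} (s : ℝ) :
    Continuous fun y : Fin m → ℝ => (Fin.cons s y : Fin (m + 1) → ℝ) := by
  refine continuous_pi fun i => ?_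
  refine Fin.cases ?_ (fun j => ?_) i
  · simpa using continuous_const
  · simpa using continuous_apply j

theorem isCompact_fib {m : ℕ} {K : Set (Fin (m + 1) → ℝ)} (hK : IsCompact K) (s : ℝ) :
    IsCompact (fib K s) := by
  have hcl : IsClosed (fib K s) := hK.isClosed.preimage (continuous_cons s)
  have him : IsCompact ((fun x : Fin (m + 1) → ℝ => fun j : Fin m => x j.succ) '' K) :=
    hK.image (by fun_prop)
  refine him.of_isClosed_subset hcl fun y hy => ?_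
  exact ⟨Fin.cons s y, hy, by funext j; simp⟩

theorem fib_rot {k : ℕ} {K : Set (Fin 3 → ℝ)}
    (hinv : ∀ x ∈ K, ![x 0, cos (2 * π / k) * x 1 - sin (2 * π / k) * x 2,
      sin (2 * π / k) * x 1 + cos (2 * π / k) * x 2] ∈ K) (s : ℝ) :
    ∀ y ∈ fib K s, rot k y ∈ fib K s := by
  intro y hy
  have h := hinv _ hy
  rw [fib_mem]
  convert h using 1
  funext i
  fin_cases i <;> rfl

/-- [R11] from [F3], [R9], [R10] -/
theorem space_good_of
    (G0 : ∀ {m : ℕ}, 1 ≤ m → ∀ {K : Set (Fin (m + 1) → ℝ)}, IsConvexBody K →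
      ∀ (Q : Matrix (Fin m) (Fin m) ℝ),
      (∀ s, 0 < (volume (fib K s)).toReal → Good (fib K s)) →
      (∀ s, 0 < (volume (fib K s)).toReal → centroid (fib K s) = 0) →
      (∀ s, 0 < (volume (fib K s)).toReal → ∃ t : ℝ, covMatrix (fib K s) = t • Q) → Good K)
    (PG : ∀ (k : ℕ), 3 ≤ k → ∀ {K : Set (Fin 2 → ℝ)}, IsConvexBody K →
      (∀ x ∈ K, rot k x ∈ K) → Good K)
    (PC : ∀ (k : ℕ), 3 ≤ k → ∀ {K : Set (Fin 2 → ℝ)}, IsConvexBody K → (∀ x ∈ K, rot k x ∈ K) →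
      centroid K = 0 ∧ covMatrix K =
        ((∫ x in K, (x 0 ^ 2 + x 1 ^ 2)) / (2 * (volume K).toReal)) • (1 : Matrix _ _ ℝ))
    (k : ℕ) (hk : 3 ≤ k) {K : Set (Fin 3 → ℝ)} (hK : IsConvexBody K)
    (hinv : ∀ x ∈ K, ![x 0, cos (2 * π / k) * x 1 - sin (2 * π / k) * x 2,
      sin (2 * π / k) * x 1 + cos (2 * π / k) * x 2] ∈ K) : Good K := by
  have hb : ∀ s, 0 < (volume (fib K s)).toReal → IsConvexBody (fib K s) := fun s hs =>
    FV.body_of_vol (convex_fib hK.1 s) (isCompact_fib hK.2.1 s) hs.ne'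
  have hr : ∀ s, ∀ y ∈ fib K s, rot k y ∈ fib K s := fun s => fib_rot hinv s
  exact G0 (m := 2) (by norm_num) hK 1 (fun s hs => PG k hk (hb s hs) (hr s))
    (fun s hs => (PC k hk (hb s hs) (hr s)).1)
    (fun s hs => ⟨_, (PC k hk (hb s hs) (hr s)).2⟩)

end H169

end Vale.Agent.P254.Fib
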