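import Vale.Agent.P254.Fib.Defs

/-! P254: a planar convex body with a rotational symmetry of order three is an equilateral triangle
and three congruent caps. -/

open MeasureTheory Set Real

namespace Vale.Agent.P254.Fib.TC741

theorem fub1 {A : Set (Fin 2 → ℝ)} (hA : MeasurableSet A) {G : (Fin 2 → ℝ) → ℝ}
    (hG : IntegrableOn G A) :
    ∫ x in A, G x = ∫ a : ℝ, ∫ b in {b : ℝ | (![a, b] : Fin 2 → ℝ) ∈ A}, G ![a, b] := by
  have e := (volume_preserving_finTwoArrow ℝ).symm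
  have h1 : ∀ p : ℝ × ℝ, (MeasurableEquiv.finTwoArrow.symm p : Fin 2 → ℝ) = ![p.1, p.2] := by
    intro p
    rfl
  have h2 : Integrable (fun p : ℝ × ℝ => A.indicator G ![p.1, p.2]) := by
    have h3 := (e.integrable_comp_emb (MeasurableEquiv.measurableEmbedding _)).2
      ((integrable_indicator_iff hA).2 hG)
    exact h3
  rw [← integral_indicator hA, ← e.integral_comp']
  show ∫ p : ℝ × ℝ, A.indicator G ![p.1, p.2] = _
  rw [Measure.volume_eq_prod] at h2 ⊢
  rw [integral_prod _ h2]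
  refine integral_congr_ae (Filter.Eventually.of_forall fun a => ?_)
  have h4 : MeasurableSet {b : ℝ | (![a, b] : Fin 2 → ℝ) ∈ A} := by
    have h5 : Measurable fun b : ℝ => (![a, b] : Fin 2 → ℝ) := by
      refine measurable_pi_iff.2 fun i => ?_
      fin_cases i
      · exact measurable_const
      · exact measurable_id
    exact h5 hA
  show ∫ b : ℝ, A.indicator G ![a, b] = ∫ b in {b : ℝ | (![a, b] : Fin 2 → ℝ) ∈ A}, G ![a, b]
  rw [← integral_indicator h4]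
  rfl

theorem fub2 {A : Set (Fin 2 → ℝ)} (hA : MeasurableSet A) {G : (Fin 2 → ℝ) → ℝ}
    (hG : IntegrableOn G A) :
    ∫ x in A, G x = ∫ b : ℝ, ∫ a in {a : ℝ | (![a, b] : Fin 2 → ℝ) ∈ A}, G ![a, b] := by
  have e := (volume_preserving_finTwoArrow ℝ).symm
  have h2 : Integrable (fun p : ℝ × ℝ => A.indicator G ![p.1, p.2]) := by
    have h3 := (e.integrable_comp_emb (MeasurableEquiv.measurableEmbedding _)).2
      ((integrable_indicator_iff hA).2 hG)
    exact h3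
  rw [← integral_indicator hA, ← e.integral_comp']
  show ∫ p : ℝ × ℝ, A.indicator G ![p.1, p.2] = _
  rw [Measure.volume_eq_prod] at h2 ⊢
  rw [integral_prod_symm _ h2]
  refine integral_congr_ae (Filter.Eventually.of_forall fun b => ?_)
  have h4 : MeasurableSet {a : ℝ | (![a, b] : Fin 2 → ℝ) ∈ A} := by
    have h5 : Measurable fun a : ℝ => (![a, b] : Fin 2 → ℝ) := by
      refine measurable_pi_iff.2 fun i => ?_
      fin_cases i
      · exact measurable_id
      · exact measurable_const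
    exact h5 hA
  show ∫ a : ℝ, A.indicator G ![a, b] = ∫ a in {a : ℝ | (![a, b] : Fin 2 → ℝ) ∈ A}, G ![a, b]
  rw [← integral_indicator h4]
  rfl

theorem rot3 (x : Fin 2 → ℝ) :
    rot 3 x = ![-(1 / 2) * x 0 - √3 / 2 * x 1, √3 / 2 * x 0 - 1 / 2 * x 1] := by
  have h1 : cos (2 * π / (3 : ℕ)) = -(1 / 2) := by
    have h : 2 * π / (3 : ℕ) = π - π / 3 := by push_cast; ring
    rw [h, cos_pi_sub, cos_pi_div_three]
  have h2 : sin (2 * π / (3 : ℕ)) = √3 / 2 := by
    have h : 2 * π / (3 : ℕ) = π - π / 3 := by push_cast; ring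
    rw [h, sin_pi_sub, sin_pi_div_three]
  unfold rot
  rw [h1, h2]
  ext i
  fin_cases i
  · simp
  · simp; ring

/-- the rotation as a linear map -/
noncomputable def rotL : (Fin 2 → ℝ) →ₗ[ℝ] (Fin 2 → ℝ) :=
  Matrix.toLin' !![-(1 / 2), -(√3 / 2); √3 / 2, -(1 / 2)]

theorem rotL_apply (x : Fin 2 → ℝ) : rotL x = rot 3 x := by
  rw [rot3, rotL, Matrix.toLin'_apply]
  ext i
  fin_cases i
  · simp [Matrix.mulVec, dotProduct, Fin.sum_univ_two]; ring
  · simp [Matrix.mulVec, dotProduct, Fin.sum_univ_two]; ring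

theorem s3 : √3 * √3 = 3 := Real.mul_self_sqrt (by norm_num)

theorem det_rotL : LinearMap.det rotL = 1 := by
  rw [rotL, LinearMap.det_toLin', Matrix.det_fin_two_of]
  have := s3
  nlinarith

theorem mp_rot : MeasurePreserving (rot 3) (volume : Measure (Fin 2 → ℝ)) volume := by
  have h1 : (rot 3 : (Fin 2 → ℝ) → (Fin 2 → ℝ)) = rotL := by
    ext1 x
    exact (rotL_apply x).symm
  rw [h1]
  refine ⟨(LinearMap.continuous_of_finiteDimensional rotL).measurable, ?_⟩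
  have h2 := Real.map_linearMap_volume_pi_eq_smul_volume_pi (f := rotL)
    (by rw [det_rotL]; norm_num)
  rw [h2, det_rotL]
  simp

theorem rot_zero (x : Fin 2 → ℝ) : rot 3 x 0 = -(1 / 2) * x 0 - √3 / 2 * x 1 := by
  rw [rot3]; rfl

theorem rot_one (x : Fin 2 → ℝ) : rot 3 x 1 = √3 / 2 * x 0 - 1 / 2 * x 1 := by
  rw [rot3]; rfl

theorem rot2_zero (x : Fin 2 → ℝ) : rot 3 (rot 3 x) 0 = -(1 / 2) * x 0 + √3 / 2 * x 1 := by
  rw [rot_zero, rot_zero, rot_one]
  have := s3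
  linear_combination (-(1 / 4) * x 0) * this

theorem rot2_one (x : Fin 2 → ℝ) : rot 3 (rot 3 x) 1 = -(√3 / 2) * x 0 - 1 / 2 * x 1 := by
  rw [rot_one, rot_zero, rot_one]
  have := s3
  linear_combination (-(1 / 4) * x 1) * this

theorem rot_rot_rot (x : Fin 2 → ℝ) : rot 3 (rot 3 (rot 3 x)) = x := by
  have := s3
  ext i
  fin_cases i
  · show rot 3 (rot 3 (rot 3 x)) 0 = x 0
    rw [rot_zero, rot2_zero, rot2_one]
    linear_combination (1 / 4 * x 0) * this
  · show rot 3 (rot 3 (rot 3 x)) 1 = x 1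
    rw [rot_one, rot2_zero, rot2_one]
    linear_combination (1 / 4 * x 1) * this

theorem rot_sq (x : Fin 2 → ℝ) : rot 3 x 0 ^ 2 + rot 3 x 1 ^ 2 = x 0 ^ 2 + x 1 ^ 2 := by
  have := s3
  rw [rot_zero, rot_one]
  linear_combination (1 / 4 * (x 0 ^ 2 + x 1 ^ 2)) * this

/-- the triangle -/
def TT : Set (Fin 2 → ℝ) :=
  {x | -(1 / 2) ≤ x 0 ∧ -(1 / 2) ≤ rot 3 x 0 ∧ -(1 / 2) ≤ rot 3 (rot 3 x) 0}

theorem cont_rot : Continuous (rot 3) := by
  have h1 : (rot 3 : (Fin 2 → ℝ) → (Fin 2 → ℝ)) = rotL := by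
    ext1 x
    exact (rotL_apply x).symm
  rw [h1]
  exact LinearMap.continuous_of_finiteDimensional rotL

theorem isClosed_TT : IsClosed TT := by
  have h0 : Continuous fun x : Fin 2 → ℝ => x 0 := continuous_apply 0
  have h1 : Continuous fun x : Fin 2 → ℝ => rot 3 x 0 := h0.comp cont_rot
  have h2 : Continuous fun x : Fin 2 → ℝ => rot 3 (rot 3 x) 0 := h1.comp cont_rot
  exact (isClosed_le continuous_const h0).inter
    ((isClosed_le continuous_const h1).inter (isClosed_le continuous_const h2))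

section body

variable {K : Set (Fin 2 → ℝ)}

/-- the cap -/
def cap (K : Set (Fin 2 → ℝ)) : Set (Fin 2 → ℝ) := {x | x ∈ K ∧ x 0 < -(1 / 2)}

theorem ms_cap (hK : IsCompact K) : MeasurableSet (cap K) :=
  hK.measurableSet.inter
    (isOpen_lt (continuous_apply 0) continuous_const).measurableSet

theorem rot_pre (hinv : ∀ x ∈ K, rot 3 x ∈ K) : rot 3 ⁻¹' K = K := by
  ext x
  constructor
  · intro hx
    have h1 := hinv _ (hinv _ hx)
    rwa [rot_rot_rot] at h1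
  · exact fun hx => hinv x hx

theorem TT_sub (hc : Convex ℝ K) (hinv : ∀ x ∈ K, rot 3 x ∈ K) (h1 : ![1, 0] ∈ K) : TT ⊆ K := by
  intro x hx
  obtain ⟨ha, hb, hd⟩ := hx
  have s := s3
  rw [rot_zero] at hb
  rw [rot2_zero] at hd
  have k2 := hinv _ h1
  have k3 := hinv _ k2
  have e2 : rot 3 (![1, 0] : Fin 2 → ℝ) = ![-(1 / 2), √3 / 2] := by
    rw [rot3]
    simp
  have e3 : rot 3 (![-(1 / 2), √3 / 2] : Fin 2 → ℝ) = ![-(1 / 2), -(√3 / 2)] := by
    rw [rot3]
    ext i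
    fin_cases i
    · simp
      nlinarith
    · simp
      ring
  rw [e2] at k2 k3
  rw [e3] at k3
  have h5 := hc.sum_mem (t := Finset.univ) (w := ![(2 * x 0 + 1) / 3,
    (2 * (-(1 / 2) * x 0 + √3 / 2 * x 1) + 1) / 3,
    (2 * (-(1 / 2) * x 0 - √3 / 2 * x 1) + 1) / 3])
    (z := ![![1, 0], ![-(1 / 2), √3 / 2], ![-(1 / 2), -(√3 / 2)]]) (by
      intro i _
      fin_cases i
      · simp; linarith
      · simp; linarith
      · simp; linarith) (by
      rw [Fin.sum_univ_three]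
      simp
      ring) (by
      intro i _
      fin_cases i
      · exact h1
      · exact k2
      · exact k3)
  convert h5 using 1
  rw [Fin.sum_univ_three]
  ext i
  fin_cases i
  · simp
    ring
  · simp
    linear_combination (-(1 / 3) * x 1) * s

theorem K_eq (hc : Convex ℝ K) (hinv : ∀ x ∈ K, rot 3 x ∈ K) (h1 : ![1, 0] ∈ K) :
    K = TT ∪ (cap K ∪ (rot 3 ⁻¹' cap K ∪ rot 3 ⁻¹' (rot 3 ⁻¹' cap K))) := by
  ext x
  constructor
  · intro hx
    by_cases ha : x 0 < -(1 / 2)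
    · exact Or.inr (Or.inl ⟨hx, ha⟩)
    by_cases hb : rot 3 x 0 < -(1 / 2)
    · exact Or.inr (Or.inr (Or.inl ⟨hinv x hx, hb⟩))
    by_cases hd : rot 3 (rot 3 x) 0 < -(1 / 2)
    · exact Or.inr (Or.inr (Or.inr ⟨hinv _ (hinv x hx), hd⟩))
    exact Or.inl ⟨not_lt.1 ha, not_lt.1 hb, not_lt.1 hd⟩
  · rintro (hx | hx | hx | hx)
    · exact TT_sub hc hinv h1 hx
    · exact hx.1
    · have := hx.1
      rw [← rot_pre hinv]
      exact this
    · have h2 : rot 3 (rot 3 x) ∈ K := hx.1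
      have h3 : rot 3 x ∈ K := by
        rw [← rot_pre hinv]
        exact h2
      rw [← rot_pre hinv]
      exact h3

/-- additivity -/
theorem split (hc : Convex ℝ K) (hK : IsCompact K)
    (hinv : ∀ x ∈ K, rot 3 x ∈ K) (h1 : ![1, 0] ∈ K) (hle : ∀ x ∈ K, x 0 ^ 2 + x 1 ^ 2 ≤ 1)
    {G : (Fin 2 → ℝ) → ℝ} (hG : Continuous G) (hGr : ∀ x, G (rot 3 x) = G x) :
    ∫ x in K, G x = (∫ x in TT, G x) + 3 * ∫ x in cap K, G x := by
  have hm := ms_cap hK
  have hm1 : MeasurableSet (rot 3 ⁻¹' cap K) := cont_rot.measurable hm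
  have hm2 : MeasurableSet (rot 3 ⁻¹' (rot 3 ⁻¹' cap K)) := cont_rot.measurable hm1
  have hi : ∀ B ⊆ K, IntegrableOn G B := fun B hB =>
    (hG.continuousOn.integrableOn_compact hK).mono_set hB
  have hKe := K_eq hc hinv h1
  have s0 : TT ⊆ K := TT_sub hc hinv h1
  have s1 : cap K ⊆ K := fun x hx => hx.1
  have s2 : rot 3 ⁻¹' cap K ⊆ K := by
    intro x hx
    rw [hKe]
    exact Or.inr (Or.inr (Or.inl hx))
  have s3' : rot 3 ⁻¹' (rot 3 ⁻¹' cap K) ⊆ K := by
    intro x hx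
    rw [hKe]
    exact Or.inr (Or.inr (Or.inr hx))
  have key : ∀ y ∈ K, y 0 < -(1 / 2) → rot 3 y 0 < -(1 / 2) → False := by
    intro y hy ha hb
    have h2 := hle _ (hinv _ (hinv _ hy))
    have h3 : rot 3 (rot 3 y) 0 = -(y 0) - rot 3 y 0 := by
      rw [rot2_zero, rot_zero]
      ring
    rw [h3] at h2
    nlinarith [sq_nonneg (rot 3 (rot 3 y) 1)]
  have key2 : ∀ y ∈ K, y 0 < -(1 / 2) → rot 3 (rot 3 y) 0 < -(1 / 2) → False := by
    intro y hy ha hb
    have h2 := hle _ (hinv _ hy)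
    have h3 : rot 3 y 0 = -(y 0) - rot 3 (rot 3 y) 0 := by
      rw [rot2_zero, rot_zero]
      ring
    rw [h3] at h2
    nlinarith [sq_nonneg (rot 3 y 1)]
  have d2 : Disjoint (rot 3 ⁻¹' cap K) (rot 3 ⁻¹' (rot 3 ⁻¹' cap K)) := by
    rw [Set.disjoint_left]
    intro x hx hy
    exact key _ hx.1 hx.2 hy.2
  have d1 : Disjoint (cap K) (rot 3 ⁻¹' cap K ∪ rot 3 ⁻¹' (rot 3 ⁻¹' cap K)) := by
    rw [Set.disjoint_left]
    rintro x hx (hy | hy)
    · exact key _ hx.1 hx.2 hy.2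
    · exact key2 _ hx.1 hx.2 hy.2
  have d0 : Disjoint TT (cap K ∪ (rot 3 ⁻¹' cap K ∪ rot 3 ⁻¹' (rot 3 ⁻¹' cap K))) := by
    rw [Set.disjoint_left]
    rintro x hx (hy | hy | hy)
    · exact absurd hy.2 (not_lt.2 hx.1)
    · exact absurd hy.2 (not_lt.2 hx.2.1)
    · exact absurd hy.2 (not_lt.2 hx.2.2)
  have i1 : ∫ x in rot 3 ⁻¹' cap K, G x = ∫ x in cap K, G x := by
    have h3 := setIntegral_map (μ := (volume : Measure (Fin 2 → ℝ))) (g := rot 3) (f := G) hm
      hG.aestronglyMeasurable cont_rot.measurable.aemeasurable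
    rw [mp_rot.map_eq] at h3
    rw [h3]
    exact setIntegral_congr_fun hm1 fun x _ => (hGr x).symm
  have i2 : ∫ x in rot 3 ⁻¹' (rot 3 ⁻¹' cap K), G x = ∫ x in cap K, G x := by
    have h3 := setIntegral_map (μ := (volume : Measure (Fin 2 → ℝ))) (g := rot 3) (f := G) hm1
      hG.aestronglyMeasurable cont_rot.measurable.aemeasurable
    rw [mp_rot.map_eq] at h3
    rw [← i1, h3]
    exact setIntegral_congr_fun hm2 fun x _ => (hGr x).symm
  conv_lhs => rw [hKe]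
  rw [setIntegral_union d0 (hm.union (hm1.union hm2)) (hi _ s0)
      ((hi _ s1).union ((hi _ s2).union (hi _ s3'))),
    setIntegral_union d1 (hm1.union hm2) (hi _ s1) ((hi _ s2).union (hi _ s3')),
    setIntegral_union d2 hm2 (hi _ s2) (hi _ s3'), i1, i2]
  ring

theorem s3pos : 0 < √3 := Real.sqrt_pos.2 (by norm_num)

theorem TT_slice (a : ℝ) : {b : ℝ | (![a, b] : Fin 2 → ℝ) ∈ TT} =
    if a ∈ Icc (-(1 / 2) : ℝ) 1 then Icc (-((1 - a) / √3)) ((1 - a) / √3) else ∅ := by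
  have s := s3
  have sp := s3pos
  have e : ∀ b : ℝ, (![a, b] : Fin 2 → ℝ) ∈ TT ↔
      -(1 / 2) ≤ a ∧ √3 * b ≤ 1 - a ∧ -(√3 * b) ≤ 1 - a := by
    intro b
    unfold TT
    rw [mem_ofPred_eq, rot2_zero, rot_zero]
    simp only [Matrix.cons_val_zero, Matrix.cons_val_one]
    constructor
    · rintro ⟨h1, h2, h3⟩
      exact ⟨h1, by linarith, by linarith⟩
    · rintro ⟨h1, h2, h3⟩
      exact ⟨h1, by linarith, by linarith⟩
  ext b
  rw [mem_ofPred_eq, e]
  split_ifs with ha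
  · have e1 : -((1 - a) / √3) ≤ b ↔ -(√3 * b) ≤ 1 - a := by
      rw [neg_le, le_div_iff₀ sp]
      constructor <;> intro h <;> linarith
    have e2 : b ≤ (1 - a) / √3 ↔ √3 * b ≤ 1 - a := by
      rw [le_div_iff₀ sp, mul_comm]
    rw [mem_Icc, e1, e2]
    exact ⟨fun h => ⟨h.2.2, h.2.1⟩, fun h => ⟨ha.1, h.2, h.1⟩⟩
  · simp only [mem_empty_iff_false, iff_false]
    rintro ⟨h1, h2, h3⟩
    exact ha ⟨h1, by linarith⟩

theorem int_TT {G : (Fin 2 → ℝ) → ℝ} (hG : IntegrableOn G TT) :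
    ∫ x in TT, G x = ∫ a in (-(1 / 2) : ℝ)..1, ∫ b in (-((1 - a) / √3))..((1 - a) / √3),
      G ![a, b] := by
  rw [fub1 isClosed_TT.measurableSet hG, intervalIntegral.integral_of_le (by norm_num),
    ← integral_Icc_eq_integral_Ioc, ← integral_indicator measurableSet_Icc]
  refine integral_congr_ae (Filter.Eventually.of_forall fun a => ?_)
  show ∫ b in {b : ℝ | (![a, b] : Fin 2 → ℝ) ∈ TT}, G ![a, b] = _
  rw [TT_slice]
  by_cases ha : a ∈ Icc (-(1 / 2) : ℝ) 1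
  · rw [if_pos ha, indicator_of_mem ha, intervalIntegral.integral_of_le, integral_Icc_eq_integral_Ioc]
    have : 0 ≤ (1 - a) / √3 := div_nonneg (by linarith [ha.2]) (Real.sqrt_nonneg 3)
    linarith
  · rw [if_neg ha, indicator_of_notMem ha, setIntegral_empty]

theorem vol_TT (h : IntegrableOn (fun _ : Fin 2 → ℝ => (1 : ℝ)) TT) :
    ∫ _x in TT, (1 : ℝ) = 3 * √3 / 4 := by
  have s := s3
  have sp := s3pos
  rw [int_TT h]
  have e : ∀ a : ℝ, ∫ b in (-((1 - a) / √3))..((1 - a) / √3), (1 : ℝ) =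
      2 / √3 * (1 - a) := by
    intro a
    rw [intervalIntegral.integral_const]
    simp
    ring
  simp only [e]
  rw [intervalIntegral.integral_const_mul]
  have e2 : ∫ a in (-(1 / 2) : ℝ)..1, (1 - a) = 9 / 8 := by
    rw [intervalIntegral.integral_sub intervalIntegrable_const intervalIntegral.intervalIntegrable_id,
      intervalIntegral.integral_const, integral_id]
    norm_num
  rw [e2]
  field_simp
  nlinarith

theorem sq_TT (h : IntegrableOn (fun x : Fin 2 → ℝ => x 0 ^ 2 + x 1 ^ 2) TT) :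
    ∫ x in TT, (x 0 ^ 2 + x 1 ^ 2) = 3 * √3 / 16 := by
  have s := s3
  have sp := s3pos
  rw [int_TT h]
  have e : ∀ a : ℝ, ∫ b in (-((1 - a) / √3))..((1 - a) / √3),
      ((![a, b] : Fin 2 → ℝ) 0 ^ 2 + (![a, b] : Fin 2 → ℝ) 1 ^ 2) =
      2 / √3 * (a ^ 2 - a ^ 3 + (1 - a) ^ 3 / 9) := by
    intro a
    simp only [Matrix.cons_val_zero, Matrix.cons_val_one]
    rw [intervalIntegral.integral_add intervalIntegrable_const
      ((continuous_pow 2).intervalIntegrable _ _), intervalIntegral.integral_const]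
    have : ∫ b in (-((1 - a) / √3))..((1 - a) / √3), b ^ 2 =
      2 / √3 * ((1 - a) ^ 3 / 9) := by
      rw [integral_pow]
      have h9 : √3 ^ 3 = 3 * √3 := by nlinarith
      push_cast
      rw [neg_pow, div_pow]
      norm_num
      rw [h9]
      field_simp
      ring
    rw [this]
    simp
    ring
  simp only [e]
  rw [intervalIntegral.integral_const_mul]
  have e2 : ∫ a in (-(1 / 2) : ℝ)..1, (a ^ 2 - a ^ 3 + (1 - a) ^ 3 / 9) = 9 / 32 := by
    have hd : ∀ a ∈ uIcc (-(1 / 2) : ℝ) 1, HasDerivAt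
        (fun a : ℝ => a ^ 3 / 3 - a ^ 4 / 4 - (1 - a) ^ 4 / 36)
        (a ^ 2 - a ^ 3 + (1 - a) ^ 3 / 9) a := by
      intro a _
      have h1 := ((hasDerivAt_pow 3 a).div_const 3).sub ((hasDerivAt_pow 4 a).div_const 4)
      have h2 := (((hasDerivAt_id a).const_sub 1).pow 4).div_const 36
      refine (h1.sub h2).congr_deriv ?_
      simp only [id]
      norm_num
      ring
    rw [intervalIntegral.integral_eq_sub_of_hasDerivAt hd
      ((Continuous.intervalIntegrable (by fun_prop) _ _))]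
    norm_num
  rw [e2]
  field_simp
  nlinarith

/-! the height of the cap -/

/-- possible heights -/
def SS (K : Set (Fin 2 → ℝ)) (s : ℝ) : Set ℝ :=
  {u | 0 ≤ u ∧ (![-(1 / 2) - u, s] : Fin 2 → ℝ) ∈ K}

/-- the height of the cap -/
noncomputable def hh (K : Set (Fin 2 → ℝ)) (s : ℝ) : ℝ := sSup (SS K s)

theorem cont_vec (s : ℝ) : Continuous fun u : ℝ => (![-(1 / 2) - u, s] : Fin 2 → ℝ) := by
  refine continuous_pi fun i => ?_
  fin_cases i
  · exact continuous_const.sub continuous_id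
  · exact continuous_const

theorem zero_mem_SS (hc : Convex ℝ K) (hinv : ∀ x ∈ K, rot 3 x ∈ K) (h1 : ![1, 0] ∈ K) {s : ℝ}
    (hs : s ∈ Icc (-(√3 / 2)) (√3 / 2)) : (0 : ℝ) ∈ SS K s := by
  refine ⟨le_rfl, TT_sub hc hinv h1 ?_⟩
  have s' := s3
  have sp := s3pos
  obtain ⟨ha, hb⟩ := hs
  unfold TT
  rw [mem_ofPred_eq, rot2_zero, rot_zero]
  simp only [Matrix.cons_val_zero, Matrix.cons_val_one]
  exact ⟨by linarith, by nlinarith, by nlinarith⟩

theorem SS_sub (hle : ∀ x ∈ K, x 0 ^ 2 + x 1 ^ 2 ≤ 1) (s : ℝ) : SS K s ⊆ Icc 0 (1 / 2) := by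
  intro u hu
  have h1 := hle _ hu.2
  simp only [Matrix.cons_val_zero, Matrix.cons_val_one] at h1
  have h0 := hu.1
  refine ⟨h0, ?_⟩
  nlinarith [sq_nonneg s]

theorem isCompact_SS (hK : IsCompact K) (hle : ∀ x ∈ K, x 0 ^ 2 + x 1 ^ 2 ≤ 1) (s : ℝ) :
    IsCompact (SS K s) :=
  isCompact_Icc.of_isClosed_subset
    (isClosed_Ici.inter (hK.isClosed.preimage (cont_vec s))) (SS_sub hle s)

theorem conv_SS (hc : Convex ℝ K) {s t u v a b : ℝ} (hu : u ∈ SS K s) (hv : v ∈ SS K t)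
    (ha : 0 ≤ a) (hb : 0 ≤ b) (hab : a + b = 1) : a * u + b * v ∈ SS K (a * s + b * t) := by
  refine ⟨add_nonneg (mul_nonneg ha hu.1) (mul_nonneg hb hv.1), ?_⟩
  have h1 := hc hu.2 hv.2 ha hb hab
  convert h1 using 1
  ext i
  fin_cases i
  · simp
    linear_combination (1 / 2) * hab
  · simp

theorem SS_eq (hc : Convex ℝ K) (hK : IsCompact K)
    (hinv : ∀ x ∈ K, rot 3 x ∈ K) (h1 : ![1, 0] ∈ K) (hle : ∀ x ∈ K, x 0 ^ 2 + x 1 ^ 2 ≤ 1)
    {s : ℝ} (hs : s ∈ Icc (-(√3 / 2)) (√3 / 2)) :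
    SS K s = Icc 0 (hh K s) := by
  have hcp := isCompact_SS hK hle s
  have h0 := zero_mem_SS hc hinv h1 hs
  have hm : hh K s ∈ SS K s := hcp.sSup_mem ⟨0, h0⟩
  have hcv : Convex ℝ (SS K s) := by
    intro u hu v hv a b ha hb hab
    have := conv_SS hc hu hv ha hb hab
    rwa [← add_mul, hab, one_mul] at this
  ext u
  constructor
  · intro hu
    exact ⟨hu.1, le_csSup hcp.bddAbove hu⟩
  · intro hu
    exact hcv.ordConnected.out h0 hm hu

theorem cap_slice (hc : Convex ℝ K) (hK : IsCompact K)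
    (hinv : ∀ x ∈ K, rot 3 x ∈ K) (h1 : ![1, 0] ∈ K) (hle : ∀ x ∈ K, x 0 ^ 2 + x 1 ^ 2 ≤ 1)
    (s : ℝ) : {a : ℝ | (![a, s] : Fin 2 → ℝ) ∈ cap K} =
    if s ∈ Icc (-(√3 / 2)) (√3 / 2) then Ico (-(1 / 2) - hh K s) (-(1 / 2)) else ∅ := by
  have s' := s3
  have sp := s3pos
  ext a
  have e : (![a, s] : Fin 2 → ℝ) ∈ cap K ↔ (![a, s] : Fin 2 → ℝ) ∈ K ∧ a < -(1 / 2) := Iff.rfl
  rw [mem_ofPred_eq, e]
  split_ifs with hs
  · constructor
    · rintro ⟨h2, h3⟩
      have h4 : -(1 / 2) - a ∈ SS K s := ⟨by linarith, by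
        have : -(1 / 2) - (-(1 / 2) - a) = a := by ring
        rw [this]
        exact h2⟩
      rw [SS_eq hc hK hinv h1 hle hs] at h4
      exact ⟨by linarith [h4.2], h3⟩
    · rintro ⟨h2, h3⟩
      have h4 : -(1 / 2) - a ∈ SS K s := by
        rw [SS_eq hc hK hinv h1 hle hs]
        exact ⟨by linarith, by linarith⟩
      have h5 := h4.2
      have : -(1 / 2) - (-(1 / 2) - a) = a := by ring
      rw [this] at h5
      exact ⟨h5, h3⟩
  · simp only [mem_empty_iff_false, iff_false]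
    rintro ⟨h2, h3⟩
    have h4 := hle _ h2
    simp only [Matrix.cons_val_zero, Matrix.cons_val_one] at h4
    apply hs
    have h5 : s ^ 2 ≤ (√3 / 2) ^ 2 := by nlinarith
    exact abs_le.1 (abs_le_of_sq_le_sq h5 (by positivity))

theorem int_cap (hc : Convex ℝ K) (hK : IsCompact K)
    (hinv : ∀ x ∈ K, rot 3 x ∈ K) (h1 : ![1, 0] ∈ K) (hle : ∀ x ∈ K, x 0 ^ 2 + x 1 ^ 2 ≤ 1)
    {G : (Fin 2 → ℝ) → ℝ} (hG : IntegrableOn G (cap K)) :
    ∫ x in cap K, G x = ∫ s in (-(√3 / 2))..(√3 / 2),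
      ∫ a in (-(1 / 2) - hh K s)..(-(1 / 2)), G ![a, s] := by
  have sp := s3pos
  rw [fub2 (ms_cap hK) hG, intervalIntegral.integral_of_le (by linarith),
    ← integral_Icc_eq_integral_Ioc, ← integral_indicator measurableSet_Icc]
  refine integral_congr_ae (Filter.Eventually.of_forall fun s => ?_)
  show ∫ a in {a : ℝ | (![a, s] : Fin 2 → ℝ) ∈ cap K}, G ![a, s] = _
  rw [cap_slice hc hK hinv h1 hle]
  by_cases hs : s ∈ Icc (-(√3 / 2)) (√3 / 2)
  · have h5 := (isCompact_SS hK hle s).sSup_mem ⟨0, zero_mem_SS hc hinv h1 hs⟩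
    have h6 : 0 ≤ hh K s := h5.1
    rw [if_pos hs, indicator_of_mem hs, intervalIntegral.integral_of_le (by linarith),
      ← integral_Icc_eq_integral_Ioc, integral_Icc_eq_integral_Ico]
  · rw [if_neg hs, indicator_of_notMem hs, setIntegral_empty]

end body

end Vale.Agent.P254.Fib.TC741

namespace Vale.Agent.P254.Fib

open TC741

/-- [R3] the body is the triangle and three congruent caps -/
theorem tri_cap {K : Set (Fin 2 → ℝ)} (hc : Convex ℝ K) (hK : IsCompact K)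
    (hinv : ∀ x ∈ K, rot 3 x ∈ K) (h1 : ![1, 0] ∈ K) (hle : ∀ x ∈ K, x 0 ^ 2 + x 1 ^ 2 ≤ 1) :
    ∃ h : ℝ → ℝ, ConcaveOn ℝ (Icc (-(√3 / 2)) (√3 / 2)) h ∧
      (∀ s ∈ Icc (-(√3 / 2)) (√3 / 2), 0 ≤ h s ∧ h s ≤ 1 / 2) ∧
      (volume K).toReal = 3 * √3 / 4 + 3 * ∫ s in (-(√3 / 2))..(√3 / 2), h s ∧
      (∫ x in K, (x 0 ^ 2 + x 1 ^ 2)) = 3 * √3 / 16 + 3 * ∫ s in (-(√3 / 2))..(√3 / 2),
        ((s ^ 2 + 1 / 4) * h s + h s ^ 2 / 2 + h s ^ 3 / 3) := by
  have hmem : ∀ s ∈ Icc (-(√3 / 2)) (√3 / 2), hh K s ∈ SS K s := fun s hs =>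
    (isCompact_SS hK hle s).sSup_mem ⟨0, zero_mem_SS hc hinv h1 hs⟩
  have hG1 : Continuous fun _ : Fin 2 → ℝ => (1 : ℝ) := continuous_const
  have hG2 : Continuous fun x : Fin 2 → ℝ => x 0 ^ 2 + x 1 ^ 2 :=
    ((continuous_apply 0).pow 2).add ((continuous_apply 1).pow 2)
  have hT := TT_sub hc hinv h1
  have hC : cap K ⊆ K := fun x hx => hx.1
  refine ⟨hh K, ⟨convex_Icc _ _, ?_⟩, ?_, ?_, ?_⟩
  · intro s hs t ht a b ha hb hab
    simp only [smul_eq_mul]
    have h2 := conv_SS hc (hmem s hs) (hmem t ht) ha hb hab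
    exact le_csSup (isCompact_SS hK hle _).bddAbove h2
  · intro s hs
    exact SS_sub hle s (hmem s hs)
  · have e0 : (volume K).toReal = ∫ x in K, (1 : ℝ) := by
      simp [Measure.real]
    rw [e0, split hc hK hinv h1 hle hG1 (fun _ => rfl),
      vol_TT ((hG1.continuousOn.integrableOn_compact hK).mono_set hT),
      int_cap hc hK hinv h1 hle ((hG1.continuousOn.integrableOn_compact hK).mono_set hC)]
    congr 2
    refine intervalIntegral.integral_congr fun s _ => ?_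
    show ∫ a in (-(1 / 2) - hh K s)..(-(1 / 2)), (1 : ℝ) = hh K s
    rw [intervalIntegral.integral_const]
    simp
  · rw [split hc hK hinv h1 hle hG2 rot_sq,
      sq_TT ((hG2.continuousOn.integrableOn_compact hK).mono_set hT),
      int_cap hc hK hinv h1 hle ((hG2.continuousOn.integrableOn_compact hK).mono_set hC)]
    congr 2
    refine intervalIntegral.integral_congr fun s _ => ?_
    show ∫ a in (-(1 / 2) - hh K s)..(-(1 / 2)),
      ((![a, s] : Fin 2 → ℝ) 0 ^ 2 + (![a, s] : Fin 2 → ℝ) 1 ^ 2) = _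
    simp only [Matrix.cons_val_zero, Matrix.cons_val_one]
    rw [intervalIntegral.integral_add ((continuous_pow 2).intervalIntegrable _ _)
      intervalIntegrable_const, intervalIntegral.integral_const, integral_pow]
    simp
    ring

end Vale.Agent.P254.Fib
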