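import Vale.Agent.P254.Fib.ThreeCore
import Vale.Agent.P254.Fib.CapMom968
import Vale.Agent.P254.Fib.CapSq434
import Vale.Agent.P254.Fib.TriCap741

/-! P254/Fib [R4]: planar bodies with a rotation of order three. -/

open MeasureTheory Set Real

namespace Vale.Agent.P254.Fib

/-- [R4] -/
theorem three_norm {K : Set (Fin 2 → ℝ)} (hc : Convex ℝ K) (hK : IsCompact K)
    (hinv : ∀ x ∈ K, rot 3 x ∈ K) (h1 : ![1, 0] ∈ K) (hle : ∀ x ∈ K, x 0 ^ 2 + x 1 ^ 2 ≤ 1) :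
    (∫ x in K, (x 0 ^ 2 + x 1 ^ 2)) ≤ (volume K).toReal ^ 2 / (3 * √3) ∧
      ((∫ x in K, (x 0 ^ 2 + x 1 ^ 2)) = (volume K).toReal ^ 2 / (3 * √3) → IsSimplex K) :=
  H968.three_norm_of (fun h0 _ h2 h3 => H968.cap_mom h0 h2 h3)
    (fun h0 _ h2 h3 => cap_sq h0 h2 h3) (fun h0 h2 h3 h4 h5 => tri_cap h0 h2 h3 h4 h5)
    hc hK hinv h1 hle

end Vale.Agent.P254.Fib
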