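import Vale.Agent.P254.Fib.Defs
import Mathlib.Analysis.Convex.Continuous

/-!
P254/Fib [R4]: planar bodies with a rotation of order three (from the three leaves as hypotheses).
-/

open MeasureTheory Set Real

namespace Vale.Agent.P254.Fib.H968

/-- the statement of `cap_mom` -/
def CapMom : Prop := ∀ {c : ℝ}, 0 < c → ∀ {h : ℝ → ℝ}, ConcaveOn ℝ (Icc (-c) c) h →
  (∀ s ∈ Icc (-c) c, 0 ≤ h s) → ∫ s in (-c)..c, (s ^ 2 - c ^ 2 / 3) * h s ≤ 0

/-- the statement of `cap_sq` -/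
def CapSq : Prop := ∀ {a b : ℝ}, a < b → ∀ {h : ℝ → ℝ}, ConcaveOn ℝ (Icc a b) h →
  (∀ s ∈ Icc a b, 0 ≤ h s) → (b - a) * ∫ s in a..b, h s ^ 2 ≤ 4 / 3 * (∫ s in a..b, h s) ^ 2

/-- the statement of `tri_cap` -/
def TriCap : Prop := ∀ {K : Set (Fin 2 → ℝ)}, Convex ℝ K → IsCompact K →
  (∀ x ∈ K, rot 3 x ∈ K) → ![1, 0] ∈ K → (∀ x ∈ K, x 0 ^ 2 + x 1 ^ 2 ≤ 1) →
    ∃ h : ℝ → ℝ, ConcaveOn ℝ (Icc (-(√3 / 2)) (√3 / 2)) h ∧
      (∀ s ∈ Icc (-(√3 / 2)) (√3 / 2), 0 ≤ h s ∧ h s ≤ 1 / 2) ∧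
      (volume K).toReal = 3 * √3 / 4 + 3 * ∫ s in (-(√3 / 2))..(√3 / 2), h s ∧
      (∫ x in K, (x 0 ^ 2 + x 1 ^ 2)) = 3 * √3 / 16 + 3 * ∫ s in (-(√3 / 2))..(√3 / 2),
        ((s ^ 2 + 1 / 4) * h s + h s ^ 2 / 2 + h s ^ 3 / 3)

theorem ii {c : ℝ} {h : ℝ → ℝ} (hconc : ConcaveOn ℝ (Icc (-c) c) h)
    (hb : ∀ s ∈ Icc (-c) c, 0 ≤ h s ∧ h s ≤ 1 / 2) (hc : -c ≤ c) {φ : ℝ × ℝ → ℝ}
    (hφ : Continuous φ) : IntervalIntegrable (fun s => φ (s, h s)) volume (-c) c := by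
  rw [intervalIntegrable_iff_integrableOn_Ioo_of_le hc]
  have hcont : ContinuousOn h (Ioo (-c) c) := by
    have := hconc.continuousOn_interior
    rwa [interior_Icc] at this
  have hcont2 : ContinuousOn (fun s => φ (s, h s)) (Ioo (-c) c) :=
    hφ.comp_continuousOn (continuousOn_id.prodMk hcont)
  obtain ⟨B, hB⟩ := ((isCompact_Icc (a := -c) (b := c)).prod
    (isCompact_Icc (a := (0 : ℝ)) (b := 1 / 2))).exists_bound_of_continuousOn hφ.continuousOn
  refine Integrable.of_bound (hcont2.aestronglyMeasurable measurableSet_Ioo) B ?_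
  filter_upwards [self_mem_ae_restrict measurableSet_Ioo] with s hs
  exact hB (s, h s) ⟨Ioo_subset_Icc_self hs, hb s (Ioo_subset_Icc_self hs)⟩

theorem main_ineq (HM : CapMom) (HS : CapSq) {h : ℝ → ℝ}
    (hconc : ConcaveOn ℝ (Icc (-(√3 / 2)) (√3 / 2)) h)
    (hb : ∀ s ∈ Icc (-(√3 / 2)) (√3 / 2), 0 ≤ h s ∧ h s ≤ 1 / 2) :
    (∫ s in (-(√3 / 2))..(√3 / 2), ((s ^ 2 + 1 / 4) * h s + h s ^ 2 / 2 + h s ^ 3 / 3)) ≤
      (∫ s in (-(√3 / 2))..(√3 / 2), h s) / 2 +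
        8 / 9 * (∫ s in (-(√3 / 2))..(√3 / 2), h s) ^ 2 / √3 := by
  have hr : 0 < √3 := Real.sqrt_pos.2 (by norm_num)
  have hr2 : √3 ^ 2 = 3 := Real.sq_sqrt (by norm_num)
  have hc : 0 < √3 / 2 := by positivity
  have hcc : -(√3 / 2) ≤ √3 / 2 := by linarith
  have h1 := HM hc hconc fun s hs => (hb s hs).1
  have h2 := HS (a := -(√3 / 2)) (b := √3 / 2) (by linarith) hconc fun s hs => (hb s hs).1
  have i0 : IntervalIntegrable (fun s => (s ^ 2 + 1 / 4) * h s + h s ^ 2 / 2 + h s ^ 3 / 3) volume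
      (-(√3 / 2)) (√3 / 2) := ii hconc hb hcc
    (φ := fun p => (p.1 ^ 2 + 1 / 4) * p.2 + p.2 ^ 2 / 2 + p.2 ^ 3 / 3) (by fun_prop)
  have i1 : IntervalIntegrable (fun s => (s ^ 2 - (√3 / 2) ^ 2 / 3) * h s) volume
      (-(√3 / 2)) (√3 / 2) := ii hconc hb hcc
    (φ := fun p => (p.1 ^ 2 - (√3 / 2) ^ 2 / 3) * p.2) (by fun_prop)
  have i2 : IntervalIntegrable (fun s => (1 / 2) * h s) volume
      (-(√3 / 2)) (√3 / 2) := ii hconc hb hcc (φ := fun p => (1 / 2) * p.2) (by fun_prop)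
  have i3 : IntervalIntegrable (fun s => (2 / 3) * h s ^ 2) volume
      (-(√3 / 2)) (√3 / 2) := ii hconc hb hcc (φ := fun p => (2 / 3) * p.2 ^ 2) (by fun_prop)
  have h3 : (∫ s in (-(√3 / 2))..(√3 / 2), ((s ^ 2 + 1 / 4) * h s + h s ^ 2 / 2 + h s ^ 3 / 3)) ≤
      ∫ s in (-(√3 / 2))..(√3 / 2),
        ((s ^ 2 - (√3 / 2) ^ 2 / 3) * h s + (1 / 2) * h s + (2 / 3) * h s ^ 2) := by
    refine intervalIntegral.integral_mono_on hcc i0 ((i1.add i2).add i3) fun s hs => ?_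
    obtain ⟨ha, hb'⟩ := hb s hs
    have h4 : (√3 / 2) ^ 2 / 3 = 1 / 4 := by
      rw [div_pow, hr2]; norm_num
    rw [h4]
    nlinarith [mul_nonneg (sq_nonneg (h s)) (sub_nonneg.2 hb')]
  have h5 : (∫ s in (-(√3 / 2))..(√3 / 2),
        ((s ^ 2 - (√3 / 2) ^ 2 / 3) * h s + (1 / 2) * h s + (2 / 3) * h s ^ 2)) =
      (∫ s in (-(√3 / 2))..(√3 / 2), (s ^ 2 - (√3 / 2) ^ 2 / 3) * h s) +
        (1 / 2) * (∫ s in (-(√3 / 2))..(√3 / 2), h s) +
        (2 / 3) * ∫ s in (-(√3 / 2))..(√3 / 2), h s ^ 2 := by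
    rw [intervalIntegral.integral_add (i1.add i2) i3, intervalIntegral.integral_add i1 i2,
      intervalIntegral.integral_const_mul, intervalIntegral.integral_const_mul]
  have h6 : (∫ s in (-(√3 / 2))..(√3 / 2), h s ^ 2) ≤
      4 / 3 * (∫ s in (-(√3 / 2))..(√3 / 2), h s) ^ 2 / √3 := by
    rw [le_div_iff₀ hr]
    have h7 : √3 / 2 - -(√3 / 2) = √3 := by ring
    rw [h7] at h2
    linarith
  have h8 : 8 / 9 * (∫ s in (-(√3 / 2))..(√3 / 2), h s) ^ 2 / √3 =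
      2 / 3 * (4 / 3 * (∫ s in (-(√3 / 2))..(√3 / 2), h s) ^ 2 / √3) := by ring
  rw [h8]
  linarith

theorem sub_of_vol {K T : Set (Fin 2 → ℝ)} (hKc : Convex ℝ K) (hK : IsCompact K) (hT : IsClosed T)
    (hTK : T ⊆ K) (hpos : 0 < volume K) (hvol : volume K ≤ volume T) : K ⊆ T := by
  have hne : (interior K).Nonempty := by
    by_contra he
    rw [not_nonempty_iff_eq_empty] at he
    have h1 : K ⊆ frontier K := by
      refine subset_closure.trans ?_
      rw [closure_eq_interior_union_frontier, he, empty_union]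
    have h2 : volume K = 0 := measure_mono_null h1 (hKc.addHaar_frontier volume)
    exact hpos.ne' h2
  intro x hx
  by_contra hxT
  have h1 : x ∈ closure (interior K) := by
    rw [hKc.closure_interior_eq_closure_of_nonempty_interior hne]
    exact subset_closure hx
  obtain ⟨y, hy1, hy2⟩ := mem_closure_iff.1 h1 Tᶜ hT.isOpen_compl hxT
  have h2 : 0 < volume (Tᶜ ∩ interior K) :=
    (hT.isOpen_compl.inter isOpen_interior).measure_pos volume ⟨y, hy1, hy2⟩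
  have h3 : volume (K \ T) = 0 := by
    have hfin : volume T ≠ ⊤ := ((measure_mono hTK).trans_lt hK.measure_lt_top).ne
    rw [measure_sdiff hTK hT.measurableSet.nullMeasurableSet hfin]
    exact tsub_eq_zero_of_le hvol
  have h4 : volume (Tᶜ ∩ interior K) = 0 :=
    measure_mono_null (fun z (hz : z ∈ Tᶜ ∩ interior K) =>
      show z ∈ K \ T from ⟨interior_subset hz.2, hz.1⟩) h3
  exact h2.ne' h4

theorem rot3 (x : Fin 2 → ℝ) :
    rot 3 x = ![-1 / 2 * x 0 - √3 / 2 * x 1, √3 / 2 * x 0 + -1 / 2 * x 1] := by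
  have h1 : cos (2 * π / (3 : ℕ)) = -1 / 2 := by
    have : (2 * π / ((3 : ℕ) : ℝ)) = π - π / 3 := by
      push_cast
      ring
    rw [this, cos_pi_sub, cos_pi_div_three]
    norm_num
  have h2 : sin (2 * π / (3 : ℕ)) = √3 / 2 := by
    have : (2 * π / ((3 : ℕ) : ℝ)) = π - π / 3 := by
      push_cast
      ring
    rw [this, sin_pi_sub, sin_pi_div_three]
  unfold rot
  rw [h1, h2]

/-- the vertices of the triangle -/
noncomputable def vt : Fin 3 → (Fin 2 → ℝ) :=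
  ![![1, 0], ![-1 / 2, √3 / 2], ![-1 / 2, -(√3 / 2)]]

theorem hr2 : √3 * √3 = 3 := Real.mul_self_sqrt (by norm_num)

theorem rot_vt0 : rot 3 (vt 0) = vt 1 := by
  rw [rot3]
  ext i
  fin_cases i <;> simp [vt]

theorem rot_vt1 : rot 3 (vt 1) = vt 2 := by
  rw [rot3]
  ext i
  fin_cases i
  · simp [vt]
    nlinarith [hr2]
  · simp [vt]
    ring

theorem rot_vt2 : rot 3 (vt 2) = vt 0 := by
  rw [rot3]
  ext i
  fin_cases i
  · simp [vt]
    nlinarith [hr2]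
  · simp [vt]
    ring

theorem rot_linear : IsLinearMap ℝ (rot 3) := by
  constructor
  · intro x y
    rw [rot3, rot3, rot3]
    ext i
    fin_cases i
    · simp
      ring
    · simp
      ring
  · intro c x
    rw [rot3, rot3]
    ext i
    fin_cases i
    · simp
      ring
    · simp
      ring

theorem affInd : AffineIndependent ℝ vt := by
  have : vt = ![![1, 0], ![-1 / 2, √3 / 2], ![-1 / 2, -(√3 / 2)]] := rfl
  rw [this, affineIndependent_iff_not_collinear_set]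
  intro hcol
  rw [collinear_iff_of_mem (p₀ := ![1, 0]) (by simp)] at hcol
  obtain ⟨v, hv⟩ := hcol
  obtain ⟨r1, e1⟩ := hv ![-1 / 2, √3 / 2] (by simp)
  obtain ⟨r2, e2⟩ := hv ![-1 / 2, -(√3 / 2)] (by simp)
  have a0 := congrFun e1 0
  have a1 := congrFun e1 1
  have b0 := congrFun e2 0
  have b1 := congrFun e2 1
  simp at a0 a1 b0 b1
  have hr : 0 < √3 := Real.sqrt_pos.2 (by norm_num)
  have c0 : r1 * v 0 = -3 / 2 := by linarith
  have c1 : r1 * v 1 = √3 / 2 := by linarith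
  have d0 : r2 * v 0 = -3 / 2 := by linarith
  have d1 : r2 * v 1 = -(√3 / 2) := by linarith
  have e : (r1 * v 0) * (r2 * v 1) = (r1 * v 1) * (r2 * v 0) := by ring
  rw [c0, c1, d0, d1] at e
  linarith

theorem rot_hull {x : Fin 2 → ℝ} (hx : x ∈ convexHull ℝ (range vt)) :
    rot 3 x ∈ convexHull ℝ (range vt) := by
  have h1 : Convex ℝ (rot 3 ⁻¹' convexHull ℝ (range vt)) :=
    (convex_convexHull ℝ _).is_linear_preimage rot_linear
  have h2 : range vt ⊆ rot 3 ⁻¹' convexHull ℝ (range vt) := by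
    rintro _ ⟨i, rfl⟩
    have h3 : ∀ j, vt j ∈ convexHull ℝ (range vt) := fun j => subset_convexHull ℝ _ ⟨j, rfl⟩
    show rot 3 (vt i) ∈ convexHull ℝ (range vt)
    fin_cases i
    · show rot 3 (vt 0) ∈ _
      rw [rot_vt0]
      exact h3 1
    · show rot 3 (vt 1) ∈ _
      rw [rot_vt1]
      exact h3 2
    · show rot 3 (vt 2) ∈ _
      rw [rot_vt2]
      exact h3 0
  exact convexHull_min h2 h1 hx

/-- [R4] from the three leaves -/
theorem three_norm_of (HM : CapMom) (HS : CapSq) (HT : TriCap) {K : Set (Fin 2 → ℝ)}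
    (hc : Convex ℝ K) (hK : IsCompact K)
    (hinv : ∀ x ∈ K, rot 3 x ∈ K) (h1 : ![1, 0] ∈ K) (hle : ∀ x ∈ K, x 0 ^ 2 + x 1 ^ 2 ≤ 1) :
    (∫ x in K, (x 0 ^ 2 + x 1 ^ 2)) ≤ (volume K).toReal ^ 2 / (3 * √3) ∧
      ((∫ x in K, (x 0 ^ 2 + x 1 ^ 2)) = (volume K).toReal ^ 2 / (3 * √3) → IsSimplex K) := by
  obtain ⟨h, hconc, hb, hvol, hint⟩ := HT hc hK hinv h1 hle
  have hmain := main_ineq HM HS hconc hb
  have hr : 0 < √3 := Real.sqrt_pos.2 (by norm_num)
  set I := ∫ s in (-(√3 / 2))..(√3 / 2), h s with hI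
  have hI0 : 0 ≤ I := intervalIntegral.integral_nonneg (by linarith) fun s hs => (hb s hs).1
  have key : (volume K).toReal ^ 2 / (3 * √3) =
      3 * √3 / 16 + 3 * (I / 2 + 8 / 9 * I ^ 2 / √3) + I ^ 2 / (3 * √3) := by
    rw [hvol]
    field_simp
    nlinarith [hr2]
  have hI2 : 0 ≤ I ^ 2 / (3 * √3) := by positivity
  refine ⟨by rw [key, hint]; linarith, fun heq => ?_⟩
  have hI1 : I ^ 2 / (3 * √3) ≤ 0 := by
    rw [key, hint] at heq
    linarith
  have hIz : I = 0 := by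
    have h2 : I ^ 2 / (3 * √3) = 0 := le_antisymm hI1 hI2
    rw [div_eq_zero_iff] at h2
    rcases h2 with h2 | h2
    · exact pow_eq_zero_iff (two_ne_zero) |>.1 h2
    · exact absurd h2 (by positivity)
  have hvK : (volume K).toReal = 3 * √3 / 4 := by
    rw [hvol, hIz]
    ring
  have e0 : vt 0 = ![1, 0] := rfl
  have m0 : vt 0 ∈ K := by rw [e0]; exact h1
  have m1 : vt 1 ∈ K := by rw [← rot_vt0]; exact hinv _ m0
  have m2 : vt 2 ∈ K := by rw [← rot_vt1]; exact hinv _ m1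
  have hTK : convexHull ℝ (range vt) ⊆ K := by
    refine convexHull_min ?_ hc
    rintro _ ⟨i, rfl⟩
    fin_cases i
    · exact m0
    · exact m1
    · exact m2
  have hTc : IsCompact (convexHull ℝ (range vt)) := (Set.finite_range vt).isCompact_convexHull (𝕜 := ℝ)
  obtain ⟨g, -, gb, gvol, -⟩ := HT (convex_convexHull ℝ (range vt)) hTc (fun x hx => rot_hull hx)
    (by rw [← e0]; exact subset_convexHull ℝ _ ⟨0, rfl⟩) (fun x hx => hle x (hTK hx))
  have hg0 : 0 ≤ ∫ s in (-(√3 / 2))..(√3 / 2), g s :=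
    intervalIntegral.integral_nonneg (by linarith) fun s hs => (gb s hs).1
  have hvle : volume K ≤ volume (convexHull ℝ (range vt)) := by
    rw [← ENNReal.toReal_le_toReal hK.measure_lt_top.ne hTc.measure_lt_top.ne, hvK, gvol]
    linarith
  have hpos : 0 < volume K := by
    rw [pos_iff_ne_zero]
    intro h0
    rw [h0] at hvK
    simp only [ENNReal.toReal_zero] at hvK
    linarith
  have hKT := sub_of_vol hc hK hTc.isClosed hTK hpos hvle
  exact ⟨vt, affInd, Subset.antisymm hKT hTK⟩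

end Vale.Agent.P254.Fib.H968
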