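import Vale.Agent.P254.Perm.SlicesCore
import Vale.Agent.P254.Bdl.B2
import Vale.Agent.P254.Bdl.B17
import Mathlib.Analysis.Matrix.Order

/-!
P254: transfer between `ℝ^(m+1)` and `ℝ × ℝ^m`, moments from the centroid and the covariance
matrix, positive definiteness of the covariance matrix of a convex body.
-/

open MeasureTheory Set Matrix

namespace Vale.Agent.P254.Fib.H863

open Vale.Agent.P254.Perm (measurableSet_slice isCompact_slice)

variable {m : ℕ}

/-- The same set in `ℝ × ℝ^m`. -/
def toL (K : Set (Fin (m + 1) → ℝ)) : Set (ℝ × (Fin m → ℝ)) :=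
  {p | (Fin.cons p.1 p.2 : Fin (m + 1) → ℝ) ∈ K}

theorem cont_cons : Continuous fun p : ℝ × (Fin m → ℝ) => (Fin.cons p.1 p.2 : Fin (m + 1) → ℝ) := by
  refine continuous_pi fun i => ?_
  refine Fin.cases ?_ (fun k => ?_) i
  · simp only [Fin.cons_zero]; fun_prop
  · simp only [Fin.cons_succ]; fun_prop

theorem toL_eq (K : Set (Fin (m + 1) → ℝ)) :
    toL K = (fun x : Fin (m + 1) → ℝ => (x 0, fun i : Fin m => x i.succ)) '' K := by
  ext p
  constructor
  · intro hp
    exact ⟨_, hp, by simp⟩
  · rintro ⟨x, hx, rfl⟩
    show (Fin.cons (x 0) (fun i : Fin m => x i.succ) : Fin (m + 1) → ℝ) ∈ K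
    have : (Fin.cons (x 0) (fun i : Fin m => x i.succ) : Fin (m + 1) → ℝ) = x := by
      funext i
      refine Fin.cases ?_ (fun k => ?_) i <;> simp
    rw [this]
    exact hx

theorem isCompact_toL {K : Set (Fin (m + 1) → ℝ)} (hK : IsCompact K) : IsCompact (toL K) := by
  rw [toL_eq]
  exact hK.image (by fun_prop)

theorem convex_toL {K : Set (Fin (m + 1) → ℝ)} (hK : Convex ℝ K) : Convex ℝ (toL K) := by
  intro p hp q hq a b ha hb hab
  have h := hK hp hq ha hb hab
  show (Fin.cons (a • p + b • q).1 (a • p + b • q).2 : Fin (m + 1) → ℝ) ∈ K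
  convert h using 1
  funext i
  refine Fin.cases ?_ (fun k => ?_) i <;> simp

/-- The change of variables. -/
noncomputable def esymm : ℝ × (Fin m → ℝ) ≃ᵐ (Fin (m + 1) → ℝ) :=
  (MeasurableEquiv.piFinSuccAbove (fun _ : Fin (m + 1) => ℝ) 0).symm

theorem esymm_apply (p : ℝ × (Fin m → ℝ)) : esymm p = (Fin.cons p.1 p.2 : Fin (m + 1) → ℝ) := by
  funext i
  refine Fin.cases ?_ (fun k => ?_) i
  · simp [esymm, MeasurableEquiv.piFinSuccAbove, Fin.insertNthEquiv]
  · simp [esymm, MeasurableEquiv.piFinSuccAbove, Fin.insertNthEquiv]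

theorem mp_esymm : MeasurePreserving (esymm (m := m)) volume volume :=
  (volume_preserving_piFinSuccAbove (fun _ : Fin (m + 1) => ℝ) 0).symm _

theorem preim (K : Set (Fin (m + 1) → ℝ)) : esymm ⁻¹' K = toL K := by
  ext p
  rw [mem_preimage, esymm_apply]
  rfl

theorem int_toL (K : Set (Fin (m + 1) → ℝ)) (f : (Fin (m + 1) → ℝ) → ℝ) :
    ∫ x in K, f x = ∫ p in toL K, f (Fin.cons p.1 p.2) := by
  rw [← mp_esymm.setIntegral_preimage_emb esymm.measurableEmbedding f K, preim]
  refine integral_congr_ae (Filter.Eventually.of_forall fun p => ?_)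
  simp only [esymm_apply]

theorem vol_toL (K : Set (Fin (m + 1) → ℝ)) : volume (toL K) = volume K := by
  rw [← preim]
  exact mp_esymm.measure_preimage_equiv K

theorem integrable_slice {L : Set (ℝ × (Fin m → ℝ))} (hL : IsCompact L)
    {f : ℝ × (Fin m → ℝ) → ℝ} (hf : Continuous f) :
    Integrable fun s => ∫ y in {y | (s, y) ∈ L}, f (s, y) := by
  have hint : Integrable (L.indicator f) volume :=
    (hf.continuousOn.integrableOn_compact hL).integrable_indicator hL.measurableSet
  have hint' : Integrable (L.indicator f) ((volume : Measure ℝ).prod volume) := hint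
  refine hint'.integral_prod_left.congr (Filter.Eventually.of_forall fun s => ?_)
  simp only
  rw [← integral_indicator (measurableSet_slice hL s)]
  rfl

/-- first moments from the centroid -/
theorem mom1 {S : Set (Fin m → ℝ)} (hS : IsCompact S) (hV : (volume S).toReal ≠ 0)
    (d : ℝ) (i : Fin m) :
    ∫ y in S, (y i - d) = (volume S).toReal * (centroid S i - d) := by
  have i1 : IntegrableOn (fun y : Fin m → ℝ => y i) S :=
    (by fun_prop : Continuous fun y : Fin m → ℝ => y i).continuousOn.integrableOn_compact hS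
  have i0 : IntegrableOn (fun _ : Fin m → ℝ => d) S := integrableOn_const hS.measure_lt_top.ne
  rw [integral_sub i1 i0, integral_const, smul_eq_mul, Measure.real, Measure.restrict_apply_univ,
    centroid]
  field_simp

/-- second moments from the covariance matrix -/
theorem mom2 {S : Set (Fin m → ℝ)} (hS : IsCompact S) (hV : (volume S).toReal ≠ 0)
    (d e : ℝ) (i j : Fin m) :
    ∫ y in S, (y i - d) * (y j - e) =
      (volume S).toReal * (covMatrix S i j + (centroid S i - d) * (centroid S j - e)) := by
  set c := centroid S i with hc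
  set c' := centroid S j with hc'
  have j2 : IntegrableOn (fun y : Fin m → ℝ => (y i - c) * (y j - c')) S :=
    (by fun_prop : Continuous fun y : Fin m → ℝ =>
      (y i - c) * (y j - c')).continuousOn.integrableOn_compact hS
  have j1 : IntegrableOn (fun y : Fin m → ℝ => (c - d) * (y j - c')) S :=
    (by fun_prop : Continuous fun y : Fin m → ℝ =>
      (c - d) * (y j - c')).continuousOn.integrableOn_compact hS
  have j1' : IntegrableOn (fun y : Fin m → ℝ => (c' - e) * (y i - c)) S :=
    (by fun_prop : Continuous fun y : Fin m → ℝ =>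
      (c' - e) * (y i - c)).continuousOn.integrableOn_compact hS
  have j0 : IntegrableOn (fun _ : Fin m → ℝ => (c - d) * (c' - e)) S :=
    integrableOn_const hS.measure_lt_top.ne
  have e1 : ∀ y : Fin m → ℝ, (y i - d) * (y j - e) =
      (((y i - c) * (y j - c') + (c - d) * (y j - c')) + (c' - e) * (y i - c)) +
        (c - d) * (c' - e) := fun y => by ring
  have k1 : IntegrableOn (fun y : Fin m → ℝ => (y i - c) * (y j - c') + (c - d) * (y j - c')) S :=
    j2.add j1
  have k2 : IntegrableOn (fun y : Fin m → ℝ => (y i - c) * (y j - c') + (c - d) * (y j - c') +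
    (c' - e) * (y i - c)) S := k1.add j1'
  simp_rw [e1]
  rw [integral_add k2 j0, integral_add k1 j1', integral_add j2 j1, integral_const_mul, integral_const_mul, mom1 hS hV, mom1 hS hV, integral_const, smul_eq_mul,
    Measure.real, Measure.restrict_apply_univ, ← hc, ← hc', sub_self, sub_self]
  have e2 : (volume S).toReal * covMatrix S i j = ∫ y in S, (y i - c) * (y j - c') := by
    rw [covMatrix, ← mul_assoc, mul_inv_cancel₀ hV, one_mul]
  rw [← e2]
  ring

/-- a convex set of positive volume has interior points -/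
theorem interior_of_vol {S : Set (Fin m → ℝ)} (hc : Convex ℝ S) (hV : volume S ≠ 0) :
    (interior S).Nonempty := by
  by_contra hne
  rw [not_nonempty_iff_eq_empty] at hne
  have h1 : volume (frontier S) = 0 := hc.addHaar_frontier volume
  have h2 : S ⊆ frontier S := by
    rw [frontier, hne, sdiff_empty]
    exact subset_closure
  exact hV (measure_mono_null h2 h1)

/-- The covariance matrix of a convex body is positive definite. -/
theorem cov_posDef {K : Set (Fin m → ℝ)} (hK : IsConvexBody K) : (covMatrix K).PosDef := by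
  have hps := covMatrix_posSemidef hK.2.1
  have hV : 0 < volume K :=
    (isOpen_interior.measure_pos volume hK.2.2).trans_le (measure_mono interior_subset)
  have hV' : 0 < (volume K).toReal := ENNReal.toReal_pos hV.ne' hK.2.1.measure_lt_top.ne
  rw [posDef_iff_dotProduct_mulVec]
  refine ⟨hps.1, fun x hx => ?_⟩
  set l : (Fin m → ℝ) → ℝ := fun y => ∑ i, x i * (y i - centroid K i) with hl
  have hlc : Continuous l := by
    rw [hl]; fun_prop
  have e1 : star x ⬝ᵥ (covMatrix K *ᵥ x) = (volume K).toReal⁻¹ * ∫ y in K, l y ^ 2 := by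
    have h1 : ∀ y, l y ^ 2 = ∑ i, ∑ j, (x i * x j) * ((y i - centroid K i) * (y j - centroid K j)) := by
      intro y
      rw [hl, sq]
      simp only
      rw [Finset.sum_mul_sum]
      refine Finset.sum_congr rfl fun i _ => Finset.sum_congr rfl fun j _ => ?_
      ring
    simp_rw [h1]
    rw [integral_finsetSum]
    · simp only [dotProduct, mulVec, star_trivial, Finset.mul_sum]
      refine Finset.sum_congr rfl fun i _ => ?_
      rw [integral_finsetSum]
      · rw [Finset.mul_sum]
        refine Finset.sum_congr rfl fun j _ => ?_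
        rw [integral_const_mul, covMatrix]
        ring
      · intro j _
        exact (by fun_prop : Continuous fun y : Fin m → ℝ =>
          (x i * x j) * ((y i - centroid K i) * (y j - centroid K j))).continuousOn.integrableOn_compact hK.2.1
    · intro i _
      exact (by fun_prop : Continuous fun y : Fin m → ℝ =>
          ∑ j, (x i * x j) * ((y i - centroid K i) * (y j - centroid K j))).continuousOn.integrableOn_compact hK.2.1
  rw [e1]
  refine mul_pos (inv_pos.2 hV') ?_
  obtain ⟨i, hi⟩ : ∃ i, x i ≠ 0 := by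
    by_contra h
    push Not at h
    exact hx (funext h)
  have hopen : IsOpen (interior K ∩ {y | l y ≠ 0}) :=
    isOpen_interior.inter (isOpen_ne_fun hlc continuous_const)
  have hne : (interior K ∩ {y | l y ≠ 0}).Nonempty := by
    obtain ⟨z, hz⟩ := hK.2.2
    by_cases h0 : l z ≠ 0
    · exact ⟨z, hz, h0⟩
    push Not at h0
    have hcont : Continuous fun t : ℝ => z + t • (Pi.single i 1 : Fin m → ℝ) := by fun_prop
    have hmem : ∀ᶠ t in nhds (0:ℝ), z + t • (Pi.single i 1 : Fin m → ℝ) ∈ interior K := by
      refine hcont.continuousAt.eventually_mem ?_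
      simp only [zero_smul, add_zero]
      exact isOpen_interior.mem_nhds hz
    have h2 : ∀ᶠ t in nhdsWithin (0:ℝ) {0}ᶜ, z + t • (Pi.single i 1 : Fin m → ℝ) ∈ interior K :=
      hmem.filter_mono nhdsWithin_le_nhds
    obtain ⟨t, ht, ht0⟩ := (h2.and self_mem_nhdsWithin).exists
    refine ⟨_, ht, ?_⟩
    have h3 : l (z + t • (Pi.single i 1 : Fin m → ℝ)) = l z + t * x i := by
      rw [hl]
      simp only [Pi.add_apply, Pi.smul_apply, smul_eq_mul]
      have : ∀ j, x j * (z j + t * (Pi.single i 1 : Fin m → ℝ) j - centroid K j) =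
          x j * (z j - centroid K j) + t * (x j * (Pi.single i 1 : Fin m → ℝ) j) := fun j => by ring
      simp_rw [this]
      rw [Finset.sum_add_distrib, ← Finset.mul_sum]
      simp [Pi.single_apply]
    show l (z + t • (Pi.single i 1 : Fin m → ℝ)) ≠ 0
    rw [h3, h0, zero_add]
    exact mul_ne_zero ht0 hi
  have hint : IntegrableOn (fun y => l y ^ 2) K :=
    (hlc.pow 2).continuousOn.integrableOn_compact hK.2.1
  rw [setIntegral_pos_iff_support_of_nonneg_ae (Filter.Eventually.of_forall fun y => sq_nonneg _) hint]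
  refine (hopen.measure_pos volume hne).trans_le (measure_mono ?_)
  rintro y ⟨hy1, hy2⟩
  exact ⟨pow_ne_zero 2 hy2, interior_subset hy1⟩

end Vale.Agent.P254.Fib.H863
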