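import Vale.Agent.P254.Fib.Defs

/-!
P254, planar bodies with a rotation symmetry of order three: the body is a triangle and three
congruent caps.
-/

open MeasureTheory Set Real

namespace Vale.Agent.P254.Fib.H266

theorem rot3 (x : Fin 2 → ℝ) :
    rot 3 x = ![-(1 / 2) * x 0 - √3 / 2 * x 1, √3 / 2 * x 0 + -(1 / 2) * x 1] := by
  have h1 : cos (2 * π / ((3 : ℕ) : ℝ)) = -(1 / 2) := by
    have : 2 * π / ((3 : ℕ) : ℝ) = π - π / 3 := by push_cast; ring
    rw [this, cos_pi_sub, cos_pi_div_three]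
  have h2 : sin (2 * π / ((3 : ℕ) : ℝ)) = √3 / 2 := by
    have : 2 * π / ((3 : ℕ) : ℝ) = π - π / 3 := by push_cast; ring
    rw [this, sin_pi_sub, sin_pi_div_three]
  rw [rot, h1, h2]

theorem rot3_0 (x : Fin 2 → ℝ) : rot 3 x 0 = -(1 / 2) * x 0 - √3 / 2 * x 1 := by
  rw [rot3]; rfl

theorem rot3_1 (x : Fin 2 → ℝ) : rot 3 x 1 = √3 / 2 * x 0 + -(1 / 2) * x 1 := by
  rw [rot3]; rfl

theorem sq3 : √3 * √3 = (3 : ℝ) := Real.mul_self_sqrt (by norm_num)

theorem rot3_cube (x : Fin 2 → ℝ) : rot 3 (rot 3 (rot 3 x)) = x := by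
  have h := sq3
  ext i
  fin_cases i
  · show rot 3 (rot 3 (rot 3 x)) 0 = x 0
    simp only [rot3_0, rot3_1]
    linear_combination (3 / 8 * x 0 + 1 / 8 * √3 * x 1) * h
  · show rot 3 (rot 3 (rot 3 x)) 1 = x 1
    simp only [rot3_0, rot3_1]
    linear_combination (3 / 8 * x 1 - 1 / 8 * √3 * x 0) * h

/-- The matrix of the rotation. -/
noncomputable def M : Matrix (Fin 2) (Fin 2) ℝ := !![-(1 / 2), -(√3 / 2); √3 / 2, -(1 / 2)]

theorem M_det : M.det = 1 := by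
  rw [M, Matrix.det_fin_two_of]
  linear_combination (1 / 4) * sq3

theorem rot3_eq (x : Fin 2 → ℝ) : rot 3 x = Matrix.toLin' M x := by
  rw [rot3, Matrix.toLin'_apply]
  ext i
  fin_cases i
  · simp [M, Matrix.mulVec, dotProduct, Fin.sum_univ_two]; ring
  · simp [M, Matrix.mulVec, dotProduct, Fin.sum_univ_two]

theorem rot3_mp : MeasurePreserving (rot 3) (volume : Measure (Fin 2 → ℝ)) volume := by
  have h0 : rot 3 = Matrix.toLin' M := funext rot3_eq
  rw [h0]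
  refine ⟨?_, ?_⟩
  · exact (LinearMap.continuous_of_finiteDimensional _).measurable
  · rw [Real.map_matrix_volume_pi_eq_smul_volume_pi (by rw [M_det]; exact one_ne_zero), M_det]
    simp

theorem rot3_emb : MeasurableEmbedding (rot 3) := by
  have h0 : rot 3 = Matrix.toLin' M := funext rot3_eq
  have hc : Continuous (rot 3) := by
    rw [h0]
    exact LinearMap.continuous_of_finiteDimensional _
  have hi : Function.Injective (rot 3) := fun x y hxy => by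
    rw [← rot3_cube x, ← rot3_cube y, hxy]
  exact hc.measurableEmbedding hi

theorem slice_aux {S : Set (Fin 2 → ℝ)} {F : (Fin 2 → ℝ) → ℝ} :
    ∫ x in S, F x = ∫ p in {p : ℝ × ℝ | ![p.1, p.2] ∈ S}, F ![p.1, p.2] := by
  have hp := (volume_preserving_finTwoArrow ℝ).symm
  exact (hp.setIntegral_preimage_emb (MeasurableEquiv.measurableEmbedding _) F S).symm

theorem slice_int {S : Set (Fin 2 → ℝ)} {F : (Fin 2 → ℝ) → ℝ} (hF : IntegrableOn F S) :
    IntegrableOn (fun p : ℝ × ℝ => F ![p.1, p.2]) {p : ℝ × ℝ | ![p.1, p.2] ∈ S} := by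
  have hp := (volume_preserving_finTwoArrow ℝ).symm
  exact (hp.integrableOn_comp_preimage (MeasurableEquiv.measurableEmbedding _)).2 hF

theorem vec_cont : Continuous (fun p : ℝ × ℝ => (![p.1, p.2] : Fin 2 → ℝ)) := by
  refine continuous_pi fun i => ?_
  fin_cases i
  · exact continuous_fst
  · exact continuous_snd

theorem slice0 {S : Set (Fin 2 → ℝ)} (hS : MeasurableSet S) {F : (Fin 2 → ℝ) → ℝ}
    (hF : IntegrableOn F S) :
    ∫ x in S, F x = ∫ s : ℝ, ∫ t in {t : ℝ | ![s, t] ∈ S}, F ![s, t] := by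
  have hS' : MeasurableSet {p : ℝ × ℝ | ![p.1, p.2] ∈ S} := vec_cont.measurable hS
  rw [slice_aux, ← integral_indicator hS', Measure.volume_eq_prod, integral_prod]
  · refine integral_congr_ae (Filter.Eventually.of_forall fun s => ?_)
    have h1 : MeasurableSet {t : ℝ | ![s, t] ∈ S} :=
      (vec_cont.comp (Continuous.prodMk continuous_const continuous_id)).measurable hS
    show _ = ∫ t in {t : ℝ | ![s, t] ∈ S}, F ![s, t]
    rw [← integral_indicator h1]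
    rfl
  · exact (slice_int hF).integrable_indicator hS'

theorem slice1 {S : Set (Fin 2 → ℝ)} (hS : MeasurableSet S) {F : (Fin 2 → ℝ) → ℝ}
    (hF : IntegrableOn F S) :
    ∫ x in S, F x = ∫ s : ℝ, ∫ t in {t : ℝ | ![t, s] ∈ S}, F ![t, s] := by
  have hS' : MeasurableSet {p : ℝ × ℝ | ![p.1, p.2] ∈ S} := vec_cont.measurable hS
  rw [slice_aux, ← integral_indicator hS', Measure.volume_eq_prod, integral_prod_symm]
  · refine integral_congr_ae (Filter.Eventually.of_forall fun s => ?_)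
    have h1 : MeasurableSet {t : ℝ | ![t, s] ∈ S} :=
      (vec_cont.comp (Continuous.prodMk continuous_id continuous_const)).measurable hS
    show _ = ∫ t in {t : ℝ | ![t, s] ∈ S}, F ![t, s]
    rw [← integral_indicator h1]
    rfl
  · exact (slice_int hF).integrable_indicator hS'


theorem poly_int (a b c0 c1 c2 c3 : ℝ) :
    ∫ s in a..b, (c0 + c1 * s + c2 * s ^ 2 + c3 * s ^ 3) =
      (c0 * b + c1 * b ^ 2 / 2 + c2 * b ^ 3 / 3 + c3 * b ^ 4 / 4) -
        (c0 * a + c1 * a ^ 2 / 2 + c2 * a ^ 3 / 3 + c3 * a ^ 4 / 4) := by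
  refine intervalIntegral.integral_eq_sub_of_hasDerivAt
    (f := fun s => c0 * s + c1 * s ^ 2 / 2 + c2 * s ^ 3 / 3 + c3 * s ^ 4 / 4) (fun s _ => ?_) ?_
  · have h1 : HasDerivAt (fun s : ℝ => c0 * s) c0 s := by
      simpa using (hasDerivAt_id s).const_mul c0
    have h2 : HasDerivAt (fun s : ℝ => c1 * s ^ 2 / 2) (c1 * s) s := by
      refine (((hasDerivAt_pow 2 s).const_mul c1).div_const 2).congr_deriv ?_
      norm_num
      ring
    have h3 : HasDerivAt (fun s : ℝ => c2 * s ^ 3 / 3) (c2 * s ^ 2) s := by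
      refine (((hasDerivAt_pow 3 s).const_mul c2).div_const 3).congr_deriv ?_
      norm_num
      ring
    have h4 : HasDerivAt (fun s : ℝ => c3 * s ^ 4 / 4) (c3 * s ^ 3) s := by
      refine (((hasDerivAt_pow 4 s).const_mul c3).div_const 4).congr_deriv ?_
      norm_num
      ring
    exact ((h1.add h2).add h3).add h4
  · exact Continuous.intervalIntegrable (by fun_prop) _ _

/-- The triangle. -/
def T : Set (Fin 2 → ℝ) :=
  {x | -(1 / 2) ≤ x 0 ∧ √3 * x 1 ≤ 1 - x 0 ∧ -(√3 * x 1) ≤ 1 - x 0}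

theorem T_closed : IsClosed T := by
  have h1 : IsClosed {x : Fin 2 → ℝ | -(1 / 2) ≤ x 0} :=
    isClosed_le continuous_const (continuous_apply 0)
  have h2 : IsClosed {x : Fin 2 → ℝ | √3 * x 1 ≤ 1 - x 0} :=
    isClosed_le (continuous_const.mul (continuous_apply 1))
      (continuous_const.sub (continuous_apply 0))
  have h3 : IsClosed {x : Fin 2 → ℝ | -(√3 * x 1) ≤ 1 - x 0} :=
    isClosed_le (continuous_const.mul (continuous_apply 1)).neg
      (continuous_const.sub (continuous_apply 0))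
  exact h1.inter (h2.inter h3)

theorem sqrt3_pos : 0 < √3 := Real.sqrt_pos.2 (by norm_num)

theorem T_slice (s : ℝ) : {t : ℝ | ![s, t] ∈ T} =
    if s ∈ Icc (-(1 / 2) : ℝ) 1 then Icc (-((1 - s) / √3)) ((1 - s) / √3) else ∅ := by
  have h3 := sqrt3_pos
  ext t
  have h1 : (![s, t] ∈ T) ↔ (-(1 / 2) ≤ s ∧ √3 * t ≤ 1 - s ∧ -(√3 * t) ≤ 1 - s) := Iff.rfl
  rw [mem_ofPred_eq, h1]
  split_ifs with h
  · rw [mem_Icc, le_div_iff₀ h3, ← neg_le_neg_iff (a := t), neg_neg, le_div_iff₀ h3]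
    constructor
    · rintro ⟨_, h4, h5⟩
      constructor <;> linarith
    · rintro ⟨h4, h5⟩
      refine ⟨h.1, ?_, ?_⟩ <;> linarith
  · simp only [mem_empty_iff_false, iff_false]
    rintro ⟨h4, h5, h6⟩
    exact h ⟨h4, by linarith⟩

theorem T_int {F : (Fin 2 → ℝ) → ℝ} (hF : IntegrableOn F T) {G : ℝ → ℝ}
    (hG : ∀ s ∈ Icc (-(1 / 2) : ℝ) 1,
      ∫ t in (-((1 - s) / √3))..((1 - s) / √3), F ![s, t] = G s) :
    ∫ x in T, F x = ∫ s in (-(1 / 2) : ℝ)..1, G s := by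
  rw [slice0 T_closed.measurableSet hF, intervalIntegral.integral_of_le (by norm_num),
    ← integral_Icc_eq_integral_Ioc, ← integral_indicator measurableSet_Icc]
  refine integral_congr_ae (Filter.Eventually.of_forall fun s => ?_)
  show ∫ t in {t : ℝ | ![s, t] ∈ T}, F ![s, t] = _
  rw [T_slice]
  by_cases h : s ∈ Icc (-(1 / 2) : ℝ) 1
  · rw [if_pos h, indicator_of_mem h, ← hG s h, integral_Icc_eq_integral_Ioc,
      ← intervalIntegral.integral_of_le]
    have : 0 ≤ (1 - s) / √3 := div_nonneg (by linarith [h.2]) sqrt3_pos.le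
    linarith
  · rw [if_neg h, indicator_of_notMem h, Measure.restrict_empty, integral_zero_measure]

theorem T_sub {K : Set (Fin 2 → ℝ)} (hc : Convex ℝ K)
    (hinv : ∀ x ∈ K, rot 3 x ∈ K) (h1 : ![1, 0] ∈ K) : T ⊆ K := by
  intro x hx
  have h3 := sqrt3_pos
  obtain ⟨hx0, hx1, hx2⟩ := hx
  have h2 := hinv _ h1
  have h4 := hinv _ h2
  set u := x 1 / √3 with hu
  have hu1 : √3 * u = x 1 := by rw [hu]; field_simp
  have hu2 : √3 * x 1 = 3 * u := by rw [← hu1, ← mul_assoc, sq3]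
  rw [hu2] at hx1 hx2
  have hl1 : 0 ≤ (2 * x 0 + 1) / 3 := by linarith
  have hl2 : 0 ≤ (1 - x 0) / 3 + u := by linarith
  have hl3 : 0 ≤ (1 - x 0) / 3 - u := by linarith
  have h5 := hc.sum_mem (t := Finset.univ) (w := ![(2 * x 0 + 1) / 3,
    (1 - x 0) / 3 + u, (1 - x 0) / 3 - u]) (z := ![![1, 0], rot 3 ![1, 0], rot 3 (rot 3 ![1, 0])])
    (by
      intro i _
      fin_cases i
      · exact hl1
      · exact hl2
      · exact hl3)
    (by
      rw [Fin.sum_univ_three]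
      show (2 * x 0 + 1) / 3 + ((1 - x 0) / 3 + u) + ((1 - x 0) / 3 - u) = 1
      ring)
    (by
      intro i _
      fin_cases i
      · exact h1
      · exact h2
      · exact h4)
  rw [Fin.sum_univ_three] at h5
  have h6 : ((2 * x 0 + 1) / 3) • (![1, 0] : Fin 2 → ℝ) + ((1 - x 0) / 3 + u) • rot 3 ![1, 0] +
      ((1 - x 0) / 3 - u) • rot 3 (rot 3 ![1, 0]) = x := by
    ext i
    fin_cases i
    · show (2 * x 0 + 1) / 3 * 1 + ((1 - x 0) / 3 + u) * rot 3 ![1, 0] 0 +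
        ((1 - x 0) / 3 - u) * rot 3 (rot 3 ![1, 0]) 0 = x 0
      simp only [rot3_0, rot3_1, Matrix.cons_val_zero, Matrix.cons_val_one]
      linear_combination (-(1 / 4) * ((1 - x 0) / 3 - u)) * sq3
    · show (2 * x 0 + 1) / 3 * 0 + ((1 - x 0) / 3 + u) * rot 3 ![1, 0] 1 +
        ((1 - x 0) / 3 - u) * rot 3 (rot 3 ![1, 0]) 1 = x 1
      simp only [rot3_0, rot3_1, Matrix.cons_val_zero, Matrix.cons_val_one]
      linear_combination hu1
  rw [← h6]
  exact h5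


/-- The cap. -/
def C (K : Set (Fin 2 → ℝ)) : Set (Fin 2 → ℝ) := K ∩ {x | 1 / 2 < -x 0}

theorem decomp {K : Set (Fin 2 → ℝ)} (hc : Convex ℝ K) (hK : IsCompact K)
    (hinv : ∀ x ∈ K, rot 3 x ∈ K) (h1 : ![1, 0] ∈ K) (hle : ∀ x ∈ K, x 0 ^ 2 + x 1 ^ 2 ≤ 1)
    {F : (Fin 2 → ℝ) → ℝ} (hF : Continuous F) (hFr : ∀ x, F (rot 3 x) = F x) :
    ∫ x in K, F x = (∫ x in T, F x) + 3 * ∫ x in C K, F x := by
  have h3 := sqrt3_pos
  have hs := sq3
  have hTK := T_sub hc hinv h1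
  have hKm := hK.measurableSet
  have hFi : IntegrableOn F K := hF.continuousOn.integrableOn_compact hK
  set C2 : Set (Fin 2 → ℝ) := K ∩ {x | 1 / 2 < 1 / 2 * x 0 + √3 / 2 * x 1} with hC2
  set C3 : Set (Fin 2 → ℝ) := K ∩ {x | 1 / 2 < 1 / 2 * x 0 - √3 / 2 * x 1} with hC3
  have hm1 : MeasurableSet (C K) :=
    hKm.inter (isOpen_lt continuous_const (continuous_apply 0).neg).measurableSet
  have hm2 : MeasurableSet C2 := hKm.inter (isOpen_lt continuous_const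
    ((continuous_const.mul (continuous_apply 0)).add
      (continuous_const.mul (continuous_apply 1)))).measurableSet
  have hm3 : MeasurableSet C3 := hKm.inter (isOpen_lt continuous_const
    ((continuous_const.mul (continuous_apply 0)).sub
      (continuous_const.mul (continuous_apply 1)))).measurableSet
  have hiff : ∀ x, rot 3 x ∈ K ↔ x ∈ K := fun x => ⟨fun h => by
    have := hinv _ (hinv _ h)
    rwa [rot3_cube] at this, hinv x⟩
  have hp1 : rot 3 ⁻¹' C K = C2 := by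
    ext x
    show (rot 3 x ∈ K ∧ 1 / 2 < -rot 3 x 0) ↔ (x ∈ K ∧ 1 / 2 < 1 / 2 * x 0 + √3 / 2 * x 1)
    rw [hiff, rot3_0]
    refine and_congr_right fun _ => ?_
    constructor <;> intro h <;> linarith
  have hp2 : rot 3 ⁻¹' C2 = C3 := by
    ext x
    show (rot 3 x ∈ K ∧ 1 / 2 < 1 / 2 * rot 3 x 0 + √3 / 2 * rot 3 x 1) ↔
      (x ∈ K ∧ 1 / 2 < 1 / 2 * x 0 - √3 / 2 * x 1)
    rw [hiff, rot3_0, rot3_1]
    have h4 : 1 / 2 * (-(1 / 2) * x 0 - √3 / 2 * x 1) +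
        √3 / 2 * (√3 / 2 * x 0 + -(1 / 2) * x 1) = 1 / 2 * x 0 - √3 / 2 * x 1 := by
      linear_combination (1 / 4 * x 0) * hs
    rw [h4]
  have hI2 : ∫ x in C2, F x = ∫ x in C K, F x := by
    rw [← rot3_mp.setIntegral_preimage_emb rot3_emb F (C K), hp1]
    simp only [hFr]
  have hI3 : ∫ x in C3, F x = ∫ x in C K, F x := by
    rw [← hI2, ← rot3_mp.setIntegral_preimage_emb rot3_emb F C2, hp2]
    simp only [hFr]
  have hd23 : Disjoint C2 C3 := by
    rw [disjoint_left]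
    rintro x ⟨hx, h4⟩ ⟨_, h5⟩
    have h4' : 1 / 2 < 1 / 2 * x 0 + √3 / 2 * x 1 := h4
    have h5' : 1 / 2 < 1 / 2 * x 0 - √3 / 2 * x 1 := h5
    have h6 := hle x hx
    nlinarith [sq_nonneg (x 1)]
  have hd1 : Disjoint (C K) (C2 ∪ C3) := by
    rw [disjoint_left]
    rintro x ⟨hx, h4⟩ h5
    have h4' : 1 / 2 < -x 0 := h4
    have h6 := hle x hx
    rcases h5 with ⟨_, h5⟩ | ⟨_, h5⟩
    · have h5' : 1 / 2 < 1 / 2 * x 0 + √3 / 2 * x 1 := h5
      have h7 : 1 < -(1 / 2) * x 0 + √3 / 2 * x 1 := by linarith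
      have h8 : (-(1 / 2) * x 0 + √3 / 2 * x 1) ^ 2 + (√3 / 2 * x 0 + 1 / 2 * x 1) ^ 2 =
          x 0 ^ 2 + x 1 ^ 2 := by linear_combination (1 / 4 * x 0 ^ 2 + 1 / 4 * x 1 ^ 2) * hs
      nlinarith [sq_nonneg (√3 / 2 * x 0 + 1 / 2 * x 1)]
    · have h5' : 1 / 2 < 1 / 2 * x 0 - √3 / 2 * x 1 := h5
      have h7 : 1 < -(1 / 2) * x 0 - √3 / 2 * x 1 := by linarith
      have h8 : (-(1 / 2) * x 0 - √3 / 2 * x 1) ^ 2 + (√3 / 2 * x 0 - 1 / 2 * x 1) ^ 2 =
          x 0 ^ 2 + x 1 ^ 2 := by linear_combination (1 / 4 * x 0 ^ 2 + 1 / 4 * x 1 ^ 2) * hs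
      nlinarith [sq_nonneg (√3 / 2 * x 0 - 1 / 2 * x 1)]
  have hdT : Disjoint T (C K ∪ (C2 ∪ C3)) := by
    rw [disjoint_left]
    rintro x ⟨h4, h5, h6⟩ h7
    rcases h7 with ⟨_, h7⟩ | ⟨_, h7⟩ | ⟨_, h7⟩
    · have h8 : 1 / 2 < -x 0 := h7
      linarith
    · have h8 : 1 / 2 < 1 / 2 * x 0 + √3 / 2 * x 1 := h7
      linarith
    · have h8 : 1 / 2 < 1 / 2 * x 0 - √3 / 2 * x 1 := h7
      linarith
  have hKu : K = T ∪ (C K ∪ (C2 ∪ C3)) := by
    ext x
    constructor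
    · intro hx
      by_cases h4 : 1 / 2 < -x 0
      · exact Or.inr (Or.inl ⟨hx, h4⟩)
      by_cases h5 : 1 / 2 < 1 / 2 * x 0 + √3 / 2 * x 1
      · exact Or.inr (Or.inr (Or.inl ⟨hx, h5⟩))
      by_cases h6 : 1 / 2 < 1 / 2 * x 0 - √3 / 2 * x 1
      · exact Or.inr (Or.inr (Or.inr ⟨hx, h6⟩))
      refine Or.inl ⟨?_, ?_, ?_⟩ <;> linarith
    · rintro (h | h | h | h)
      · exact hTK h
      · exact h.1
      · exact h.1
      · exact h.1
  have hi2 : IntegrableOn F C2 := hFi.mono_set inter_subset_left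
  have hi3 : IntegrableOn F C3 := hFi.mono_set inter_subset_left
  have hi1 : IntegrableOn F (C K) := hFi.mono_set inter_subset_left
  have hiT : IntegrableOn F T := hFi.mono_set hTK
  calc ∫ x in K, F x = ∫ x in T ∪ (C K ∪ (C2 ∪ C3)), F x := by rw [← hKu]
    _ = (∫ x in T, F x) + ((∫ x in C K, F x) + ((∫ x in C2, F x) + ∫ x in C3, F x)) := by
        rw [setIntegral_union hdT (hm1.union (hm2.union hm3)) hiT (hi1.union (hi2.union hi3)),
          setIntegral_union hd1 (hm2.union hm3) hi1 (hi2.union hi3),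
          setIntegral_union hd23 hm3 hi2 hi3]
    _ = _ := by
        rw [hI2, hI3]
        ring

theorem T_compact : IsCompact T := by
  have hs := sq3
  have h3 := sqrt3_pos
  refine Metric.isCompact_of_isClosed_isBounded T_closed ?_
  refine (Metric.isBounded_Icc (fun _ => (-2 : ℝ)) (fun _ => (2 : ℝ))).subset ?_
  rintro x ⟨h4, h5, h6⟩
  have h7 : 1 ≤ √3 := by nlinarith
  have h8 : x 1 ≤ 2 := by nlinarith
  have h9 : -2 ≤ x 1 := by nlinarith
  constructor <;> intro i <;> fin_cases i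
  · show -2 ≤ x 0
    linarith
  · exact h9
  · show x 0 ≤ 2
    linarith
  · exact h8

theorem T_vol : ∫ _ in T, (1 : ℝ) = 3 * √3 / 4 := by
  have hs := sq3
  have h3 := sqrt3_pos
  have hTfin := T_compact
  rw [T_int (F := fun _ => 1)
    (G := fun s => 2 * √3 / 3 + -(2 * √3 / 3) * s + 0 * s ^ 2 + 0 * s ^ 3)
    (continuous_const.continuousOn.integrableOn_compact hTfin)]
  · rw [poly_int]
    ring
  · intro s _
    rw [intervalIntegral.integral_const, smul_eq_mul]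
    field_simp
    linear_combination (-2 + 2 * s) * hs


theorem T_sec : ∫ x in T, (x 0 ^ 2 + x 1 ^ 2) = 3 * √3 / 16 := by
  have hs := sq3
  have h3 := sqrt3_pos
  have hF : Continuous (fun x : Fin 2 → ℝ => x 0 ^ 2 + x 1 ^ 2) := by fun_prop
  rw [T_int (F := fun x => x 0 ^ 2 + x 1 ^ 2)
    (G := fun s => 2 * √3 / 27 + -(2 * √3 / 9) * s + (8 * √3 / 9) * s ^ 2 +
      (-(20 * √3 / 27)) * s ^ 3)
    (hF.continuousOn.integrableOn_compact T_compact)]
  · rw [poly_int]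
    ring
  · intro s _
    have h4 : ∀ w : ℝ, ∫ t in (-w)..w, (s ^ 2 + t ^ 2) = 2 * w * s ^ 2 + 2 * w ^ 3 / 3 := fun w => by
      have h5 := poly_int (-w) w (s ^ 2) 0 1 0
      have h6 : (fun t : ℝ => s ^ 2 + 0 * t + 1 * t ^ 2 + 0 * t ^ 3) = fun t => s ^ 2 + t ^ 2 := by
        funext t
        ring
      rw [h6] at h5
      rw [h5]
      ring
    have h7 : (1 - s) / √3 = √3 / 3 * (1 - s) := by
      field_simp
      linear_combination (-(1 - s)) * hs
    show ∫ t in (-((1 - s) / √3))..((1 - s) / √3), (s ^ 2 + t ^ 2) = _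
    rw [h4, h7]
    linear_combination (2 / 81 * √3 * (1 - s) ^ 3) * hs

/-- The lower boundary of the cap. -/
noncomputable def lo (K : Set (Fin 2 → ℝ)) (s : ℝ) : ℝ := sInf {t : ℝ | ![t, s] ∈ K}

section cap

variable {K : Set (Fin 2 → ℝ)}

theorem sec_closed (hK : IsCompact K) (s : ℝ) : IsClosed {t : ℝ | ![t, s] ∈ K} :=
  hK.isClosed.preimage (vec_cont.comp (Continuous.prodMk continuous_id continuous_const))

theorem edge_mem (hc : Convex ℝ K) (hinv : ∀ x ∈ K, rot 3 x ∈ K) (h1 : ![1, 0] ∈ K) {s : ℝ}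
    (hs : s ∈ Icc (-(√3 / 2)) (√3 / 2)) : ![-(1 / 2), s] ∈ K := by
  refine T_sub hc hinv h1 ⟨?_, ?_, ?_⟩
  · show -(1 / 2) ≤ -(1 / 2 : ℝ)
    exact le_rfl
  · show √3 * s ≤ 1 - -(1 / 2)
    nlinarith [hs.2, sq3, sqrt3_pos]
  · show -(√3 * s) ≤ 1 - -(1 / 2)
    nlinarith [hs.1, sq3, sqrt3_pos]

theorem sec_lb (hle : ∀ x ∈ K, x 0 ^ 2 + x 1 ^ 2 ≤ 1) (s : ℝ) :
    ∀ t ∈ {t : ℝ | ![t, s] ∈ K}, -1 ≤ t := fun t ht => by
  have h := hle _ ht
  have h' : t ^ 2 + s ^ 2 ≤ 1 := h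
  nlinarith [sq_nonneg s]

theorem lo_mem (hc : Convex ℝ K) (hK : IsCompact K) (hinv : ∀ x ∈ K, rot 3 x ∈ K)
    (h1 : ![1, 0] ∈ K) (hle : ∀ x ∈ K, x 0 ^ 2 + x 1 ^ 2 ≤ 1) {s : ℝ}
    (hs : s ∈ Icc (-(√3 / 2)) (√3 / 2)) : ![lo K s, s] ∈ K :=
  (sec_closed hK s).csInf_mem ⟨_, edge_mem hc hinv h1 hs⟩ ⟨-1, sec_lb hle s⟩

theorem lo_le (hle : ∀ x ∈ K, x 0 ^ 2 + x 1 ^ 2 ≤ 1) {s t : ℝ} (ht : ![t, s] ∈ K) :
    lo K s ≤ t := csInf_le ⟨-1, sec_lb hle s⟩ ht

theorem cap_slice (hc : Convex ℝ K) (hK : IsCompact K) (hinv : ∀ x ∈ K, rot 3 x ∈ K)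
    (h1 : ![1, 0] ∈ K) (hle : ∀ x ∈ K, x 0 ^ 2 + x 1 ^ 2 ≤ 1) (s : ℝ) :
    {t : ℝ | ![t, s] ∈ C K} =
      if s ∈ Icc (-(√3 / 2)) (√3 / 2) then Ico (lo K s) (-(1 / 2)) else ∅ := by
  ext t
  have h2 : (![t, s] ∈ C K) ↔ (![t, s] ∈ K ∧ 1 / 2 < -t) := Iff.rfl
  rw [mem_ofPred_eq, h2]
  split_ifs with h
  · constructor
    · rintro ⟨h3, h4⟩
      exact ⟨lo_le hle h3, by linarith⟩
    · rintro ⟨h3, h4⟩
      refine ⟨?_, by linarith⟩
      have h5 := lo_mem hc hK hinv h1 hle h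
      have h6 := edge_mem hc hinv h1 h
      obtain ⟨d, hd⟩ : ∃ d, d = -(1 / 2) - lo K s := ⟨_, rfl⟩
      have h7 : 0 < d := by linarith
      have hl : lo K s = -(1 / 2) - d := by linarith
      rw [hl] at h5 h3
      have h8 := hc h5 h6 (div_nonneg (by linarith : 0 ≤ -(1 / 2) - t) h7.le)
        (div_nonneg (by linarith : 0 ≤ t - (-(1 / 2) - d)) h7.le) (by field_simp; ring)
      have h9 : ((-(1 / 2) - t) / d) • (![-(1 / 2) - d, s] : Fin 2 → ℝ) +
          ((t - (-(1 / 2) - d)) / d) • ![-(1 / 2), s] = ![t, s] := by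
        ext i
        fin_cases i
        · show (-(1 / 2) - t) / d * (-(1 / 2) - d) + (t - (-(1 / 2) - d)) / d * -(1 / 2) = t
          field_simp
          ring
        · show (-(1 / 2) - t) / d * s + (t - (-(1 / 2) - d)) / d * s = s
          field_simp
          ring
      rw [h9] at h8
      exact h8
  · simp only [mem_empty_iff_false, iff_false]
    rintro ⟨h3, h4⟩
    apply h
    have h5 : t ^ 2 + s ^ 2 ≤ 1 := hle _ h3
    have h6 : s ^ 2 ≤ (√3 / 2) ^ 2 := by nlinarith [sq3]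
    exact ⟨(abs_le_of_sq_le_sq' h6 (by linarith [sqrt3_pos])).1,
      (abs_le_of_sq_le_sq' h6 (by linarith [sqrt3_pos])).2⟩

theorem lo_half (hc : Convex ℝ K) (hinv : ∀ x ∈ K, rot 3 x ∈ K)
    (h1 : ![1, 0] ∈ K) (hle : ∀ x ∈ K, x 0 ^ 2 + x 1 ^ 2 ≤ 1) {s : ℝ}
    (hs : s ∈ Icc (-(√3 / 2)) (√3 / 2)) : lo K s ≤ -(1 / 2) :=
  lo_le hle (edge_mem hc hinv h1 hs)

theorem cap_int (hc : Convex ℝ K) (hK : IsCompact K) (hinv : ∀ x ∈ K, rot 3 x ∈ K)
    (h1 : ![1, 0] ∈ K) (hle : ∀ x ∈ K, x 0 ^ 2 + x 1 ^ 2 ≤ 1)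
    {F : (Fin 2 → ℝ) → ℝ} (hF : Continuous F) {G : ℝ → ℝ}
    (hG : ∀ s ∈ Icc (-(√3 / 2)) (√3 / 2), ∫ t in (lo K s)..(-(1 / 2)), F ![t, s] = G s) :
    ∫ x in C K, F x = ∫ s in (-(√3 / 2))..(√3 / 2), G s := by
  have h3 := sqrt3_pos
  have hm1 : MeasurableSet (C K) := hK.measurableSet.inter
    (isOpen_lt continuous_const (continuous_apply 0).neg).measurableSet
  have hi : IntegrableOn F (C K) :=
    (hF.continuousOn.integrableOn_compact hK).mono_set inter_subset_left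
  rw [slice1 hm1 hi, intervalIntegral.integral_of_le (by linarith),
    ← integral_Icc_eq_integral_Ioc, ← integral_indicator measurableSet_Icc]
  refine integral_congr_ae (Filter.Eventually.of_forall fun s => ?_)
  show ∫ t in {t : ℝ | ![t, s] ∈ C K}, F ![t, s] = _
  rw [cap_slice hc hK hinv h1 hle]
  by_cases h : s ∈ Icc (-(√3 / 2)) (√3 / 2)
  · rw [if_pos h, indicator_of_mem h, ← hG s h, integral_Ico_eq_integral_Ioo,
      ← integral_Ioc_eq_integral_Ioo, ← intervalIntegral.integral_of_le]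
    exact lo_half hc hinv h1 hle h
  · rw [if_neg h, indicator_of_notMem h, Measure.restrict_empty, integral_zero_measure]

end cap

end Vale.Agent.P254.Fib.H266

namespace Vale.Agent.P254.Fib

open H266

/-- [R3] the body is the triangle and three congruent caps -/
theorem H266.tri_cap {K : Set (Fin 2 → ℝ)} (hc : Convex ℝ K) (hK : IsCompact K)
    (hinv : ∀ x ∈ K, rot 3 x ∈ K) (h1 : ![1, 0] ∈ K) (hle : ∀ x ∈ K, x 0 ^ 2 + x 1 ^ 2 ≤ 1) :
    ∃ h : ℝ → ℝ, ConcaveOn ℝ (Icc (-(√3 / 2)) (√3 / 2)) h ∧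
      (∀ s ∈ Icc (-(√3 / 2)) (√3 / 2), 0 ≤ h s ∧ h s ≤ 1 / 2) ∧
      (volume K).toReal = 3 * √3 / 4 + 3 * ∫ s in (-(√3 / 2))..(√3 / 2), h s ∧
      (∫ x in K, (x 0 ^ 2 + x 1 ^ 2)) = 3 * √3 / 16 + 3 * ∫ s in (-(√3 / 2))..(√3 / 2),
        ((s ^ 2 + 1 / 4) * h s + h s ^ 2 / 2 + h s ^ 3 / 3) := by
  refine ⟨fun s => -(1 / 2) - lo K s, ⟨convex_Icc _ _, ?_⟩, ?_, ?_, ?_⟩
  · intro x hx y hy a b ha hb hab
    have h2 := hc (lo_mem hc hK hinv h1 hle hx) (lo_mem hc hK hinv h1 hle hy) ha hb hab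
    have h3 : a • (![lo K x, x] : Fin 2 → ℝ) + b • ![lo K y, y] =
        ![a * lo K x + b * lo K y, a • x + b • y] := by
      ext i
      fin_cases i <;> rfl
    rw [h3] at h2
    have h4 := lo_le hle h2
    show a * (-(1 / 2) - lo K x) + b * (-(1 / 2) - lo K y) ≤ -(1 / 2) - lo K (a • x + b • y)
    have h5 : a * (-(1 / 2) - lo K x) + b * (-(1 / 2) - lo K y) =
        -(1 / 2) - (a * lo K x + b * lo K y) := by linear_combination (-(1 / 2)) * hab
    rw [h5]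
    linarith
  · intro s hs
    have h2 := lo_half hc hinv h1 hle hs
    have h3 := sec_lb hle s _ (lo_mem hc hK hinv h1 hle hs)
    constructor
    · show 0 ≤ -(1 / 2) - lo K s
      linarith
    · show -(1 / 2) - lo K s ≤ 1 / 2
      linarith
  · have h2 := decomp hc hK hinv h1 hle (F := fun _ => 1) continuous_const (fun _ => rfl)
    rw [T_vol, cap_int hc hK hinv h1 hle (F := fun _ => 1) continuous_const
      (G := fun s => -(1 / 2) - lo K s) (fun s _ => by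
        rw [intervalIntegral.integral_const, smul_eq_mul, mul_one])] at h2
    rw [← h2, setIntegral_const, smul_eq_mul, mul_one]
    rfl
  · have hF : Continuous (fun x : Fin 2 → ℝ => x 0 ^ 2 + x 1 ^ 2) := by fun_prop
    have h2 := decomp hc hK hinv h1 hle hF (fun x => by
      show rot 3 x 0 ^ 2 + rot 3 x 1 ^ 2 = x 0 ^ 2 + x 1 ^ 2
      rw [rot3_0, rot3_1]
      linear_combination (1 / 4 * x 0 ^ 2 + 1 / 4 * x 1 ^ 2) * sq3)
    rw [h2, T_sec, cap_int hc hK hinv h1 hle hF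
      (G := fun s => (s ^ 2 + 1 / 4) * (-(1 / 2) - lo K s) + (-(1 / 2) - lo K s) ^ 2 / 2 +
        (-(1 / 2) - lo K s) ^ 3 / 3) (fun s _ => by
        show ∫ t in (lo K s)..(-(1 / 2)), (t ^ 2 + s ^ 2) = _
        have h5 := poly_int (lo K s) (-(1 / 2)) (s ^ 2) 0 1 0
        have h6 : (fun t : ℝ => s ^ 2 + 0 * t + 1 * t ^ 2 + 0 * t ^ 3) =
            fun t => t ^ 2 + s ^ 2 := by
          funext t
          ring
        rw [h6] at h5
        rw [h5]
        ring)]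

end Vale.Agent.P254.Fib
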